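import Vale.Agent.P146.H655.Gum
import Vale.Agent.P146.H863.GumLC

/-!
# P146: anticoncentration of the free energy at the scale of its standard deviation

For every `n`, `β`, `y` and `u ≥ 0`: `P(|F_n - y| ≤ u) ≤ C (u + 1) / (1 + sd F_n)`.
-/

open MeasureTheory ProbabilityTheory Set

namespace Vale.Agent.P146.H655

open Vale.Agent.P146.H605

variable (n : ℕ) (β : ℝ)

lemma dens_eq (y : ℝ) : dens (disorder n) (freeEnergy n β) y = H863.p n β y := rfl

lemma dens_lc {s t : ℝ} (hs : 0 < s) (ht : 0 < t) (hst : s + t = 1) (a b : ℝ) :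
    dens (disorder n) (freeEnergy n β) a ^ s * dens (disorder n) (freeEnergy n β) b ^ t ≤
      dens (disorder n) (freeEnergy n β) (s * a + t * b) :=
  H863.p_pow n β hs ht hst

/-- **Anticoncentration**: the probability that the free energy lies in an interval of length
`2u` is at most `C (u + 1) / (1 + sd)`. -/
theorem anticoncentration (y : ℝ) {u : ℝ} (hu : 0 ≤ u) :
    (disorder n).real {g | |freeEnergy n β g - y| ≤ u} ≤
      2610 * (u + 1) / (1 + Real.sqrt Var[freeEnergy n β; disorder n]) :=
  small_ball (H863.cont_freeEnergy n β).measurable (dens_lc n β) y hu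

/-- The density of `F_n + Gumbel` is log-concave and at most `C / (1 + sd)`. -/
theorem gumbel_density (y : ℝ) :
    ∫ g, Real.exp (freeEnergy n β g - y - Real.exp (freeEnergy n β g - y)) ∂(disorder n) ≤
      145 / (1 + Real.sqrt Var[freeEnergy n β; disorder n]) :=
  dens_le (H863.cont_freeEnergy n β).measurable (dens_lc n β) y

end Vale.Agent.P146.H655
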