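import Vale.Agent.P146.H655.GridC
import Vale.Agent.P146.H693.DeepFis

/-!
Good times on a grid, part 4: one deep time `t0` which is good for dense sets of late times in
every one of finitely many sub-intervals.
-/

open MeasureTheory ProbabilityTheory

namespace Vale.Agent.P146.H655

open Vale.Agent.P157.Lv Vale.Agent.P146.H425 Vale.Agent.P146.H325 Vale.Agent.P146.H332
  Vale.Agent.P146.H712 Vale.Agent.P146.H816 Vale.Agent.P146.R1 Vale.Agent.P146.R1C Matrix
  Vale.Agent.P146.R1S Vale.Agent.P146.H693 Vale.Agent.P146.H946.En2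
open Vale.Agent.P146.H785 (Ax)

set_option linter.unusedSectionVars false

/-! ### counting -/

/-- **A common good index.** -/
theorem good_common {M0 J M : ℕ} (B : ℕ → ℕ → ℕ → Prop)
    [∀ i l j, Decidable (B i l j)] {c0 : ℝ} (hM0 : 0 < M0)
    (h : ∀ l < J, ∀ j < M, (((Finset.range M0).filter fun i => B i l j).card : ℝ) ≤ c0) :
    ∃ i < M0, ∀ l < J,
      (M0 : ℝ) * ((Finset.range M).filter fun j => B i l j).card ≤ J * M * c0 := by
  by_contra hcon
  push Not at hcon
  have hM0' : (0 : ℝ) < M0 := by exact_mod_cast hM0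
  -- the total number of bad triples
  have e1 : ∑ i ∈ Finset.range M0, ∑ l ∈ Finset.range J,
      (((Finset.range M).filter fun j => B i l j).card : ℝ) =
      ∑ l ∈ Finset.range J, ∑ j ∈ Finset.range M,
        (((Finset.range M0).filter fun i => B i l j).card : ℝ) := by
    rw [Finset.sum_comm]
    refine Finset.sum_congr rfl fun l _ => ?_
    have e2 : ∀ i, (((Finset.range M).filter fun j => B i l j).card : ℝ) =
        ∑ j ∈ Finset.range M, if B i l j then 1 else 0 := fun i => by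
      rw [Finset.card_filter]
      push_cast
      rfl
    have e3 : ∀ j, (((Finset.range M0).filter fun i => B i l j).card : ℝ) =
        ∑ i ∈ Finset.range M0, if B i l j then 1 else 0 := fun j => by
      rw [Finset.card_filter]
      push_cast
      rfl
    simp only [e2, e3]
    exact Finset.sum_comm
  have h1 : ∑ l ∈ Finset.range J, ∑ j ∈ Finset.range M,
      (((Finset.range M0).filter fun i => B i l j).card : ℝ) ≤ J * M * c0 := by
    have h2 : ∀ l ∈ Finset.range J, ∑ j ∈ Finset.range M,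
        (((Finset.range M0).filter fun i => B i l j).card : ℝ) ≤ M * c0 := by
      intro l hl
      have h3 := Finset.sum_le_sum fun j (hj : j ∈ Finset.range M) =>
        h l (Finset.mem_range.1 hl) j (Finset.mem_range.1 hj)
      rwa [Finset.sum_const, Finset.card_range, nsmul_eq_mul] at h3
    have h3 := Finset.sum_le_sum h2
    rw [Finset.sum_const, Finset.card_range, nsmul_eq_mul] at h3
    linarith
  have h2 : ∀ i ∈ Finset.range M0, (J * M * c0 : ℝ) / M0 < ∑ l ∈ Finset.range J,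
      (((Finset.range M).filter fun j => B i l j).card : ℝ) := by
    intro i hi
    obtain ⟨l, hl, hl2⟩ := hcon i (Finset.mem_range.1 hi)
    have h3 : (((Finset.range M).filter fun j => B i l j).card : ℝ) ≤
        ∑ l ∈ Finset.range J, (((Finset.range M).filter fun j => B i l j).card : ℝ) :=
      Finset.single_le_sum
        (f := fun l => (((Finset.range M).filter fun j => B i l j).card : ℝ))
        (fun _ _ => Nat.cast_nonneg _) (Finset.mem_range.2 hl)
    rw [div_lt_iff₀ hM0']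
    calc (J * M * c0 : ℝ) < M0 * ((Finset.range M).filter fun j => B i l j).card := hl2
      _ ≤ M0 * _ := mul_le_mul_of_nonneg_left h3 hM0'.le
      _ = _ := mul_comm _ _
  have h3 := Finset.sum_lt_sum_of_nonempty (s := Finset.range M0)
    ⟨0, Finset.mem_range.2 hM0⟩ h2
  rw [e1, Finset.sum_const, Finset.card_range, nsmul_eq_mul, mul_div_cancel₀ _ hM0'.ne'] at h3
  linarith

/-- removing few elements -/
lemma card_diff_ge {M : ℕ} {G : Finset ℕ} (hG : G ⊆ Finset.range M) (p : ℕ → Prop)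
    [DecidablePred p] {α β : ℝ} (h1 : α ≤ G.card)
    (h2 : (((Finset.range M).filter p).card : ℝ) ≤ β) :
    α - β ≤ (G.filter fun j => ¬ p j).card := by
  have h3 : G.card = (G.filter p).card + (G.filter fun j => ¬ p j).card :=
    (Finset.card_filter_add_card_filter_not (s := G) p).symm
  have h4 : (G.filter p).card ≤ ((Finset.range M).filter p).card :=
    Finset.card_le_card (Finset.filter_subset_filter _ hG)
  have h5 : (G.card : ℝ) = (G.filter p).card + (G.filter fun j => ¬ p j).card := by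
    exact_mod_cast h3
  have h6 : ((G.filter p).card : ℝ) ≤ ((Finset.range M).filter p).card := by exact_mod_cast h4
  linarith

/-! ### the deep energy -/

/-- the stack with one more layer on top -/
def cns (a : ℝ) (f : ℕ → ℝ) : ℕ → ℝ := fun j => Nat.casesOn j a f

@[simp] lemma cns_zero (a : ℝ) (f : ℕ → ℝ) : cns a f 0 = a := rfl

@[simp] lemma cns_succ (a : ℝ) (f : ℕ → ℝ) (j : ℕ) : cns a f (j + 1) = f j := rfl

lemma cns_one_add (a : ℝ) (f : ℕ → ℝ) : (fun j => cns a f (1 + j)) = f :=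
  funext fun j => by rw [Nat.add_comm]; rfl

lemma Pm_cns {x : ℝ} {m : ℕ → ℝ} {P : ℕ} (hx : 0 < x) (hm : Pm m (P + 1)) :
    Pm (cns x m) (P + 1 + 1) := by
  intro j hj
  cases j with
  | zero => exact hx
  | succ j => exact hm j (by omega)

variable {n : ℕ} {k x : ℝ} {S : CS n k x} {w t t' : ℝ} {m σ : ℕ → ℝ} {P : ℕ}

/-- the lower layers with the last one ending at the deep time `t0` -/
noncomputable def upd (σ : ℕ → ℝ) (P : ℕ) (T t0 : ℝ) : ℕ → ℝ :=
  Function.update σ P (√(T - t0))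

/-- the energy of `Y = Q_1(t)` in the deep position -/
noncomputable def EnY (S : CS n k x) (w : ℝ) (m σ : ℕ → ℝ) (N : ℕ) (c t : ℝ) : ℝ :=
  EnD S t (cns x m) (cns (√(t - w)) σ) (N + 1) c

lemma NQ_nF (h1 : w ≤ t) (h2 : t ≤ 1) (N : ℕ) (c : ℝ) :
    NQ S w m σ N c t = nF S t (cns x m) (cns (√(t - w)) σ) (N + 1) c := by
  have h := NQ_eq (S := S) (m := cns x m) (σ := cns (√(t - w)) σ) h1 h2 rfl rfl N c
  rw [cns_one_add, cns_one_add] at h
  exact h.symm

/-- the energy in given letters -/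
lemma EnY_eq {m' σ' : ℕ → ℝ} {N : ℕ} (hm0 : m' 0 = x) (hσ0 : σ' 0 = √(t - w)) (c : ℝ) :
    EnD S t m' σ' (N + 1) c =
      EnY S w (fun j => m' (1 + j)) (fun j => σ' (1 + j)) N c t := by
  have e1 : cns x (fun j => m' (1 + j)) = m' := by
    funext j
    cases j with
    | zero => exact hm0.symm
    | succ j => show m' (1 + j) = m' (j + 1); rw [Nat.add_comm]
  have e2 : cns (√(t - w)) (fun j => σ' (1 + j)) = σ' := by
    funext j
    cases j with
    | zero => exact hσ0.symm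
    | succ j => show σ' (1 + j) = σ' (j + 1); rw [Nat.add_comm]
  unfold EnY
  rw [e1, e2]

lemma EnY_nonneg (N : ℕ) (c : ℝ) : 0 ≤ EnY S w m σ N c t :=
  integral_nonneg fun _ => Finset.sum_nonneg fun _ _ => Finset.sum_nonneg fun _ _ =>
    Finset.sum_nonneg fun _ _ => sq_nonneg _

/-- **The deep step** in the letters of the rates. -/
theorem EnY_step (hm : Pm m (P + 1)) (h0 : m P = 0) {T a b : ℝ} (ha : 0 ≤ a) (hab : a ≤ b)
    (hb : b ≤ T) (h1 : w ≤ t) (h2 : t ≤ 1) :
    (b - a) * EnY S w m (upd σ P T a) (P + 1) (√a) t ≤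
      NQ S w m (upd σ P T b) (P + 1) (√b) t - NQ S w m (upd σ P T a) (P + 1) (√a) t := by
  have h := deep_step (S := S) (t2 := t) (m := cns x m) (σ := cns (√(t - w)) (upd σ P T a))
    (σ' := cns (√(t - w)) (upd σ P T b)) (N := P + 1) (Pm_cns S.x0 hm) (by simpa using h0)
    (fun i hi => by
      cases i with
      | zero => rfl
      | succ i =>
        simp only [cns_succ]
        unfold upd
        rw [Function.update_of_ne (by omega), Function.update_of_ne (by omega)])
    ha hab hb (by simp only [cns_succ]; unfold upd; rw [Function.update_self])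
    (by simp only [cns_succ]; unfold upd; rw [Function.update_self])
  rw [NQ_nF h1 h2, NQ_nF h1 h2]
  unfold EnY
  linarith

/-- **Few bad deep times** for each late time. -/
theorem deep_bad (hm : Pm m (P + 1)) (h0 : m P = 0) (hn : 2 ≤ n) {T a h q : ℝ} {M0 : ℕ}
    (ha : 0 ≤ a) (hh : 0 ≤ h) (hT : a + h ≤ T) (hq : 0 < q) (hM : 6 * q * Real.log n ≤ M0)
    (h1 : w ≤ t) (h2 : t ≤ 1) :
    (((Finset.range M0).filter fun i : ℕ =>
      6 * q * Real.log n * NQ S w m (upd σ P T (a + i * (h / M0))) (P + 1)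
        (√(a + i * (h / M0))) t < h * EnY S w m (upd σ P T (a + i * (h / M0))) (P + 1)
          (√(a + i * (h / M0))) t).card : ℝ) ≤ M0 / q := by
  have hn2 : (2 : ℝ) ≤ n := by exact_mod_cast hn
  have hn0 : (0 : ℝ) < n := by linarith
  have hl : 0 < Real.log n := Real.log_pos (by linarith)
  have hK : 0 < 6 * q * Real.log n := by positivity
  have hM0 : (0 : ℝ) < M0 := hK.trans_le hM
  set δ := h / M0 with hδ
  have hδ0 : 0 ≤ δ := by positivity
  have hMδ : M0 * δ = h := by rw [hδ]; field_simp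
  have hle : ∀ i : ℕ, i ≤ M0 → a + i * δ ≤ T := by
    intro i hi
    have : (i : ℝ) ≤ M0 := by exact_mod_cast hi
    nlinarith
  have h3 := bad_count (F := fun i : ℕ => NQ S w m (upd σ P T (a + i * δ)) (P + 1)
      (√(a + i * δ)) t) (g := fun i : ℕ => EnY S w m (upd σ P T (a + i * δ)) (P + 1)
      (√(a + i * δ)) t) (N := M0) (δ := δ) (K := 6 * q * Real.log n) (R := (n : ℝ) ^ 3)
    (hn0.trans_le (NQ_ge hm _)) hδ0 (fun i _ => EnY_nonneg _ _)
    (fun i hi => by
      have h4 := EnY_step (S := S) (w := w) (σ := σ) (T := T) (a := a + i * δ)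
        (b := a + ((i + 1 : ℕ) : ℝ) * δ) hm h0 (by positivity)
        (by push_cast; nlinarith) (hle _ (by omega)) h1 h2
      have e : a + ((i + 1 : ℕ) : ℝ) * δ - (a + i * δ) = δ := by push_cast; ring
      rw [e] at h4
      exact h4)
    (by
      refine (NQ_le hm _).trans ?_
      calc (n : ℝ) ^ 4 = (n : ℝ) ^ 3 * n := by ring
        _ ≤ _ := mul_le_mul_of_nonneg_left (NQ_ge hm _) (by positivity)) hK hM
  rw [Real.log_pow] at h3
  push_cast at h3
  simp only [hMδ] at h3
  rw [le_div_iff₀ hq]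
  have h4 : (((Finset.range M0).filter fun i : ℕ =>
      6 * q * Real.log n * NQ S w m (upd σ P T (a + i * δ)) (P + 1)
        (√(a + i * δ)) t < h * EnY S w m (upd σ P T (a + i * δ)) (P + 1)
          (√(a + i * δ)) t).card : ℝ) * q * (6 * Real.log n) ≤ M0 * (6 * Real.log n) := by
    linarith
  exact le_of_mul_le_mul_right h4 (by positivity)

/-- **One deep time for all sub-intervals.** For every `l < J`, `j < M` let `τ l j ∈ [w, 1]` be a
late time; then there is a deep time for which all but a fraction `J / q` of the late times of each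
row have a small deep energy. -/
theorem deep_common (hm : Pm m (P + 1)) (h0 : m P = 0) (hn : 2 ≤ n) {T a h q : ℝ}
    {M0 J M : ℕ} (ha : 0 ≤ a) (hh : 0 ≤ h) (hT : a + h ≤ T) (hq : 0 < q)
    (hM : 6 * q * Real.log n ≤ M0) (τ : ℕ → ℕ → ℝ) (h1 : ∀ l < J, ∀ j < M, w ≤ τ l j)
    (h2 : ∀ l < J, ∀ j < M, τ l j ≤ 1) :
    ∃ i < M0, ∀ l < J, (((Finset.range M).filter fun j : ℕ =>
      6 * q * Real.log n * NQ S w m (upd σ P T (a + i * (h / M0))) (P + 1)
        (√(a + i * (h / M0))) (τ l j) < h * EnY S w m (upd σ P T (a + i * (h / M0))) (P + 1)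
          (√(a + i * (h / M0))) (τ l j)).card : ℝ) ≤ M * (J / q) := by
  classical
  have hn2 : (2 : ℝ) ≤ n := by exact_mod_cast hn
  have hl : 0 < Real.log n := Real.log_pos (by linarith)
  have hM0 : (0 : ℝ) < M0 := lt_of_lt_of_le (by positivity) hM
  obtain ⟨i, hi, hi2⟩ := good_common (M0 := M0) (J := J) (M := M)
    (fun i l j => 6 * q * Real.log n * NQ S w m (upd σ P T (a + i * (h / M0))) (P + 1)
        (√(a + i * (h / M0))) (τ l j) < h * EnY S w m (upd σ P T (a + i * (h / M0))) (P + 1)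
          (√(a + i * (h / M0))) (τ l j)) (c0 := M0 / q) (by exact_mod_cast hM0)
    (fun l hl j hj => by
      have := deep_bad (S := S) (σ := σ) (t := τ l j) hm h0 hn ha hh hT hq hM (h1 l hl j hj)
        (h2 l hl j hj)
      convert this)
  refine ⟨i, hi, fun l hl => ?_⟩
  have h3 := hi2 l hl
  have h4 : (J : ℝ) * M * (M0 / q) = M0 * (M * (J / q)) := by ring
  rw [h4] at h3
  have h5 := le_of_mul_le_mul_left h3 hM0
  convert h5

/-- **One deep time and dense sets of good late times in all sub-intervals.** -/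
theorem pair_rates {ι κ : Type*} [Fintype ι] [Fintype κ] (hm : Pm m (P + 1)) (h0 : m P = 0)
    (hn : 2 ≤ n) {T a0 h0' q0 : ℝ} {M0 J : ℕ} (ha0 : 0 ≤ a0) (hh0 : 0 ≤ h0')
    (hT0 : a0 + h0' ≤ T) (hq0 : 0 < q0) (hM0 : 6 * q0 * Real.log n ≤ M0)
    {T0 h Δ ε q Nb η : ℝ} {M : ℕ} (h1 : w ≤ T0) (hh : 0 < h) (hΔ : 0 ≤ Δ)
    (h2 : T0 + (J + 1) * h + Δ ≤ 1) (hSh : Sh S (h / M)) (hq : 1 ≤ q) (hε : 0 < ε)
    (hNb : 0 < Nb)
    (hpB : ∀ i < M0, ∀ t, T0 ≤ t → t ≤ T0 + J * h →
      pB S w m (upd σ P T (a0 + i * (h0' / M0))) (P + 1) (√(a0 + i * (h0' / M0))) Nb t ≤ η)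
    (hη : (4 + 128 * M) * (n : ℝ) ^ 6 * η ≤ Nb * n) (hM1 : 8 * q * Real.log n ≤ M)
    (hM2 : 6 * q * Real.log n ≤ M * Real.log (1 + ε))
    (hΔ2 : 6 * q * Real.log n * Δ ≤ h * Real.log (1 + ε)) {f g : ℕ → ι → ℝ → ℝ}
    {e K R : ℕ → ℕ → ι → ℝ} (hf : ∀ i < M0, ∀ l < J, ∀ o, 0 < f i o (T0 + l * h))
    (hg : ∀ i < M0, ∀ o t, T0 ≤ t → t ≤ T0 + J * h → 0 ≤ g i o t)
    (hs : ∀ i < M0, ∀ l < J, ∀ o t, T0 + l * h ≤ t → t + h / M ≤ T0 + l * h + h →
      h / M * g i o t ≤ f i o (t + h / M) - f i o t + e i l o)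
    (hR : ∀ i < M0, ∀ l < J, ∀ o,
      f i o (T0 + l * h + h) + M * e i l o ≤ R i l o * f i o (T0 + l * h))
    (hK : ∀ i < M0, ∀ l < J, ∀ o, 2 * q * Real.log (R i l o) ≤ K i l o)
    (hK0 : ∀ i < M0, ∀ l < J, ∀ o, 0 < K i l o) (hKM : ∀ i < M0, ∀ l < J, ∀ o, K i l o ≤ M)
    {F : ℕ → κ → ℝ → ℝ} {R' : ℕ → κ → ℝ} (hF : ∀ i < M0, ∀ o, 0 < F i o T0)
    (hFm : ∀ i < M0, ∀ o t t', T0 ≤ t → t ≤ t' → t' ≤ 1 → F i o t ≤ F i o t')
    (hFR : ∀ i < M0, ∀ o, F i o 1 ≤ R' i o * F i o T0) (hR'0 : ∀ i < M0, ∀ o, 0 ≤ R' i o)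
    (hFM : ∀ i < M0, ∀ o, 2 * q * Real.log (R' i o) ≤ M * Real.log (1 + ε))
    (hFΔ : ∀ i < M0, ∀ o, 2 * q * Real.log (R' i o) * Δ ≤ h * Real.log (1 + ε)) :
    ∃ i < M0, ∀ l < J, ∃ G ⊆ Finset.range M,
      (M : ℝ) * (1 - (Fintype.card ι + Fintype.card κ + 4) / q - J / q0) ≤ G.card ∧
      ∀ j ∈ G, ∀ t0 t, t0 = a0 + i * (h0' / M0) → t = T0 + l * h + j * (h / M) →
        Rates S w m (upd σ P T t0) (P + 1) (√t0) h Δ ε q Nb t ∧
        h0' * EnY S w m (upd σ P T t0) (P + 1) (√t0) t ≤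
          6 * q0 * Real.log n * NQ S w m (upd σ P T t0) (P + 1) (√t0) t ∧
        (∀ o, h * g i o t ≤ K i l o * (f i o t + j * e i l o)) ∧
        (∀ o, F i o (t + Δ) ≤ (1 + ε) * F i o t) := by
  classical
  have hn2 : (2 : ℝ) ≤ n := by exact_mod_cast hn
  have hl : 0 < Real.log n := Real.log_pos (by linarith)
  have hM : (0 : ℝ) < M := lt_of_lt_of_le (by positivity) hM1
  have hlh : ∀ l < J, (l : ℝ) * h + h ≤ J * h := by
    intro l hl
    have : (l : ℝ) + 1 ≤ J := by exact_mod_cast hl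
    nlinarith
  have hjh : ∀ j < M, (j : ℝ) * (h / M) ≤ h := by
    intro j hj
    have h3 : (j : ℝ) ≤ M := by exact_mod_cast hj.le
    have h4 : (j : ℝ) * (h / M) ≤ M * (h / M) := mul_le_mul_of_nonneg_right h3 (by positivity)
    have h5 : (M : ℝ) * (h / M) = h := by field_simp
    linarith
  have hlT : ∀ l : ℕ, T0 ≤ T0 + l * h := fun l => by
    have : 0 ≤ (l : ℝ) * h := by positivity
    linarith
  obtain ⟨i, hi, hi2⟩ := deep_common (S := S) (σ := σ) (J := J) (M := M) hm h0 hn ha0 hh0 hT0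
    hq0 hM0 (fun l j => T0 + l * h + j * (h / M))
    (fun l hl j hj => by
      have a1 : 0 ≤ (j : ℝ) * (h / M) := by positivity
      have a2 := hlT l
      show w ≤ T0 + l * h + j * (h / M)
      linarith)
    (fun l hl j hj => by
      have a1 := hlh l hl
      have a2 := hjh j hj
      show T0 + l * h + j * (h / M) ≤ 1
      linarith)
  refine ⟨i, hi, fun l hl => ?_⟩
  have a1 := hlh l hl
  obtain ⟨G, hG, hc, hb⟩ := all_rates (ι := ι) (κ := κ) (S := S)
    (σ := upd σ P T (a0 + i * (h0' / M0))) (a := T0 + l * h) (f := f i) (g := g i)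
    (e := e i l) (K := K i l) (R := R i l) (F := F i)
    (R' := fun o => R' i o) hm (√(a0 + i * (h0' / M0))) hn
    (h1.trans (hlT l)) hh hΔ (by linarith) hSh hq hε hNb
    (fun t b1 b2 => hpB i hi t ((hlT l).trans b1) (by linarith)) hη hM1 hM2 hΔ2
    (hf i hi l hl) (fun o t b1 b2 => hg i hi o t ((hlT l).trans b1) (by linarith))
    (hs i hi l hl) (hR i hi l hl) (hK i hi l hl) (hK0 i hi l hl) (hKM i hi l hl)
    (fun o => (hF i hi o).trans_le (hFm i hi o _ _ le_rfl (hlT l) (by linarith)))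
    (fun o t t' b1 b2 b3 => hFm i hi o t t' ((hlT l).trans b1) b2 b3)
    (fun o => (hFR i hi o).trans (mul_le_mul_of_nonneg_left
      (hFm i hi o _ _ le_rfl (hlT l) (by linarith)) (hR'0 i hi o)))
    (hFM i hi) (hFΔ i hi)
  refine ⟨G.filter fun j => ¬ (6 * q0 * Real.log n * NQ S w m (upd σ P T (a0 + i * (h0' / M0)))
    (P + 1) (√(a0 + i * (h0' / M0))) (T0 + l * h + j * (h / M)) <
      h0' * EnY S w m (upd σ P T (a0 + i * (h0' / M0))) (P + 1)
        (√(a0 + i * (h0' / M0))) (T0 + l * h + j * (h / M))),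
    (Finset.filter_subset _ _).trans hG, ?_, ?_⟩
  · have h3 := card_diff_ge hG (fun j : ℕ => 6 * q0 * Real.log n *
      NQ S w m (upd σ P T (a0 + i * (h0' / M0)))
      (P + 1) (√(a0 + i * (h0' / M0))) (T0 + l * h + j * (h / M)) <
      h0' * EnY S w m (upd σ P T (a0 + i * (h0' / M0))) (P + 1)
        (√(a0 + i * (h0' / M0))) (T0 + l * h + j * (h / M))) hc (β := M * (J / q0)) (by
        have := hi2 l hl
        convert this)
    refine le_trans (le_of_eq ?_) h3
    ring
  · intro j hj t0 t ht0 ht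
    rw [Finset.mem_filter] at hj
    obtain ⟨b1, b2, b3⟩ := hb j hj.1 t ht
    subst ht0
    refine ⟨b1, ?_, b2, b3⟩
    rw [ht]
    exact not_lt.1 hj.2

end Vale.Agent.P146.H655
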