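import Vale.Agent.P146.H655.PigD
import Vale.Agent.P146.H785.Grid

/-!
Pigeonhole in time, part 5: the matrix `Q_1(t)` in the letters `QR` of the layered laws; weights
other than `Q_1(t)`.
-/

open MeasureTheory ProbabilityTheory

namespace Vale.Agent.P146.H655

open Vale.Agent.P157.Lv Vale.Agent.P146.H425 Vale.Agent.P146.H325 Vale.Agent.P146.H332
  Vale.Agent.P146.H712 Vale.Agent.P146.H816 Vale.Agent.P146.R1 Vale.Agent.P146.R1C Matrix
  Vale.Agent.P146.R1S Vale.Agent.P146.H693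
open Vale.Agent.P146.H785 (Ax)

set_option linter.unusedSectionVars false

variable {n : ℕ} {k x : ℝ} {S : CS n k x} {w t t' : ℝ} {m σ : ℕ → ℝ} {N : ℕ}

/-! ### the letters of the layered laws -/

/-- the layered mean whose innermost layer is the window `[w, t]` with the exponent `x` -/
theorem Tl_eq_E1 (h1 : w ≤ t) (h2 : t ≤ 1) (hm0 : m 0 = x) (hσ0 : σ 0 = √(t - w))
    (φ : (Pair n → ℝ) → ℝ) (N : ℕ) (z : Pair n → ℝ) :
    Tl S t m σ φ (N + 1) z =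
      E1 S w (fun j => m (1 + j)) (fun j => σ (1 + j)) N t φ z := by
  have e1 : FD (uu x t S.F) m σ 1 = uu x w S.F := by
    show W (m 0) (σ 0) (uu x t S.F) = uu x w S.F
    rw [hm0, hσ0]
    exact (funext fun z => uu_tw S h1 h2 z).symm
  have e2 : TD (uu x t S.F) m σ φ 1 = Aw S w t φ := by
    show Ax (m 0) (σ 0) (uu x t S.F) φ = _
    rw [hm0, hσ0]
    rfl
  unfold Tl E1
  rw [Nat.add_comm N 1, H785.TD_shift, e1, e2]
  rfl

theorem QR_eq_Q1 (h1 : w ≤ t) (h2 : t ≤ 1) (hm0 : m 0 = x) (hσ0 : σ 0 = √(t - w))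
    (N : ℕ) (z : Pair n → ℝ) :
    QR S t m σ (N + 1) z = Q1 S w (fun j => m (1 + j)) (fun j => σ (1 + j)) N t z := by
  funext i j
  exact Tl_eq_E1 h1 h2 hm0 hσ0 (A2 S t i j) N z

/-- `A = E |Y|²` is `N(t)` -/
theorem NQ_eq (h1 : w ≤ t) (h2 : t ≤ 1) (hm0 : m 0 = x) (hσ0 : σ 0 = √(t - w)) (N : ℕ)
    (c : ℝ) : ∫ g, fr (QR S t m σ (N + 1) (c • g)) ∂(gI (Pair n)) =
      NQ S w (fun j => m (1 + j)) (fun j => σ (1 + j)) N c t := by
  unfold NQ
  simp only [QR_eq_Q1 h1 h2 hm0 hσ0]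

theorem EnQ_eq (h1 : w ≤ t) (h2 : t ≤ 1) (hm0 : m 0 = x) (hσ0 : σ 0 = √(t - w)) (N : ℕ)
    (c : ℝ) : ∫ g, Tl S t m σ (En S t (QR S t m σ (N + 1) (c • g))) (N + 1) (c • g)
      ∂(gI (Pair n)) = EnQ S w (fun j => m (1 + j)) (fun j => σ (1 + j)) N c t := by
  unfold EnQ
  simp only [QR_eq_Q1 h1 h2 hm0 hσ0, Tl_eq_E1 h1 h2 hm0 hσ0]

/-! ### fixed weights -/

/-- `E <Y, C_t ^ 2>` for a psd weight `Y` which is a function of the deep position -/
noncomputable def NW (S : CS n k x) (w : ℝ) (m σ : ℕ → ℝ) (N : ℕ) (c : ℝ)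
    (Y : (Pair n → ℝ) → Matrix (Fin n) (Fin n) ℝ) (t : ℝ) : ℝ :=
  ∫ g, ∑ i, ∑ j, Y (c • g) i j * Q1 S w m σ N t (c • g) i j ∂(gI (Pair n))

/-- `E ∑_e <Y, (D_e C_t) ^ 2>` -/
noncomputable def EnW (S : CS n k x) (w : ℝ) (m σ : ℕ → ℝ) (N : ℕ) (c : ℝ)
    (Y : (Pair n → ℝ) → Matrix (Fin n) (Fin n) ℝ) (t : ℝ) : ℝ :=
  ∫ g, E1 S w m σ N t (En S t (Y (c • g))) (c • g) ∂(gI (Pair n))

/-- `E <Y, (C_t' - C_t) ^ 2>` -/
noncomputable def IncW (S : CS n k x) (w : ℝ) (m σ : ℕ → ℝ) (N : ℕ) (c : ℝ)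
    (Y : (Pair n → ℝ) → Matrix (Fin n) (Fin n) ℝ) (t t' : ℝ) : ℝ :=
  ∫ g, E1 S w m σ N t (Inc S t t' (Y (c • g))) (c • g) ∂(gI (Pair n))

variable {Y : (Pair n → ℝ) → Matrix (Fin n) (Fin n) ℝ}

lemma eg_NW (hm : Pm m N) (c t : ℝ) (hY : ∀ i j, EG fun z => Y z i j) :
    EG fun g : Pair n → ℝ => ∑ i, ∑ j, Y (c • g) i j * Q1 S w m σ N t (c • g) i j :=
  eg_sc (G := fun z => ∑ i, ∑ j, Y z i j * Q1 S w m σ N t z i j) (EG.sum _ fun i _ =>
    EG.sum _ fun j _ => (hY i j).mul (eg_Q1 hm i j)) c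

/-- **The increments with a fixed weight**: an identity. -/
theorem IncW_eq (hm : Pm m N) (c : ℝ) (hY : ∀ i j, EG fun z => Y z i j) (h1 : w ≤ t)
    (h2 : t ≤ t') (h3 : t' ≤ 1) :
    IncW S w m σ N c Y t t' = NW S w m σ N c Y t' - NW S w m σ N c Y t := by
  unfold IncW NW
  rw [← integral_sub (eg_NW hm c t' hY).integrable (eg_NW hm c t hY).integrable]
  refine integral_congr_ae (Filter.Eventually.of_forall fun g => ?_)
  simp only
  rw [E1_Inc hm h1 h2 h3, ← Finset.sum_sub_distrib]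
  refine Finset.sum_congr rfl fun i _ => ?_
  rw [← Finset.sum_sub_distrib]
  exact Finset.sum_congr rfl fun j _ => by ring

theorem NW_mono (hm : Pm m N) (c : ℝ) (hY : ∀ i j, EG fun z => Y z i j) (hp : ∀ z, Psd (Y z))
    (h1 : w ≤ t) (h2 : t ≤ t') (h3 : t' ≤ 1) :
    NW S w m σ N c Y t ≤ NW S w m σ N c Y t' := by
  have h := IncW_eq (S := S) (σ := σ) hm c hY h1 h2 h3
  have h4 : 0 ≤ IncW S w m σ N c Y t t' :=
    integral_nonneg fun g => E1_nonneg (fun u => Inc_nonneg (hp (c • g)) u) (c • g)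
  linarith

lemma eg_EnW (hm : Pm m N) (c : ℝ) (hY : ∀ i j, EG fun z => Y z i j) :
    EG fun g : Pair n → ℝ => E1 S w m σ N t (En S t (Y (c • g))) (c • g) := by
  refine eg_sc (G := fun z => E1 S w m σ N t (En S t (Y z)) z) ?_ c
  have h : (fun z => E1 S w m σ N t (En S t (Y z)) z) = fun z =>
      ∑ i, ∑ j, Y z i j * E1 S w m σ N t
        (fun u => ∑ e : Pair n, ∑ l, S.DA t e u i l * S.DA t e u l j) z :=
    funext fun z => E1_En hm _ z
  rw [h]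
  exact EG.sum _ fun i _ => EG.sum _ fun j _ => (hY i j).mul
    (eg_E1 hm (EG.sum _ fun e _ => EG.sum _ fun l _ => (S.eg_DA t e i l).mul (S.eg_DA t e l j)))

lemma eg_IncW (hm : Pm m N) (c : ℝ) (hY : ∀ i j, EG fun z => Y z i j) (h1 : w ≤ t)
    (h2 : t ≤ t') (h3 : t' ≤ 1) :
    EG fun g : Pair n → ℝ => E1 S w m σ N t (Inc S t t' (Y (c • g))) (c • g) := by
  refine eg_sc (G := fun z => E1 S w m σ N t (Inc S t t' (Y z)) z) ?_ c
  have h : (fun z => E1 S w m σ N t (Inc S t t' (Y z)) z) = fun z =>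
      ∑ i, ∑ j, Y z i j * (Q1 S w m σ N t' z i j - Q1 S w m σ N t z i j) :=
    funext fun z => E1_Inc hm h1 h2 h3 _ z
  rw [h]
  exact EG.sum _ fun i _ => EG.sum _ fun j _ => (hY i j).mul
    ((eg_Q1 hm i j).sub (eg_Q1 hm i j))

/-- **The energy inequality over a short step, with a fixed weight.** -/
theorem EnW_le (hm : Pm m N) (c : ℝ) (hY : ∀ i j, EG fun z => Y z i j) (hp : ∀ z, Psd (Y z))
    (h1 : w ≤ t) (h2 : t < t') (h3 : t' ≤ 1) (hk : Sh S (t' - t)) :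
    (t' - t) * EnW S w m σ N c Y t ≤
      2 * (NW S w m σ N c Y t' - NW S w m σ N c Y t) := by
  rw [← IncW_eq hm c hY h1 h2.le h3]
  unfold EnW IncW
  rw [← integral_const_mul, ← integral_const_mul]
  refine integral_mono ((eg_EnW hm c hY).const_mul _).integrable
    ((eg_IncW hm c hY h1 h2.le h3).const_mul _).integrable fun g => ?_
  simp only
  rw [← E1_const_mul, ← E1_const_mul]
  exact E1_mono hm ((eg_En t _).const_mul _) ((eg_Inc h2.le h3 _).const_mul _)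
    (fun u => En_le (hp (c • g)) h2 h3 hk u) (c • g)

lemma EnW_nonneg (c : ℝ) (hp : ∀ z, Psd (Y z)) : 0 ≤ EnW S w m σ N c Y t :=
  integral_nonneg fun g => E1_nonneg (fun u => En_nonneg (hp (c • g)) u) (c • g)

lemma psd_one : Psd (1 : Matrix (Fin n) (Fin n) ℝ) := by
  refine ⟨transpose_one, fun c => ?_⟩
  have h : ∑ i, ∑ j, c i * c j * (1 : Matrix (Fin n) (Fin n) ℝ) i j = ∑ i, c i ^ 2 := by
    refine Finset.sum_congr rfl fun i _ => ?_
    rw [Finset.sum_eq_single i]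
    · rw [Matrix.one_apply_eq]; ring
    · intro j _ hj
      rw [Matrix.one_apply_ne hj.symm, mul_zero]
    · intro h; exact absurd (Finset.mem_univ i) h
  rw [h]
  exact Finset.sum_nonneg fun i _ => sq_nonneg _

/-- with the identity as the weight, the energy is `∑_e |D_e C|²` -/
lemma En_one (u : Pair n → ℝ) : En S t 1 u = ∑ e : Pair n, fr (S.DA t e u) := by
  unfold En
  refine Finset.sum_congr rfl fun e _ => ?_
  unfold fr
  refine Finset.sum_congr rfl fun i _ => ?_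
  rw [Finset.sum_eq_single i]
  · rw [Matrix.one_apply_eq, one_mul]
    refine Finset.sum_congr rfl fun l _ => ?_
    rw [S.DA_comm t e u l i, _root_.sq]
  · intro j _ hj
    rw [Matrix.one_apply_ne hj.symm, zero_mul]
  · intro h; exact absurd (Finset.mem_univ i) h

/-- **(T) without further rates.** -/
theorem pig (hm : Pm m N) (c : ℝ) (hn : 0 < n) {T0 Δ ε : ℝ} {J : ℕ} (h1 : w ≤ T0)
    (hΔ : 0 < Δ) (hJ : 0 < J) (hT1 : T0 + 2 * J * Δ ≤ 1) (hε : 0 < ε)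
    (hR : (n : ℝ) ^ 3 ≤ (1 + ε) ^ J) :
    ∃ t, T0 ≤ t ∧ t + Δ ≤ T0 + 2 * J * Δ ∧
      NQ S w m σ N c (t + Δ) ≤ (1 + ε) * NQ S w m σ N c t ∧
      IncQ S w m σ N c t (t + Δ) ≤ ε / 2 * NQ S w m σ N c t ∧
      Δ * EnQ S w m σ N c t ≤ ε * NQ S w m σ N c t := by
  obtain ⟨t, a1, a2, a3, a4, a5, -⟩ := pig_time (S := S) (w := w) (σ := σ) (N := N)
    (ι := Empty) (G := fun i => i.elim) (M := fun i => i.elim) (K := fun i => i.elim)
    (δ1 := 1) hm c hn h1 hΔ hJ hT1 hε hR one_pos (fun i => i.elim) (fun i => i.elim)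
    (fun i => i.elim) (fun i => i.elim)
  refine ⟨t, a1, a2, a3, a4, ?_⟩
  simpa using a5

end Vale.Agent.P146.H655
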