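import Vale.Agent.P146.H655.GridB
import Vale.Agent.P146.H946.EnC

/-!
Good times on a grid, part 3: all rates of the two layer law at the times of a dense subset of a
grid.
-/

open MeasureTheory ProbabilityTheory

namespace Vale.Agent.P146.H655

open Vale.Agent.P157.Lv Vale.Agent.P146.H425 Vale.Agent.P146.H325 Vale.Agent.P146.H332
  Vale.Agent.P146.H712 Vale.Agent.P146.H816 Vale.Agent.P146.R1 Vale.Agent.P146.R1C Matrix
  Vale.Agent.P146.R1S Vale.Agent.P146.H693 Vale.Agent.P146.H946.En2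
open Vale.Agent.P146.H785 (Ax)

set_option linter.unusedSectionVars false

variable {n : ℕ} {k x : ℝ} {S : CS n k x} {w t t' : ℝ} {m σ : ℕ → ℝ} {N : ℕ}

/-- the rates at one time: `(En)`, `(EnB)`, `(EnT)` and the partner time `t + Δ` -/
structure Rates (S : CS n k x) (w : ℝ) (m σ : ℕ → ℝ) (N : ℕ) (c h Δ ε q Nb t : ℝ) : Prop where
  en : h * EnQ S w m σ N c t ≤ 6 * q * Real.log n * NQ S w m σ N c t
  enB : h * EnB S w m σ N c t ≤ 8 * q * Real.log n * NB S w m σ N c t
  enT : h * EnTQ S w m σ N c t ≤ 168 * q * Real.log n * (Nb * NQ S w m σ N c t)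
  pg : NQ S w m σ N c (t + Δ) ≤ (1 + ε) * NQ S w m σ N c t
  inc : IncQ S w m σ N c t (t + Δ) ≤ ε / 2 * NQ S w m σ N c t

/-- **All rates at the times of a dense subset of a grid.** `t_j = a + j (h / M)`, `j < M`;
`Nb` is the bound of `|C_t|²` off a set of probability `η`; further rates `g i` with the
potentials `f i` and the errors `e i` per step; further increasing functions `F i` for the partner
time. -/
theorem all_rates {ι κ : Type*} [Fintype ι] [Fintype κ] (hm : Pm m N) (c : ℝ) (hn : 2 ≤ n)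
    {a h Δ ε q Nb η : ℝ} {M : ℕ} (h1 : w ≤ a) (hh : 0 < h) (hΔ : 0 ≤ Δ)
    (h2 : a + 2 * h + Δ ≤ 1) (hSh : Sh S (h / M)) (hq : 1 ≤ q) (hε : 0 < ε) (hNb : 0 < Nb)
    (hpB : ∀ t, a ≤ t → t ≤ a + h → pB S w m σ N c Nb t ≤ η)
    (hη : (4 + 128 * M) * (n : ℝ) ^ 6 * η ≤ Nb * n) (hM1 : 8 * q * Real.log n ≤ M)
    (hM2 : 6 * q * Real.log n ≤ M * Real.log (1 + ε))
    (hΔ2 : 6 * q * Real.log n * Δ ≤ h * Real.log (1 + ε)) {f g : ι → ℝ → ℝ} {e K R : ι → ℝ}
    (hf : ∀ i, 0 < f i a) (hg : ∀ i t, a ≤ t → t ≤ a + h → 0 ≤ g i t)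
    (hs : ∀ i t, a ≤ t → t + h / M ≤ a + h →
      h / M * g i t ≤ f i (t + h / M) - f i t + e i)
    (hR : ∀ i, f i (a + h) + M * e i ≤ R i * f i a)
    (hK : ∀ i, 2 * q * Real.log (R i) ≤ K i) (hK0 : ∀ i, 0 < K i) (hKM : ∀ i, K i ≤ M)
    {F : κ → ℝ → ℝ} {R' : κ → ℝ} (hF : ∀ i, 0 < F i a)
    (hFm : ∀ i t t', a ≤ t → t ≤ t' → t' ≤ 1 → F i t ≤ F i t')
    (hFR : ∀ i, F i 1 ≤ R' i * F i a) (hFM : ∀ i, 2 * q * Real.log (R' i) ≤ M * Real.log (1 + ε))
    (hFΔ : ∀ i, 2 * q * Real.log (R' i) * Δ ≤ h * Real.log (1 + ε)) :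
    ∃ G ⊆ Finset.range M,
      (M : ℝ) * (1 - (Fintype.card ι + Fintype.card κ + 4) / q) ≤ G.card ∧
      ∀ j ∈ G, ∀ t, t = a + j * (h / M) → Rates S w m σ N c h Δ ε q Nb t ∧
        (∀ i, h * g i t ≤ K i * (f i t + j * e i)) ∧
        (∀ i, F i (t + Δ) ≤ (1 + ε) * F i t) := by
  have hn2 : (2 : ℝ) ≤ n := by exact_mod_cast hn
  have hn0 : (0 : ℝ) < n := by linarith
  have hl : 0 < Real.log n := Real.log_pos (by linarith)
  have hM : (0 : ℝ) < M := lt_of_lt_of_le (by positivity) hM1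
  have hM1' : (1 : ℝ) ≤ M := by exact_mod_cast hM
  have hlε : 0 < Real.log (1 + ε) := Real.log_pos (by linarith)
  have hpb0 : ∀ t, 0 ≤ pB S w m σ N c Nb t := fun t => pB_nonneg c Nb
  have hη0 : 0 ≤ η := (hpb0 a).trans (hpB a le_rfl (by linarith))
  set δ := h / M with hδ
  have hδ0 : 0 < δ := by positivity
  have hMδ : M * δ = h := by rw [hδ]; field_simp
  have hδh : δ ≤ h := by
    rw [hδ, div_le_iff₀ hM]
    nlinarith
  obtain ⟨p, hp1, hp2⟩ : ∃ p : ℕ, Δ * M / h ≤ p ∧ (p : ℝ) ≤ Δ * M / h + 1 :=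
    ⟨⌈Δ * M / h⌉₊, Nat.le_ceil _, (Nat.ceil_lt_add_one (by positivity)).le⟩
  have hp : Δ ≤ p * δ := by
    have : Δ = Δ * M / h * δ := by rw [hδ]; field_simp
    rw [this]
    exact mul_le_mul_of_nonneg_right hp1 hδ0.le
  have hpδ : p * δ ≤ Δ + δ := by
    have : Δ + δ = (Δ * M / h + 1) * δ := by rw [hδ]; field_simp
    rw [this]
    exact mul_le_mul_of_nonneg_right hp2 hδ0.le
  have hend : a + (M + p) * δ ≤ 1 := by
    have : (M + p) * δ = M * δ + p * δ := by ring
    rw [this, hMδ]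
    linarith
  have hpar : ∀ L : ℝ, 0 ≤ L → 2 * q * L ≤ M * Real.log (1 + ε) →
      2 * q * L * Δ ≤ h * Real.log (1 + ε) → q * (p * L) ≤ M * Real.log (1 + ε) := by
    intro L hL b1 b2
    have a1 : q * (p * L) = q * L * p := by ring
    have a2 : q * L * p ≤ q * L * (Δ * M / h + 1) :=
      mul_le_mul_of_nonneg_left hp2 (by positivity)
    have a3 : q * L * (Δ * M / h + 1) = 2 * q * L * Δ * (M / (2 * h)) + q * L := by
      field_simp
    have a4 : 2 * q * L * Δ * (M / (2 * h)) ≤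
        h * Real.log (1 + ε) * (M / (2 * h)) :=
      mul_le_mul_of_nonneg_right b2 (by positivity)
    have a5 : h * Real.log (1 + ε) * (M / (2 * h)) = M * Real.log (1 + ε) / 2 := by
      field_simp
    linarith
  have hpM : q * (p * (3 * Real.log n)) ≤ M * Real.log (1 + ε) :=
    hpar _ (by positivity) (by linarith) (by linarith)
  have hpM' : ∀ i, q * (p * Real.log (R' i)) ≤ M * Real.log (1 + ε) := by
    intro i
    refine hpar _ (Real.log_nonneg ?_) (hFM i) (hFΔ i)
    by_contra hcon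
    push Not at hcon
    have b1 := hFm i a 1 le_rfl (by linarith) le_rfl
    have b2 := hFR i
    have b3 := hF i
    nlinarith
  have hNQ0 : ∀ t, (n : ℝ) ≤ NQ S w m σ N c t := fun t => NQ_ge hm c
  have hQQ0 : ∀ t, 0 ≤ QNQ S w m σ N c t := fun t => QNQ_nonneg hm c
  have hlog2 : Real.log 2 ≤ Real.log n := Real.log_le_log (by norm_num) hn2
  set E := 128 * (n : ℝ) ^ 6 * η with hE
  have hE0 : 0 ≤ E := by positivity
  have hη' : 4 * (n : ℝ) ^ 6 * η + M * E ≤ Nb * n := by
    refine le_trans (le_of_eq ?_) hη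
    rw [hE]; ring
  obtain ⟨G, hG, hc, hb⟩ := cs_grid (ι := Option ι) (κ := κ) (S := S) (σ := σ) (M := M) (p := p)
    (f := fun o t => o.elim (4 * QNQ S w m σ N c t + 16 * Nb * NQ S w m σ N c t)
      fun i => f i t)
    (g := fun o t => o.elim (EnTQ S w m σ N c t) fun i => g i t)
    (e := fun o => o.elim E e) (K := fun o => o.elim (8 * q * Real.log n) K)
    (R := fun o => o.elim (2 * (n : ℝ) ^ 3) R) hm c hn h1 hh hΔ hp hend hSh hq
    (by
      rintro (_ | i)
      · simp only [Option.elim]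
        have a1 := hQQ0 a
        have a2 := hNQ0 a
        have a3 : 0 < Nb * NQ S w m σ N c a := mul_pos hNb (by linarith)
        nlinarith
      · exact hf i)
    (by
      rintro (_ | i) t b1 b2
      · exact EnTQ_nonneg hm c
      · exact hg i t b1 b2)
    (by
      rintro (_ | i) t b1 b2
      · have h3 := EnTQ_le (S := S) (σ := σ) (t := t) (t' := t + δ) hm c hNb.le (h1.trans b1)
          (by linarith) (by linarith) (by rw [add_sub_cancel_left]; exact hSh)
        rw [add_sub_cancel_left] at h3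
        have h4 := hpB t b1 (by linarith)
        have h5 := hpB (t + δ) (by linarith) b2
        have h6 : 64 * (n : ℝ) ^ 6 * (pB S w m σ N c Nb (t + δ) + pB S w m σ N c Nb t) ≤ E := by
          rw [hE]
          have : 64 * (n : ℝ) ^ 6 * (pB S w m σ N c Nb (t + δ) + pB S w m σ N c Nb t) ≤
              64 * (n : ℝ) ^ 6 * (η + η) :=
            mul_le_mul_of_nonneg_left (by linarith) (by positivity)
          linarith
        simp only [Option.elim]
        linarith
      · exact hs i t b1 b2)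
    (by
      rintro (_ | i)
      · simp only [Option.elim]
        have a1 := QNQ_le (S := S) (w := w) (t := a + h) (σ := σ) hm c hNb.le
        have a2 := hpB (a + h) (by linarith) le_rfl
        have a3 : NQ S w m σ N c (a + h) ≤ (n : ℝ) ^ 4 := NQ_le hm c
        have a4 := hNQ0 a
        have a5 := hQQ0 a
        have a6 : (n : ℝ) ^ 6 * pB S w m σ N c Nb (a + h) ≤ (n : ℝ) ^ 6 * η :=
          mul_le_mul_of_nonneg_left a2 (by positivity)
        have a7 : Nb * NQ S w m σ N c (a + h) ≤ Nb * (n : ℝ) ^ 4 :=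
          mul_le_mul_of_nonneg_left a3 hNb.le
        have a8 : Nb * n ≤ Nb * NQ S w m σ N c a := mul_le_mul_of_nonneg_left a4 hNb.le
        have a9 : (n : ℝ) ^ 3 * (Nb * n) ≤ (n : ℝ) ^ 3 * (Nb * NQ S w m σ N c a) :=
          mul_le_mul_of_nonneg_left a8 (by positivity)
        have a10 : (n : ℝ) ^ 3 * (Nb * n) = Nb * (n : ℝ) ^ 4 := by ring
        have a11 : 0 ≤ (n : ℝ) ^ 3 * QNQ S w m σ N c a := by positivity
        have a12 : Nb * n ≤ Nb * (n : ℝ) ^ 4 := by
          refine mul_le_mul_of_nonneg_left ?_ hNb.le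
          have : (1 : ℝ) ≤ (n : ℝ) ^ 3 := one_le_pow₀ (by linarith)
          calc (n : ℝ) = 1 * n := by ring
            _ ≤ (n : ℝ) ^ 3 * n := mul_le_mul_of_nonneg_right this hn0.le
            _ = _ := by ring
        have a13 : 0 ≤ Nb * (n : ℝ) ^ 4 := by positivity
        linarith
      · exact hR i)
    (by
      rintro (_ | i)
      · simp only [Option.elim]
        rw [Real.log_mul (by norm_num) (by positivity), Real.log_pow]
        push_cast
        have : q * Real.log 2 ≤ q * Real.log n := mul_le_mul_of_nonneg_left hlog2 (by linarith)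
        nlinarith
      · exact hK i)
    (by
      rintro (_ | i)
      · simp only [Option.elim]; positivity
      · exact hK0 i)
    (by
      rintro (_ | i)
      · exact hM1
      · exact hKM i)
    (by
      have : 0 ≤ q * Real.log n := by positivity
      linarith) hε hpM hF hFm hFR hpM'
  refine ⟨G, hG, le_trans (le_of_eq ?_) hc, fun j hj t ht => ?_⟩
  · simp only [Fintype.card_option]
    push_cast
    ring
  · obtain ⟨b1, b2, b3, b4, b4'⟩ := hb j hj t ht
    have hjM : j < M := Finset.mem_range.1 (hG hj)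
    have hjM' : (j : ℝ) ≤ M := by exact_mod_cast hjM.le
    have hta : a ≤ t := by
      rw [ht]
      have : 0 ≤ (j : ℝ) * δ := by positivity
      linarith
    have htb : t ≤ a + h := by
      rw [ht, ← hMδ]
      have : (j : ℝ) * δ ≤ M * δ := mul_le_mul_of_nonneg_right hjM' hδ0.le
      linarith
    refine ⟨⟨b1, b2, ?_, b3, ?_⟩, fun i => b4 (some i), b4'⟩
    · have b5 := b4 none
      simp only [Option.elim] at b5
      have a1 := QNQ_le (S := S) (w := w) (t := t) (σ := σ) hm c hNb.le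
      have a2 := hpB t hta htb
      have a4 := hNQ0 t
      have a6 : (n : ℝ) ^ 6 * pB S w m σ N c Nb t ≤ (n : ℝ) ^ 6 * η :=
        mul_le_mul_of_nonneg_left a2 (by positivity)
      have a8 : Nb * n ≤ Nb * NQ S w m σ N c t := mul_le_mul_of_nonneg_left a4 hNb.le
      have a9 : (j : ℝ) * E ≤ M * E := mul_le_mul_of_nonneg_right hjM' hE0
      have a10 : 4 * QNQ S w m σ N c t + 16 * Nb * NQ S w m σ N c t + j * E ≤
          21 * (Nb * NQ S w m σ N c t) := by linarith
      calc h * EnTQ S w m σ N c t ≤ 8 * q * Real.log n *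
            (4 * QNQ S w m σ N c t + 16 * Nb * NQ S w m σ N c t + j * E) := b5
        _ ≤ 8 * q * Real.log n * (21 * (Nb * NQ S w m σ N c t)) :=
            mul_le_mul_of_nonneg_left a10 (by positivity)
        _ = _ := by ring
    · have b6 := IncQ_le (S := S) (w := w) (σ := σ) (t := t) (t' := t + Δ) hm c
        (h1.trans hta) (by linarith) (by linarith)
      linarith

/-- **All rates at one time.** -/
theorem one_time (hm : Pm m N) (c : ℝ) (hn : 2 ≤ n)
    {a h Δ ε Nb η : ℝ} {M : ℕ} (h1 : w ≤ a) (hh : 0 < h) (hΔ : 0 ≤ Δ)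
    (h2 : a + 2 * h + Δ ≤ 1) (hSh : Sh S (h / M)) (hε : 0 < ε) (hNb : 0 < Nb)
    (hpB : ∀ t, a ≤ t → t ≤ a + h → pB S w m σ N c Nb t ≤ η)
    (hη : (4 + 128 * M) * (n : ℝ) ^ 6 * η ≤ Nb * n) (hM1 : 40 * Real.log n ≤ M)
    (hM2 : 30 * Real.log n ≤ M * Real.log (1 + ε))
    (hΔ2 : 30 * Real.log n * Δ ≤ h * Real.log (1 + ε)) :
    ∃ t, a ≤ t ∧ t ≤ a + h ∧ Rates S w m σ N c h Δ ε 5 Nb t := by
  have hn2 : (2 : ℝ) ≤ n := by exact_mod_cast hn
  have hl : 0 < Real.log n := Real.log_pos (by linarith)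
  have hM : (0 : ℝ) < M := lt_of_lt_of_le (by positivity) hM1
  obtain ⟨G, hG, hc, hb⟩ := all_rates (ι := Empty) (κ := Empty) (S := S) (σ := σ) (q := 5)
    (M := M) (f := fun i => i.elim) (g := fun i => i.elim) (e := fun i => i.elim)
    (K := fun i => i.elim) (R := fun i => i.elim) (F := fun i => i.elim)
    (R' := fun i => i.elim) hm c hn h1 hh hΔ h2 hSh
    (by norm_num) hε hNb hpB hη (by linarith) (by linarith) (by linarith)
    (fun i => i.elim) (fun i => i.elim) (fun i => i.elim) (fun i => i.elim) (fun i => i.elim)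
    (fun i => i.elim) (fun i => i.elim) (fun i => i.elim) (fun i => i.elim) (fun i => i.elim)
    (fun i => i.elim) (fun i => i.elim)
  have hc2 : 0 < G.card := by
    have h3 : (0 : ℝ) < G.card := by
      refine lt_of_lt_of_le ?_ hc
      simp only [Fintype.card_empty, Nat.cast_zero]
      exact mul_pos hM (by norm_num)
    exact_mod_cast h3
  obtain ⟨j, hj⟩ := Finset.card_pos.1 hc2
  obtain ⟨b1, -, -⟩ := hb j hj _ rfl
  have hjM : j < M := Finset.mem_range.1 (hG hj)
  have hjM' : (j : ℝ) ≤ M := by exact_mod_cast hjM.le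
  refine ⟨_, ?_, ?_, b1⟩
  · have : 0 ≤ (j : ℝ) * (h / M) := by positivity
    linarith
  · have h4 : (j : ℝ) * (h / M) ≤ M * (h / M) :=
      mul_le_mul_of_nonneg_right hjM' (by positivity)
    have h5 : (M : ℝ) * (h / M) = h := by field_simp
    linarith

end Vale.Agent.P146.H655
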