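import Mathlib

/-!
Good times on a grid: a positive increasing sequence has few steps with a large relative increment.
No pigeonhole over cells: the logarithms of the increments are summed.
-/

namespace Vale.Agent.P146.H655

open Finset

/-- an increasing sequence up to `N` -/
lemma mono_of_step {F : ℕ → ℝ} {N : ℕ} (h : ∀ j < N, F j ≤ F (j + 1)) :
    ∀ j ≤ N, F 0 ≤ F j := by
  intro j
  induction j with
  | zero => intro _; exact le_rfl
  | succ j ih => intro hj; exact (ih (by omega)).trans (h j (by omega))

lemma log_one_add_ge {y : ℝ} (h0 : 0 ≤ y) (h1 : y ≤ 1) : y / 2 ≤ Real.log (1 + y) := by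
  have h2 := Real.one_sub_inv_le_log_of_pos (x := 1 + y) (by linarith)
  refine le_trans ?_ h2
  have h3 : 1 - (1 + y)⁻¹ = y / (1 + y) := by field_simp; ring
  rw [h3, div_le_div_iff₀ (by norm_num) (by linarith)]
  nlinarith

/-- **Few bad steps.** -/
theorem bad_count {F g : ℕ → ℝ} {N : ℕ} {δ K R : ℝ} (hF : 0 < F 0) (hδ : 0 ≤ δ)
    (hg : ∀ j < N, 0 ≤ g j) (hs : ∀ j < N, δ * g j ≤ F (j + 1) - F j) (hR : F N ≤ R * F 0)
    (hK : 0 < K) (hKN : K ≤ N) :
    ((range N).filter fun j => K * F j < N * δ * g j).card * K ≤ 2 * N * Real.log R := by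
  have hN : (0 : ℝ) < N := hK.trans_le hKN
  have hmono : ∀ j < N, F j ≤ F (j + 1) := fun j hj => by
    have h1 := hs j hj
    have h2 := mul_nonneg hδ (hg j hj)
    linarith
  have hpos : ∀ j ≤ N, 0 < F j := fun j hj => hF.trans_le (mono_of_step hmono j hj)
  have hR1 : 1 ≤ R := by
    have h1 := mono_of_step hmono N le_rfl
    by_contra hcon
    push Not at hcon
    nlinarith
  have hlog : ∑ j ∈ range N, (Real.log (F (j + 1)) - Real.log (F j)) ≤ Real.log R := by
    rw [Finset.sum_range_sub (fun j => Real.log (F j))]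
    have h1 : Real.log (F N) ≤ Real.log (R * F 0) := Real.log_le_log (hpos N le_rfl) hR
    rw [Real.log_mul (by linarith) hF.ne'] at h1
    linarith
  have hb : ∀ j ∈ (range N).filter (fun j => K * F j < N * δ * g j),
      K / (2 * N) ≤ Real.log (F (j + 1)) - Real.log (F j) := by
    intro j hj
    rw [mem_filter, mem_range] at hj
    obtain ⟨hj, hj2⟩ := hj
    have hp := hpos j hj.le
    have h1 : K / N * F j < δ * g j := by
      rw [div_mul_eq_mul_div, div_lt_iff₀ hN]
      linarith
    have h2 : (1 + K / N) * F j ≤ F (j + 1) := by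
      have := hs j hj
      linarith
    have hKN0 : 0 ≤ K / N := by positivity
    have hKN1 : K / N ≤ 1 := (div_le_one hN).2 hKN
    have h3 : Real.log ((1 + K / N) * F j) ≤ Real.log (F (j + 1)) :=
      Real.log_le_log (mul_pos (by linarith) hp) h2
    rw [Real.log_mul (by linarith) hp.ne'] at h3
    have h4 := log_one_add_ge hKN0 hKN1
    have h5 : K / (2 * N) = K / N / 2 := by field_simp
    linarith
  have hsum := Finset.card_nsmul_le_sum ((range N).filter fun j => K * F j < N * δ * g j)
    (fun j => Real.log (F (j + 1)) - Real.log (F j)) (K / (2 * N)) hb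
  rw [nsmul_eq_mul] at hsum
  have h6 : ∑ j ∈ (range N).filter (fun j => K * F j < N * δ * g j),
      (Real.log (F (j + 1)) - Real.log (F j)) ≤
      ∑ j ∈ range N, (Real.log (F (j + 1)) - Real.log (F j)) := by
    refine Finset.sum_le_sum_of_subset_of_nonneg (filter_subset _ _) fun j hj _ => ?_
    rw [mem_range] at hj
    have := Real.log_le_log (hpos j hj.le) (hmono j hj)
    linarith
  have h7 := hsum.trans (h6.trans hlog)
  have h8 : (((range N).filter fun j => K * F j < N * δ * g j).card : ℝ) * (K / (2 * N)) =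
      (((range N).filter fun j => K * F j < N * δ * g j).card * K) / (2 * N) := by ring
  rw [h8, div_le_iff₀ (by positivity)] at h7
  linarith

/-- **Few bad partner times.** -/
theorem bad_partner {F : ℕ → ℝ} {N p : ℕ} {ε R : ℝ} (hF : 0 < F 0)
    (hmono : ∀ j < N + p, F j ≤ F (j + 1)) (hR : F (N + p) ≤ R * F 0) (hε : 0 < ε) :
    ((range N).filter fun j => (1 + ε) * F j < F (j + p)).card * Real.log (1 + ε) ≤
      p * Real.log R := by
  have hpos : ∀ j ≤ N + p, 0 < F j := fun j hj => hF.trans_le (mono_of_step hmono j hj)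
  have hle : ∀ i j, i ≤ j → j ≤ N + p → F i ≤ F j := by
    intro i j hij
    induction j, hij using Nat.le_induction with
    | base => intro _; exact le_rfl
    | succ j hij ih => intro hj; exact (ih (by omega)).trans (hmono j (by omega))
  have hR1 : 1 ≤ R := by
    have h1 := mono_of_step hmono (N + p) le_rfl
    by_contra hcon
    push Not at hcon
    nlinarith
  have e1 : ∑ j ∈ range N, (Real.log (F (j + p)) - Real.log (F j)) =
      ∑ i ∈ range p, (Real.log (F (N + i)) - Real.log (F i)) := by
    have h1 : ∀ j ∈ range N, Real.log (F (j + p)) - Real.log (F j) =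
        ∑ i ∈ range p, (Real.log (F (j + (i + 1))) - Real.log (F (j + i))) := fun j _ =>
      (Finset.sum_range_sub (fun i => Real.log (F (j + i))) p).symm
    rw [Finset.sum_congr rfl h1, Finset.sum_comm]
    refine Finset.sum_congr rfl fun i _ => ?_
    have h2 : ∀ j ∈ range N, Real.log (F (j + (i + 1))) - Real.log (F (j + i)) =
        Real.log (F ((j + 1) + i)) - Real.log (F (j + i)) := fun j _ => by
      rw [show j + (i + 1) = (j + 1) + i by ring]
    rw [Finset.sum_congr rfl h2, Finset.sum_range_sub (fun j => Real.log (F (j + i))) N]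
    simp
  have e2 : ∑ j ∈ range N, (Real.log (F (j + p)) - Real.log (F j)) ≤ p * Real.log R := by
    rw [e1]
    have h1 : ∀ i ∈ range p, Real.log (F (N + i)) - Real.log (F i) ≤ Real.log R := by
      intro i hi
      rw [mem_range] at hi
      have h2 : F (N + i) ≤ R * F i :=
        ((hle _ _ (by omega) le_rfl).trans hR).trans (mul_le_mul_of_nonneg_left
          (hle 0 i (by omega) (by omega)) (by linarith))
      have h3 := Real.log_le_log (hpos _ (by omega)) h2
      rw [Real.log_mul (by linarith) (hpos i (by omega)).ne'] at h3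
      linarith
    have h4 := Finset.sum_le_card_nsmul _ _ _ h1
    rw [card_range, nsmul_eq_mul] at h4
    exact h4
  have hb : ∀ j ∈ (range N).filter (fun j => (1 + ε) * F j < F (j + p)),
      Real.log (1 + ε) ≤ Real.log (F (j + p)) - Real.log (F j) := by
    intro j hj
    rw [mem_filter, mem_range] at hj
    have hp := hpos j (by omega)
    have h3 := Real.log_le_log (mul_pos (by linarith) hp) hj.2.le
    rw [Real.log_mul (by linarith) hp.ne'] at h3
    linarith
  have hsum := Finset.card_nsmul_le_sum ((range N).filter fun j => (1 + ε) * F j < F (j + p))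
    (fun j => Real.log (F (j + p)) - Real.log (F j)) (Real.log (1 + ε)) hb
  rw [nsmul_eq_mul] at hsum
  have h6 : ∑ j ∈ (range N).filter (fun j => (1 + ε) * F j < F (j + p)),
      (Real.log (F (j + p)) - Real.log (F j)) ≤
      ∑ j ∈ range N, (Real.log (F (j + p)) - Real.log (F j)) := by
    refine Finset.sum_le_sum_of_subset_of_nonneg (filter_subset _ _) fun j hj _ => ?_
    rw [mem_range] at hj
    have := Real.log_le_log (hpos j (by omega)) (hle j (j + p) (by omega) (by omega))
    linarith
  exact hsum.trans (h6.trans e2)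

/-- the good steps are the complement of finitely many small sets -/
theorem good_compl {ι : Type*} [Fintype ι] (N : ℕ) (bad : ι → ℕ → Prop)
    [∀ i, DecidablePred (bad i)] {c : ι → ℝ}
    (h : ∀ i, (((range N).filter (bad i)).card : ℝ) ≤ c i) :
    ∃ G ⊆ range N, (N : ℝ) - ∑ i, c i ≤ G.card ∧ ∀ i, ∀ j ∈ G, ¬ bad i j := by
  classical
  refine ⟨(range N).filter fun j => ∀ i, ¬ bad i j, filter_subset _ _, ?_, fun i j hj => ?_⟩
  · have h1 : range N ⊆ ((range N).filter fun j => ∀ i, ¬ bad i j) ∪
        univ.biUnion fun i => (range N).filter (bad i) := by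
      intro j hj
      rw [mem_union, mem_filter, mem_biUnion]
      by_cases hc : ∀ i, ¬ bad i j
      · exact Or.inl ⟨hj, hc⟩
      · push Not at hc
        obtain ⟨i, hi⟩ := hc
        exact Or.inr ⟨i, mem_univ i, mem_filter.2 ⟨hj, hi⟩⟩
    have h2 := (card_le_card h1).trans (card_union_le _ _)
    have h3 : (univ.biUnion fun i => (range N).filter (bad i)).card ≤
        ∑ i, ((range N).filter (bad i)).card := card_biUnion_le
    rw [card_range] at h2
    have h4 : (N : ℝ) ≤ ((range N).filter fun j => ∀ i, ¬ bad i j).card +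
        ∑ i, (((range N).filter (bad i)).card : ℝ) := by
      exact_mod_cast h2.trans (Nat.add_le_add_left h3 _)
    have h5 : ∑ i, (((range N).filter (bad i)).card : ℝ) ≤ ∑ i, c i :=
      Finset.sum_le_sum fun i _ => h i
    linarith
  · exact (mem_filter.1 hj).2 i

/-- **Good times on a grid.** `f i` positive, `δ g ≤` its increments up to an error `e i`,
`F j = f j + j e` grows by a factor at most `R i` in total: all but a fraction `card ι / q` of
the steps have `N δ g ≤ K F`. Together with finitely many partner conditions. -/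
theorem good_grid {ι κ : Type*} [Fintype ι] [Fintype κ] {f g : ι → ℕ → ℝ} {F : κ → ℕ → ℝ}
    {N : ℕ} {δ q : ℝ} {e K R : ι → ℝ} {p : κ → ℕ} {ε R' : κ → ℝ} (hq : 0 < q) (hδ : 0 ≤ δ)
    (hf : ∀ i, 0 < f i 0) (hg : ∀ i, ∀ j < N, 0 ≤ g i j)
    (hs : ∀ i, ∀ j < N, δ * g i j ≤ f i (j + 1) - f i j + e i)
    (hR : ∀ i, f i N + N * e i ≤ R i * f i 0) (hK : ∀ i, 2 * q * Real.log (R i) ≤ K i)
    (hK0 : ∀ i, 0 < K i) (hKN : ∀ i, K i ≤ N) (hF : ∀ i, 0 < F i 0)
    (hmono : ∀ i, ∀ j < N + p i, F i j ≤ F i (j + 1))
    (hR' : ∀ i, F i (N + p i) ≤ R' i * F i 0) (hε : ∀ i, 0 < ε i)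
    (hp : ∀ i, q * (p i * Real.log (R' i)) ≤ N * Real.log (1 + ε i)) :
    ∃ G ⊆ range N, (N : ℝ) * (1 - (Fintype.card ι + Fintype.card κ) / q) ≤ G.card ∧
      (∀ i, ∀ j ∈ G, N * δ * g i j ≤ K i * (f i j + j * e i)) ∧
      ∀ i, ∀ j ∈ G, F i (j + p i) ≤ (1 + ε i) * F i j := by
  classical
  obtain ⟨G, hG, hc, hb⟩ := good_compl (ι := ι ⊕ κ) N
    (fun o j => o.elim (fun i => K i * (f i j + j * e i) < N * δ * g i j)
      (fun i => (1 + ε i) * F i j < F i (j + p i))) (c := fun _ => N / q) (by
      intro o
      cases o with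
      | inl i =>
        have h1 := bad_count (F := fun j => f i j + j * e i) (g := g i) (N := N) (δ := δ)
          (K := K i) (R := R i) (by simpa using hf i) hδ (hg i) (fun j hj => by
            have := hs i j hj
            push_cast
            linarith) (by simpa using hR i) (hK0 i) (hKN i)
        have hN : (0 : ℝ) < N := (hK0 i).trans_le (hKN i)
        rw [le_div_iff₀ hq]
        by_contra hcon
        push Not at hcon
        simp only [Sum.elim_inl] at hcon
        have h2 : (N : ℝ) * K i <
            ((range N).filter fun j => K i * (f i j + j * e i) < N * δ * g i j).card * q *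
              K i := mul_lt_mul_of_pos_right hcon (hK0 i)
        have h3 : ((range N).filter fun j => K i * (f i j + j * e i) < N * δ * g i j).card *
            K i * q ≤ 2 * N * Real.log (R i) * q := mul_le_mul_of_nonneg_right h1 hq.le
        have h4 : 2 * (N : ℝ) * Real.log (R i) * q ≤ N * K i := by
          have := mul_le_mul_of_nonneg_left (hK i) hN.le
          linarith
        linarith
      | inr i =>
        have h1 := bad_partner (F := F i) (N := N) (p := p i) (ε := ε i) (R := R' i) (hF i)
          (hmono i) (hR' i) (hε i)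
        have hl : 0 < Real.log (1 + ε i) := Real.log_pos (by linarith [hε i])
        rw [le_div_iff₀ hq]
        by_contra hcon
        push Not at hcon
        simp only [Sum.elim_inr] at hcon
        have h2 : (N : ℝ) * Real.log (1 + ε i) <
            ((range N).filter fun j => (1 + ε i) * F i j < F i (j + p i)).card * q *
              Real.log (1 + ε i) := mul_lt_mul_of_pos_right hcon hl
        have h3 := mul_le_mul_of_nonneg_left h1 hq.le
        have h4 := hp i
        linarith)
  refine ⟨G, hG, ?_, fun i j hj => ?_, fun i j hj => ?_⟩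
  · refine le_trans (le_of_eq ?_) hc
    rw [Finset.sum_const, card_univ, Fintype.card_sum, nsmul_eq_mul]
    push_cast
    ring
  · exact not_lt.1 (hb (Sum.inl i) j hj)
  · exact not_lt.1 (hb (Sum.inr i) j hj)

end Vale.Agent.P146.H655
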