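import Vale.Agent.P146.H655.Pig
import Vale.Agent.P146.H655.GridA

/-!
Good times on a grid, part 2: the weight `C_1` (the other copy), and all rates at one time.
-/

open MeasureTheory ProbabilityTheory

namespace Vale.Agent.P146.H655

open Vale.Agent.P157.Lv Vale.Agent.P146.H425 Vale.Agent.P146.H325 Vale.Agent.P146.H332
  Vale.Agent.P146.H712 Vale.Agent.P146.H816 Vale.Agent.P146.R1 Vale.Agent.P146.R1C Matrix
  Vale.Agent.P146.R1S Vale.Agent.P146.H693
open Vale.Agent.P146.H785 (Ax)

set_option linter.unusedSectionVars false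

variable {n : ℕ} {k x : ℝ} {S : CS n k x} {w t t' : ℝ} {m σ : ℕ → ℝ} {N : ℕ}

/-! ### the mean of the matrix -/

/-- the mean `C_1 = E_1 [C_t]`, which does not depend on `t` -/
noncomputable def CW (S : CS n k x) (w : ℝ) (m σ : ℕ → ℝ) (N : ℕ) (z : Pair n → ℝ) :
    Matrix (Fin n) (Fin n) ℝ := fun i j => E1 S w m σ N w (fun u => S.A w u i j) z

/-- `E_1 [C_t] = C_1` for all `t` -/
theorem E1_A (h1 : w ≤ t) (h2 : t ≤ 1) (i j : Fin n) (z : Pair n → ℝ) :
    E1 S w m σ N t (fun u => S.A t u i j) z = CW S w m σ N z i j := by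
  rw [E1_tower le_rfl h1 h2 (S.eg_A t i j)]
  have h : Aw S w t (fun u => S.A t u i j) = fun u => S.A w u i j :=
    funext fun u => (A_tw S h1 h2 u i j).symm
  rw [h]
  rfl

lemma eg_CW (hm : Pm m N) (i j : Fin n) : EG fun z => CW S w m σ N z i j :=
  eg_E1 hm (S.eg_A w i j)

lemma CW_comm (z : Pair n → ℝ) (i j : Fin n) : CW S w m σ N z i j = CW S w m σ N z j i := by
  have h : (fun u => S.A w u i j) = fun u => S.A w u j i := funext fun u => S.A_comm w u i j
  unfold CW
  rw [h]

lemma CW_self (hm : Pm m N) (z : Pair n → ℝ) (i : Fin n) : CW S w m σ N z i i = 1 := by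
  have h : (fun u => S.A w u i i) = fun _ => 1 := funext fun u => S.A_self w u i
  unfold CW
  rw [h]
  exact E1_const hm 1 z

lemma abs_CW (hm : Pm m N) (z : Pair n → ℝ) (i j : Fin n) : |CW S w m σ N z i j| ≤ 1 :=
  abs_E1 hm (S.eg_A w i j) (fun u => S.abs_A w u i j) z

/-- the mean of a psd matrix is psd -/
lemma psd_E1 (hm : Pm m N) {M : (Pair n → ℝ) → Matrix (Fin n) (Fin n) ℝ}
    (hM : ∀ u, Psd (M u)) (hE : ∀ i j, EG fun u => M u i j) (z : Pair n → ℝ) :
    Psd (Matrix.of fun i j => E1 S w m σ N t (fun u => M u i j) z) := by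
  refine ⟨?_, fun c => ?_⟩
  · ext i j
    rw [transpose_apply, Matrix.of_apply, Matrix.of_apply]
    have h : (fun u => M u j i) = fun u => M u i j := by
      funext u
      have := congrFun (congrFun (hM u).1 i) j
      rw [transpose_apply] at this
      exact this
    rw [h]
  · have h1 : E1 S w m σ N t (fun u => ∑ i, ∑ j, c i * c j * M u i j) z =
        ∑ i, ∑ j, c i * c j * E1 S w m σ N t (fun u => M u i j) z := by
      rw [E1_sum hm _ (fun i _ => EG.sum _ fun j _ => (hE i j).const_mul _)]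
      refine Finset.sum_congr rfl fun i _ => ?_
      rw [E1_sum hm _ (fun j _ => (hE i j).const_mul _)]
      exact Finset.sum_congr rfl fun j _ => by rw [E1_const_mul]
    simp only [Matrix.of_apply]
    rw [← h1]
    exact E1_nonneg (fun u => (hM u).2 c) z

lemma CW_psd (hm : Pm m N) (z : Pair n → ℝ) : Psd (CW S w m σ N z) :=
  psd_E1 hm (S.psd_A w) (S.eg_A w) z

/-! ### the number `E tr (C_1 Q_1(t))` -/

/-- `E <C, C'_t ^ 2> = E tr (Y C_t)`: two copies above the deep position -/
noncomputable def NB (S : CS n k x) (w : ℝ) (m σ : ℕ → ℝ) (N : ℕ) (c t : ℝ) : ℝ :=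
  NW S w m σ N c (CW S w m σ N) t

/-- `E ∑_e <C, (D_e C'_t) ^ 2>`: the weight is the other copy -/
noncomputable def EnB (S : CS n k x) (w : ℝ) (m σ : ℕ → ℝ) (N : ℕ) (c t : ℝ) : ℝ :=
  EnW S w m σ N c (CW S w m σ N) t

/-- a trace with a weight -/
lemma E1_form (hm : Pm m N) (h1 : w ≤ t) (h2 : t ≤ 1) (M : Matrix (Fin n) (Fin n) ℝ)
    (z : Pair n → ℝ) :
    E1 S w m σ N t (fun u => ∑ i, ∑ j, M i j * S.A t u i j) z =
      ∑ i, ∑ j, M i j * CW S w m σ N z i j := by
  rw [E1_sum2 hm M (fun i j => S.eg_A t i j)]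
  exact Finset.sum_congr rfl fun i _ => Finset.sum_congr rfl fun j _ => by rw [E1_A h1 h2]

/-- `NB = E tr (Y C_t)` with `Y = Q_1(t)` -/
theorem NB_eq (hm : Pm m N) (c : ℝ) (h1 : w ≤ t) (h2 : t ≤ 1) :
    NB S w m σ N c t = ∫ g, E1 S w m σ N t (fun u => ∑ i, ∑ j,
      Q1 S w m σ N t (c • g) i j * S.A t u i j) (c • g) ∂(gI (Pair n)) := by
  unfold NB NW
  refine integral_congr_ae (Filter.Eventually.of_forall fun g => ?_)
  simp only
  rw [E1_form hm h1 h2]
  exact Finset.sum_congr rfl fun i _ => Finset.sum_congr rfl fun j _ => mul_comm _ _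

lemma NB_pt_ge (hm : Pm m N) (h1 : w ≤ t) (h2 : t ≤ 1) (z : Pair n → ℝ) :
    (n : ℝ) ≤ ∑ i, ∑ j, CW S w m σ N z i j * Q1 S w m σ N t z i j := by
  set C := CW S w m σ N z with hC
  set I : Fin n → Fin n → ℝ := fun i j => (1 : Matrix (Fin n) (Fin n) ℝ) i j with hI
  have hI0 : ∀ i j, ∑ l : Fin n, I i l * I l j = I i j := by
    intro i j
    have := congrFun (congrFun (Matrix.one_mul (1 : Matrix (Fin n) (Fin n) ℝ)) i) j
    rwa [Matrix.mul_apply] at this
  have hf : ∀ u, ∑ i, ∑ j, C i j * ∑ l, (S.A t u i l - I i l) * (S.A t u l j - I l j) =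
      ∑ i, ∑ j, C i j * (A2 S t i j u - 2 * S.A t u i j + I i j) := by
    intro u
    refine Finset.sum_congr rfl fun i _ => Finset.sum_congr rfl fun j _ => ?_
    congr 1
    have e1 : ∀ l, (S.A t u i l - I i l) * (S.A t u l j - I l j) =
        S.A t u i l * S.A t u l j - S.A t u i l * I l j - I i l * S.A t u l j +
          I i l * I l j := fun l => by ring
    simp only [e1, Finset.sum_add_distrib, Finset.sum_sub_distrib]
    have e2 : ∑ l, S.A t u i l * I l j = S.A t u i j := by
      have := congrFun (congrFun (Matrix.mul_one (S.A t u)) i) j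
      rwa [Matrix.mul_apply] at this
    have e3 : ∑ l, I i l * S.A t u l j = S.A t u i j := by
      have := congrFun (congrFun (Matrix.one_mul (S.A t u)) i) j
      rwa [Matrix.mul_apply] at this
    rw [e2, e3, hI0 i j]
    unfold H693.A2
    ring
  have h0 : 0 ≤ E1 S w m σ N t (fun u => ∑ i, ∑ j, C i j * ∑ l, (S.A t u i l - I i l) *
      (S.A t u l j - I l j)) z := by
    refine E1_nonneg (fun u => ?_) z
    refine psd_sum (CW_psd hm z) (fun i j => S.A t u i j - I i j) fun i j => ?_
    show S.A t u i j - I i j = S.A t u j i - I j i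
    have e4 : I i j = I j i := by
      show (1 : Matrix (Fin n) (Fin n) ℝ) i j = (1 : Matrix (Fin n) (Fin n) ℝ) j i
      rw [Matrix.one_apply, Matrix.one_apply]
      simp only [eq_comm]
    rw [e4, S.A_comm t u i j]
  simp only [hf] at h0
  have heg : ∀ i j, EG fun u => A2 S t i j u - 2 * S.A t u i j + I i j := fun i j =>
    ((eg_A2 S t i j).sub ((S.eg_A t i j).const_mul 2)).add (EG.const _)
  rw [E1_sum2 hm C heg] at h0
  have e5 : ∀ i j, E1 S w m σ N t (fun u => A2 S t i j u - 2 * S.A t u i j + I i j) z =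
      Q1 S w m σ N t z i j - 2 * C i j + I i j := by
    intro i j
    rw [E1_add hm ((eg_A2 S t i j).sub ((S.eg_A t i j).const_mul 2)) (EG.const _),
      E1_sub hm (eg_A2 S t i j) ((S.eg_A t i j).const_mul 2), E1_const_mul, E1_const hm,
      E1_A h1 h2]
    rfl
  simp only [e5] at h0
  have e6 : ∑ i, ∑ j, C i j * (Q1 S w m σ N t z i j - 2 * C i j + I i j) =
      ∑ i, ∑ j, C i j * Q1 S w m σ N t z i j - 2 * (∑ i, ∑ j, C i j ^ 2) +
        ∑ i, ∑ j, C i j * I i j := by
    simp only [mul_add, mul_sub, Finset.sum_add_distrib, Finset.sum_sub_distrib]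
    congr 2
    rw [Finset.mul_sum]
    refine Finset.sum_congr rfl fun i _ => ?_
    rw [Finset.mul_sum]
    exact Finset.sum_congr rfl fun j _ => by ring
  rw [e6] at h0
  have e7 : ∑ i, ∑ j, C i j * I i j = n := by
    have h : ∀ i ∈ (Finset.univ : Finset (Fin n)), ∑ j, C i j * I i j = 1 := by
      intro i _
      rw [Finset.sum_eq_single i]
      · show C i i * (1 : Matrix (Fin n) (Fin n) ℝ) i i = 1
        rw [Matrix.one_apply_eq, mul_one, hC, CW_self hm]
      · intro j _ hj
        show C i j * (1 : Matrix (Fin n) (Fin n) ℝ) i j = 0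
        rw [Matrix.one_apply_ne hj.symm, mul_zero]
      · intro h; exact absurd (Finset.mem_univ i) h
    rw [Finset.sum_congr rfl h]
    simp
  have e8 : (n : ℝ) ≤ ∑ i, ∑ j, C i j ^ 2 := by
    have h : ∀ i ∈ (Finset.univ : Finset (Fin n)), (1 : ℝ) ≤ ∑ j, C i j ^ 2 := by
      intro i _
      have h3 : C i i ^ 2 ≤ ∑ j, C i j ^ 2 :=
        Finset.single_le_sum (f := fun j => C i j ^ 2) (fun j _ => sq_nonneg _)
          (Finset.mem_univ i)
      rw [hC, CW_self hm] at h3
      linarith
    have h4 := Finset.sum_le_sum h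
    simp only [Finset.sum_const, Finset.card_univ, Fintype.card_fin, nsmul_eq_mul, mul_one] at h4
    exact h4
  rw [e7] at h0
  linarith

lemma NB_pt_le (hm : Pm m N) (z : Pair n → ℝ) :
    ∑ i, ∑ j, CW S w m σ N z i j * Q1 S w m σ N t z i j ≤ (n : ℝ) ^ 3 := by
  have h1 : ∀ i ∈ (Finset.univ : Finset (Fin n)),
      ∑ j, CW S w m σ N z i j * Q1 S w m σ N t z i j ≤ (n : ℝ) ^ 2 := by
    intro i _
    have h2 : ∀ j ∈ (Finset.univ : Finset (Fin n)),
        CW S w m σ N z i j * Q1 S w m σ N t z i j ≤ (n : ℝ) := by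
      intro j _
      refine (le_abs_self _).trans ?_
      rw [abs_mul]
      calc |CW S w m σ N z i j| * |Q1 S w m σ N t z i j| ≤ 1 * n :=
            mul_le_mul (abs_CW hm z i j) (abs_Q1 hm z i j) (abs_nonneg _) zero_le_one
        _ = n := one_mul _
    have h3 := Finset.sum_le_sum h2
    rw [Finset.sum_const, Finset.card_univ, Fintype.card_fin, nsmul_eq_mul] at h3
    exact h3.trans (le_of_eq (by ring))
  have h4 := Finset.sum_le_sum h1
  rw [Finset.sum_const, Finset.card_univ, Fintype.card_fin, nsmul_eq_mul] at h4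
  exact h4.trans (le_of_eq (by ring))

theorem NB_ge (hm : Pm m N) (c : ℝ) (h1 : w ≤ t) (h2 : t ≤ 1) : (n : ℝ) ≤ NB S w m σ N c t := by
  have h := integral_mono (integrable_const (μ := gI (Pair n)) (n : ℝ))
    (eg_NW (S := S) (w := w) (σ := σ) hm c t (eg_CW hm)).integrable
    fun g => NB_pt_ge hm h1 h2 (c • g)
  rw [integral_const, probReal_univ, one_smul] at h
  exact h

theorem NB_le (hm : Pm m N) (c : ℝ) : NB S w m σ N c t ≤ (n : ℝ) ^ 3 := by
  have h := integral_mono (eg_NW (S := S) (w := w) (σ := σ) hm c t (eg_CW hm)).integrable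
    (integrable_const (μ := gI (Pair n)) ((n : ℝ) ^ 3)) fun g => NB_pt_le hm (c • g)
  rw [integral_const, probReal_univ, one_smul] at h
  exact h

theorem NB_mono (hm : Pm m N) (c : ℝ) (h1 : w ≤ t) (h2 : t ≤ t') (h3 : t' ≤ 1) :
    NB S w m σ N c t ≤ NB S w m σ N c t' :=
  NW_mono hm c (eg_CW hm) (CW_psd hm) h1 h2 h3

theorem EnB_le (hm : Pm m N) (c : ℝ) (h1 : w ≤ t) (h2 : t < t') (h3 : t' ≤ 1)
    (hk : Sh S (t' - t)) :
    (t' - t) * EnB S w m σ N c t ≤ 2 * NB S w m σ N c t' - 2 * NB S w m σ N c t := by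
  have h := EnW_le (S := S) (σ := σ) (Y := CW S w m σ N) hm c (eg_CW hm) (CW_psd hm) h1 h2 h3 hk
  unfold EnB NB
  linarith

lemma EnB_nonneg (hm : Pm m N) (c : ℝ) : 0 ≤ EnB S w m σ N c t := EnW_nonneg c (CW_psd hm)

/-! ### all rates at one time -/

/-- **All rates at the times of a dense subset of a grid.** `t_j = a + j (h / M)`, `j < M`; the
grid continues to the partner times `t_j + Δ`. Further rates `g i` with the potentials `f i` and the
errors `e i` per step. -/
theorem cs_grid {ι κ : Type*} [Fintype ι] [Fintype κ] (hm : Pm m N) (c : ℝ) (hn : 2 ≤ n)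
    {a h Δ ε q : ℝ}
    {M p : ℕ} (h1 : w ≤ a) (hh : 0 < h) (hΔ : 0 ≤ Δ) (hp : Δ ≤ p * (h / M)) (h2 : a + (M + p) * (h / M) ≤ 1)
    (hSh : Sh S (h / M)) (hq : 1 ≤ q) {f g : ι → ℝ → ℝ} {e K R : ι → ℝ}
    (hf : ∀ i, 0 < f i a) (hg : ∀ i t, a ≤ t → t ≤ a + h → 0 ≤ g i t)
    (hs : ∀ i t, a ≤ t → t + h / M ≤ a + h →
      h / M * g i t ≤ f i (t + h / M) - f i t + e i)
    (hR : ∀ i, f i (a + h) + M * e i ≤ R i * f i a)
    (hK : ∀ i, 2 * q * Real.log (R i) ≤ K i) (hK0 : ∀ i, 0 < K i) (hKM : ∀ i, K i ≤ M)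
    (hQM : 6 * q * Real.log n ≤ M) (hε : 0 < ε)
    (hpM : q * (p * (3 * Real.log n)) ≤ M * Real.log (1 + ε)) {F : κ → ℝ → ℝ} {R' : κ → ℝ}
    (hF : ∀ i, 0 < F i a) (hFm : ∀ i t t', a ≤ t → t ≤ t' → t' ≤ 1 → F i t ≤ F i t')
    (hFR : ∀ i, F i 1 ≤ R' i * F i a)
    (hpM' : ∀ i, q * (p * Real.log (R' i)) ≤ M * Real.log (1 + ε)) :
    ∃ G ⊆ Finset.range M,
      (M : ℝ) * (1 - (Fintype.card ι + Fintype.card κ + 3) / q) ≤ G.card ∧
      ∀ j ∈ G, ∀ t, t = a + j * (h / M) →
        h * EnQ S w m σ N c t ≤ 6 * q * Real.log n * NQ S w m σ N c t ∧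
        h * EnB S w m σ N c t ≤ 8 * q * Real.log n * NB S w m σ N c t ∧
        NQ S w m σ N c (t + Δ) ≤ (1 + ε) * NQ S w m σ N c t ∧
        (∀ i, h * g i t ≤ K i * (f i t + j * e i)) ∧
        (∀ i, F i (t + Δ) ≤ (1 + ε) * F i t) := by
  have hn0 : (0 : ℝ) < n := by
    have : (2 : ℝ) ≤ n := by exact_mod_cast hn
    linarith
  have hl : 0 < Real.log n := Real.log_pos (by
    have : (2 : ℝ) ≤ n := by exact_mod_cast hn
    linarith)
  have hM : (0 : ℝ) < M := lt_of_lt_of_le (by positivity) hQM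
  set δ := h / M with hδ
  have hδ0 : 0 < δ := by positivity
  have hMδ : M * δ = h := by rw [hδ]; field_simp
  set τ : ℕ → ℝ := fun j => a + j * δ with hτ
  have hτ1 : ∀ j, τ (j + 1) = τ j + δ := fun j => by
    show a + ((j + 1 : ℕ) : ℝ) * δ = a + j * δ + δ
    push_cast
    ring
  have hτ0 : ∀ j, a ≤ τ j := fun j => by
    show a ≤ a + j * δ
    have : 0 ≤ (j : ℝ) * δ := by positivity
    linarith
  have hτa : τ 0 = a := by simp [hτ]
  have hτM : τ M = a + h := by
    show a + M * δ = a + h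
    rw [hMδ]
  have hτle : ∀ j, j ≤ M + p → τ j ≤ 1 := by
    intro j hj
    refine le_trans ?_ h2
    show a + j * δ ≤ a + (M + p) * δ
    have : (j : ℝ) ≤ M + p := by exact_mod_cast hj
    nlinarith
  have hτle2 : ∀ j, j ≤ M → τ j ≤ a + h := by
    intro j hj
    rw [← hτM]
    show a + j * δ ≤ a + M * δ
    have : (j : ℝ) ≤ M := by exact_mod_cast hj
    nlinarith
  have hNQ0 : ∀ t, 0 < NQ S w m σ N c t := fun t => hn0.trans_le (NQ_ge hm c)
  have hstep : ∀ j, τ (j + 1) - τ j = δ := fun j => by rw [hτ1]; ring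
  -- the family
  have key := good_grid (ι := Option (Option ι)) (κ := Option κ)
    (f := fun o j => o.elim (NQ S w m σ N c (τ j))
      fun o => o.elim (2 * NB S w m σ N c (τ j)) fun i => f i (τ j))
    (g := fun o j => o.elim (EnQ S w m σ N c (τ j))
      fun o => o.elim (EnB S w m σ N c (τ j)) fun i => g i (τ j))
    (F := fun o j => o.elim (NQ S w m σ N c (τ j)) fun i => F i (τ j)) (N := M) (δ := δ) (q := q)
    (e := fun o => o.elim 0 fun o => o.elim 0 e)
    (K := fun o => o.elim (6 * q * Real.log n) fun o => o.elim (4 * q * Real.log n) K)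
    (R := fun o => o.elim ((n : ℝ) ^ 3) fun o => o.elim ((n : ℝ) ^ 2) R)
    (p := fun _ => p) (ε := fun _ => ε) (R' := fun o => o.elim ((n : ℝ) ^ 3) R') (by linarith)
    hδ0.le
    (by
      rintro (_ | _ | i)
      · exact hNQ0 _
      · have := NB_ge (S := S) (w := w) (σ := σ) (t := τ 0) hm c (h1.trans (hτ0 0))
          (hτle 0 (by omega))
        simp only [Option.elim]
        linarith
      · simp only [Option.elim]
        rw [hτa]
        exact hf i)
    (by
      rintro (_ | _ | i) j hj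
      · exact EnQ_nonneg hm c
      · exact EnB_nonneg hm c
      · exact hg i _ (hτ0 j) (hτle2 j hj.le))
    (by
      rintro (_ | _ | i) j hj
      · have := EnQ_le (S := S) (σ := σ) (t := τ j) (t' := τ (j + 1)) hm c (h1.trans (hτ0 j))
          (by rw [hτ1]; linarith) (hτle _ (by omega)) (by rw [hstep]; exact hSh)
        rw [hstep] at this
        simp only [Option.elim]
        linarith
      · have := EnB_le (S := S) (σ := σ) (t := τ j) (t' := τ (j + 1)) hm c (h1.trans (hτ0 j))
          (by rw [hτ1]; linarith) (hτle _ (by omega)) (by rw [hstep]; exact hSh)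
        rw [hstep] at this
        simp only [Option.elim]
        linarith
      · have := hs i (τ j) (hτ0 j) (by rw [← hτ1]; exact hτle2 _ (by omega))
        simp only [Option.elim]
        rw [hτ1]
        exact this)
    (by
      rintro (_ | _ | i)
      · simp only [Option.elim, mul_zero, add_zero]
        refine (NQ_le hm c).trans ?_
        calc (n : ℝ) ^ 4 = (n : ℝ) ^ 3 * n := by ring
          _ ≤ _ := mul_le_mul_of_nonneg_left (NQ_ge hm c) (by positivity)
      · simp only [Option.elim, mul_zero, add_zero]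
        have h3 := NB_le (S := S) (w := w) (σ := σ) (t := τ M) hm c
        have h4 := NB_ge (S := S) (w := w) (σ := σ) (t := τ 0) hm c (h1.trans (hτ0 0))
          (hτle 0 (by omega))
        have h5 := mul_le_mul_of_nonneg_left h4 (by positivity : (0 : ℝ) ≤ (n : ℝ) ^ 2)
        have h6 : (n : ℝ) ^ 2 * n = (n : ℝ) ^ 3 := by ring
        linarith
      · simp only [Option.elim]
        rw [hτa, hτM]
        exact hR i)
    (by
      rintro (_ | _ | i)
      · simp only [Option.elim, Real.log_pow]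
        push_cast
        linarith
      · simp only [Option.elim, Real.log_pow]
        push_cast
        linarith
      · exact hK i)
    (by
      rintro (_ | _ | i)
      · simp only [Option.elim]; positivity
      · simp only [Option.elim]; positivity
      · exact hK0 i)
    (by
      rintro (_ | _ | i)
      · exact hQM
      · simp only [Option.elim]
        have : 0 ≤ q * Real.log n := by positivity
        linarith
      · exact hKM i)
    (by
      rintro (_ | i)
      · exact hNQ0 _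
      · simp only [Option.elim]
        rw [hτa]
        exact hF i)
    (by
      rintro (_ | i) j hj
      · exact NQ_mono hm c (h1.trans (hτ0 j)) (by rw [hτ1]; linarith)
          (hτle _ (by omega))
      · exact hFm i _ _ (hτ0 j) (by rw [hτ1]; linarith) (hτle _ (by omega)))
    (by
      rintro (_ | i)
      · refine (NQ_le hm c).trans ?_
        calc (n : ℝ) ^ 4 = (n : ℝ) ^ 3 * n := by ring
          _ ≤ _ := mul_le_mul_of_nonneg_left (NQ_ge hm c) (by positivity)
      · simp only [Option.elim]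
        rw [hτa]
        exact (hFm i _ _ (hτ0 _) (hτle _ le_rfl) le_rfl).trans (hFR i))
    (fun _ => hε)
    (by
      rintro (_ | i)
      · simp only [Option.elim]
        rw [Real.log_pow]
        push_cast
        exact hpM
      · exact hpM' i)
  obtain ⟨G, hG, hc, b1, b2⟩ := key
  refine ⟨G, hG, le_trans (le_of_eq ?_) hc, fun j hj t ht => ?_⟩
  · simp only [Fintype.card_option]
    push_cast
    ring
  · have hjM : j < M := Finset.mem_range.1 (hG hj)
    have ht' : t = τ j := ht
    subst ht'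
    have e1 : τ (j + p) = τ j + p * δ := by
      show a + ((j + p : ℕ) : ℝ) * δ = a + j * δ + p * δ
      push_cast
      ring
    refine ⟨?_, ?_, ?_, fun i => ?_, fun i => ?_⟩
    · have := b1 none j hj
      simp only [Option.elim, mul_zero, add_zero] at this
      rwa [hMδ] at this
    · have := b1 (some none) j hj
      simp only [Option.elim, mul_zero, add_zero] at this
      rw [hMδ] at this
      linarith
    · refine le_trans ?_ (b2 none j hj)
      exact NQ_mono hm c (by linarith [h1.trans (hτ0 j)]) (by rw [e1]; linarith)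
        (hτle _ (by omega))
    · have := b1 (some (some i)) j hj
      simp only [Option.elim] at this
      rwa [hMδ] at this
    · refine le_trans ?_ (b2 (some i) j hj)
      exact hFm i _ _ (by linarith [hτ0 j]) (by rw [e1]; linarith) (hτle _ (by omega))

end Vale.Agent.P146.H655
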