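import Vale.Agent.P146.H655.GridD

/-!
Good times on a grid, part 5: rates and growth for one family of potentials.
-/

open MeasureTheory ProbabilityTheory

namespace Vale.Agent.P146.H655

open Vale.Agent.P157.Lv Vale.Agent.P146.H425 Vale.Agent.P146.H325 Vale.Agent.P146.H332
  Vale.Agent.P146.H712 Vale.Agent.P146.H816 Vale.Agent.P146.R1 Vale.Agent.P146.R1C Matrix
  Vale.Agent.P146.R1S Vale.Agent.P146.H693 Vale.Agent.P146.H946.En2
open Vale.Agent.P146.H785 (Ax)

set_option linter.unusedSectionVars false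

lemma mono_ij {F : ℕ → ℝ} {N : ℕ} (h : ∀ j < N, F j ≤ F (j + 1)) :
    ∀ i j, i ≤ j → j ≤ N → F i ≤ F j := by
  intro i j hij
  induction j, hij using Nat.le_induction with
  | base => intro _; exact le_rfl
  | succ j hij ih => intro hj; exact (ih (by omega)).trans (h j (by omega))

/-- **Rates and growth at the times of a dense set of a grid**, for one family of potentials
`f i` with the rates `g i` and the errors `e i` per step. -/
theorem good_grid2 {ι : Type*} [Fintype ι] {f g : ι → ℕ → ℝ} {N p : ℕ} {δ q ε : ℝ}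
    {e K R : ι → ℝ} (hq : 0 < q) (hδ : 0 ≤ δ) (hε : 0 < ε) (hf : ∀ i, 0 < f i 0)
    (hg : ∀ i, ∀ j < N + p, 0 ≤ g i j)
    (hs : ∀ i, ∀ j < N + p, δ * g i j ≤ f i (j + 1) - f i j + e i)
    (hR : ∀ i, f i (N + p) + (N + p) * e i ≤ R i * f i 0)
    (hK : ∀ i, 2 * q * Real.log (R i) ≤ K i) (hK0 : ∀ i, 0 < K i) (hKN : ∀ i, K i ≤ N)
    (hp : ∀ i, q * (p * Real.log (R i)) ≤ N * Real.log (1 + ε)) :
    ∃ G ⊆ Finset.range N, (N : ℝ) * (1 - 2 * Fintype.card ι / q) ≤ G.card ∧
      ∀ j ∈ G, ∀ i, N * δ * g i j ≤ K i * (f i j + j * e i) ∧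
        ∀ p' ≤ p, f i (j + p') + (j + p') * e i ≤ (1 + ε) * (f i j + j * e i) := by
  classical
  have hF : ∀ i, ∀ j < N + p, (fun j : ℕ => f i j + j * e i) j ≤
      (fun j : ℕ => f i j + j * e i) (j + 1) := by
    intro i j hj
    have h1 := hs i j hj
    have h2 := mul_nonneg hδ (hg i j hj)
    simp only
    push_cast
    linarith
  have hpos : ∀ i, ∀ j ≤ N + p, 0 < f i j + j * e i := by
    intro i j hj
    have h1 := mono_ij (hF i) 0 j (Nat.zero_le _) hj
    simp only [Nat.cast_zero, zero_mul, add_zero] at h1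
    exact (hf i).trans_le h1
  obtain ⟨G, hG, hc, hb⟩ := good_compl (ι := ι ⊕ ι) N
    (fun o j => o.elim (fun i => K i * (f i j + j * e i) < N * δ * g i j)
      (fun i => (1 + ε) * (f i j + j * e i) < f i (j + p) + (j + p : ℕ) * e i))
    (c := fun _ => N / q) (by
      intro o
      cases o with
      | inl i =>
        have h1 := bad_count (F := fun j => f i j + j * e i) (g := g i) (N := N) (δ := δ)
          (K := K i) (R := R i) (by simpa using hf i) hδ (fun j hj => hg i j (by omega))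
          (fun j hj => by
            have := hs i j (by omega)
            push_cast
            linarith)
          (by
            have h2 := mono_ij (hF i) N (N + p) (by omega) le_rfl
            have h3 := hR i
            simp only [Nat.cast_zero, zero_mul, add_zero] at h2 ⊢
            push_cast at h2
            linarith) (hK0 i) (hKN i)
        have hN : (0 : ℝ) < N := (hK0 i).trans_le (hKN i)
        rw [le_div_iff₀ hq]
        by_contra hcon
        push Not at hcon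
        simp only [Sum.elim_inl] at hcon
        have h2 : (N : ℝ) * K i <
            ((Finset.range N).filter fun j => K i * (f i j + j * e i) <
              N * δ * g i j).card * q * K i := mul_lt_mul_of_pos_right hcon (hK0 i)
        have h3 : ((Finset.range N).filter fun j => K i * (f i j + j * e i) <
            N * δ * g i j).card * K i * q ≤ 2 * N * Real.log (R i) * q :=
          mul_le_mul_of_nonneg_right h1 hq.le
        have h4 : 2 * (N : ℝ) * Real.log (R i) * q ≤ N * K i := by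
          have := mul_le_mul_of_nonneg_left (hK i) hN.le
          linarith
        linarith
      | inr i =>
        have h1 := bad_partner (F := fun j : ℕ => f i j + j * e i) (N := N) (p := p) (ε := ε)
          (R := R i) (by simpa using hf i) (hF i) (by
            have := hR i
            simp only [Nat.cast_zero, zero_mul, add_zero]
            push_cast
            exact this) hε
        have hl : 0 < Real.log (1 + ε) := Real.log_pos (by linarith)
        rw [le_div_iff₀ hq]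
        by_contra hcon
        push Not at hcon
        simp only [Sum.elim_inr] at hcon
        have h2 := mul_lt_mul_of_pos_right hcon hl
        have h3 := mul_le_mul_of_nonneg_left h1 hq.le
        have h4 := hp i
        rw [mul_comm _ q, mul_assoc] at h2
        exact absurd (h2.trans_le (h3.trans h4)) (lt_irrefl _))
  refine ⟨G, hG, ?_, fun j hj i => ⟨?_, fun p' hp' => ?_⟩⟩
  · refine le_trans (le_of_eq ?_) hc
    rw [Finset.sum_const, Finset.card_univ, Fintype.card_sum, nsmul_eq_mul]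
    push_cast
    ring
  · exact not_lt.1 (hb (Sum.inl i) j hj)
  · have hjN : j < N := Finset.mem_range.1 (hG hj)
    have h1 : f i (j + p) + (j + p : ℕ) * e i ≤ (1 + ε) * (f i j + j * e i) :=
      not_lt.1 (hb (Sum.inr i) j hj)
    refine le_trans ?_ h1
    have h2 : f i (j + p') + ((j + p' : ℕ) : ℝ) * e i ≤
        f i (j + p) + ((j + p : ℕ) : ℝ) * e i :=
      mono_ij (hF i) (j + p') (j + p) (by omega) (by omega)
    rw [Nat.cast_add j p'] at h2
    exact h2

variable {n : ℕ} {k x : ℝ} {S : CS n k x} {w t t' : ℝ} {m σ : ℕ → ℝ} {N : ℕ}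

/-- the potential of `(EnT)` -/
noncomputable def fT (S : CS n k x) (w : ℝ) (m σ : ℕ → ℝ) (N : ℕ) (c Nb t : ℝ) : ℝ :=
  4 * QNQ S w m σ N c t + 16 * Nb * NQ S w m σ N c t

lemma fT_ge (hm : Pm m N) (c : ℝ) {Nb : ℝ} (t : ℝ) :
    16 * (Nb * NQ S w m σ N c t) ≤ fT S w m σ N c Nb t := by
  unfold fT
  have := QNQ_nonneg (S := S) (w := w) (t := t) (σ := σ) hm c
  linarith

lemma fT_le (hm : Pm m N) (c : ℝ) {Nb η : ℝ} (hNb : 0 ≤ Nb) (h : pB S w m σ N c Nb t ≤ η) :
    fT S w m σ N c Nb t ≤ 20 * (Nb * NQ S w m σ N c t) + 4 * (n : ℝ) ^ 6 * η := by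
  unfold fT
  have a1 := QNQ_le (S := S) (w := w) (t := t) (σ := σ) hm c hNb
  have a2 : (n : ℝ) ^ 6 * pB S w m σ N c Nb t ≤ (n : ℝ) ^ 6 * η :=
    mul_le_mul_of_nonneg_left h (by positivity)
  linarith

lemma fT_step (hm : Pm m N) (c : ℝ) {Nb η : ℝ} (hNb : 0 ≤ Nb) (h1 : w ≤ t) (h2 : t < t')
    (h3 : t' ≤ 1) (hk : Sh S (t' - t)) (h4 : pB S w m σ N c Nb t ≤ η)
    (h5 : pB S w m σ N c Nb t' ≤ η) :
    (t' - t) * EnTQ S w m σ N c t ≤ fT S w m σ N c Nb t' - fT S w m σ N c Nb t +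
      128 * (n : ℝ) ^ 6 * η := by
  have h6 := EnTQ_le (S := S) (σ := σ) (t := t) (t' := t') hm c hNb h1 h2 h3 hk
  have h7 : 64 * (n : ℝ) ^ 6 * (pB S w m σ N c Nb t' + pB S w m σ N c Nb t) ≤
      64 * (n : ℝ) ^ 6 * (η + η) := mul_le_mul_of_nonneg_left (by linarith) (by positivity)
  unfold fT
  linarith

lemma nat34 (hn : 2 ≤ n) : (n : ℝ) ≤ (n : ℝ) ^ 4 := by
  have hn2 : (2 : ℝ) ≤ n := by exact_mod_cast hn
  have : (1 : ℝ) ≤ (n : ℝ) ^ 3 := one_le_pow₀ (by linarith)
  calc (n : ℝ) = 1 * n := by ring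
    _ ≤ (n : ℝ) ^ 3 * n := mul_le_mul_of_nonneg_right this (by linarith)
    _ = _ := by ring

lemma fT_ratio (hm : Pm m N) (c : ℝ) (hn : 2 ≤ n) {Nb η A ε : ℝ} (hNb : 0 < Nb)
    (h : pB S w m σ N c Nb t' ≤ η) (hε1 : ε ≤ 1)
    (hA : 4 * (n : ℝ) ^ 6 * η + A ≤ ε * (Nb * n)) :
    fT S w m σ N c Nb t' + A ≤ 2 * (n : ℝ) ^ 3 * fT S w m σ N c Nb t := by
  have hn2 : (2 : ℝ) ≤ n := by exact_mod_cast hn
  have a1 := fT_le (S := S) (w := w) (t := t') (σ := σ) hm c hNb.le h
  have a2 := fT_ge (S := S) (w := w) (σ := σ) (Nb := Nb) hm c t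
  have a3 : Nb * NQ S w m σ N c t' ≤ Nb * (n : ℝ) ^ 4 :=
    mul_le_mul_of_nonneg_left (NQ_le hm c) hNb.le
  have a4 : Nb * n ≤ Nb * NQ S w m σ N c t :=
    mul_le_mul_of_nonneg_left (NQ_ge hm c) hNb.le
  have a5 : (n : ℝ) ^ 3 * (Nb * n) ≤ (n : ℝ) ^ 3 * (Nb * NQ S w m σ N c t) :=
    mul_le_mul_of_nonneg_left a4 (by positivity)
  have a6 : (n : ℝ) ^ 3 * (Nb * n) = Nb * (n : ℝ) ^ 4 := by ring
  have a7 : (n : ℝ) ^ 3 * (16 * (Nb * NQ S w m σ N c t)) ≤
      (n : ℝ) ^ 3 * fT S w m σ N c Nb t := mul_le_mul_of_nonneg_left a2 (by positivity)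
  have a8 : ε * (Nb * n) ≤ 1 * (Nb * (n : ℝ) ^ 4) := by
    refine mul_le_mul hε1 ?_ (by positivity) zero_le_one
    exact mul_le_mul_of_nonneg_left (nat34 hn) hNb.le
  have a9 : 0 ≤ Nb * (n : ℝ) ^ 4 := by positivity
  linarith

lemma NQ_ratio (hm : Pm m N) (c : ℝ) (hn : 2 ≤ n) :
    NQ S w m σ N c t' ≤ 2 * (n : ℝ) ^ 3 * NQ S w m σ N c t := by
  have hn2 : (2 : ℝ) ≤ n := by exact_mod_cast hn
  have a1 : NQ S w m σ N c t' ≤ (n : ℝ) ^ 4 := NQ_le hm c
  have a0 : (n : ℝ) ≤ NQ S w m σ N c t := NQ_ge hm c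
  have a2 := mul_le_mul_of_nonneg_left a0 (by positivity : (0 : ℝ) ≤ (n : ℝ) ^ 3)
  have a3 : (n : ℝ) ^ 3 * n = (n : ℝ) ^ 4 := by ring
  have a4 : 0 ≤ (n : ℝ) ^ 3 * NQ S w m σ N c t := by
    have : 0 ≤ NQ S w m σ N c t := by linarith
    positivity
  linarith

lemma NB_ratio (hm : Pm m N) (c : ℝ) (hn : 2 ≤ n) (h1 : w ≤ t) (h2 : t ≤ 1) :
    2 * NB S w m σ N c t' ≤ 2 * (n : ℝ) ^ 3 * (2 * NB S w m σ N c t) := by
  have hn2 : (2 : ℝ) ≤ n := by exact_mod_cast hn
  have a1 : NB S w m σ N c t' ≤ (n : ℝ) ^ 3 := NB_le hm c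
  have a0 : (n : ℝ) ≤ NB S w m σ N c t := NB_ge hm c h1 h2
  have a2 := mul_le_mul_of_nonneg_left (show (1 : ℝ) ≤ NB S w m σ N c t by linarith)
    (by positivity : (0 : ℝ) ≤ (n : ℝ) ^ 3)
  have a4 : 0 ≤ (n : ℝ) ^ 3 * NB S w m σ N c t := by
    have : 0 ≤ NB S w m σ N c t := by linarith
    positivity
  linarith

/-- Rates and growth at one time: `h` is the length of the interval, `Δ` the range of the growth
bounds, `δ` the mesh, `p` the number of steps of the growth bound of the potential `fT`. -/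
structure RatesP (S : CS n k x) (w : ℝ) (m σ : ℕ → ℝ) (N : ℕ) (c h Δ ε q Nb δ : ℝ) (p : ℕ)
    (t : ℝ) : Prop where
  en : h * EnQ S w m σ N c t ≤ 8 * q * Real.log n * NQ S w m σ N c t
  enB : h * EnB S w m σ N c t ≤ 16 * q * Real.log n * NB S w m σ N c t
  enT : h * EnTQ S w m σ N c t ≤ 168 * q * Real.log n * (Nb * NQ S w m σ N c t)
  pg : ∀ t', t ≤ t' → t' ≤ t + Δ → NQ S w m σ N c t' ≤ (1 + ε) * NQ S w m σ N c t
  inc : ∀ t', t ≤ t' → t' ≤ t + Δ → IncQ S w m σ N c t t' ≤ ε / 2 * NQ S w m σ N c t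
  pgB : ∀ t', t ≤ t' → t' ≤ t + Δ → NB S w m σ N c t' ≤ (1 + ε) * NB S w m σ N c t
  pgT : ∀ p' ≤ p, fT S w m σ N c Nb (t + p' * δ) ≤
    (1 + ε) * fT S w m σ N c Nb t + 2 * ε * (Nb * NQ S w m σ N c t)

/-- the raw bounds give the rates -/
lemma ratesP_of {c h Δ ε q Nb δ E η : ℝ} {p j M : ℕ} (hm : Pm m N) (hn : 2 ≤ n)
    (hq : 1 ≤ q) (hε : 0 < ε) (hε1 : ε ≤ 1) (hNb : 0 < Nb) (h1 : w ≤ t)
    (hend : t + Δ ≤ t + p * δ) (hend1 : t + p * δ ≤ 1) (hE0 : 0 ≤ E) (hη0 : 0 ≤ η)
    (hj : (j : ℝ) ≤ M) (hpB : pB S w m σ N c Nb t ≤ η)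
    (hη : 4 * (n : ℝ) ^ 6 * η + (M + p) * E ≤ ε * (Nb * n))
    (b1 : h * EnQ S w m σ N c t ≤ 8 * q * Real.log n * NQ S w m σ N c t)
    (b1' : NQ S w m σ N c (t + p * δ) ≤ (1 + ε) * NQ S w m σ N c t)
    (b2 : h * EnB S w m σ N c t ≤ 8 * q * Real.log n * (2 * NB S w m σ N c t))
    (b2' : 2 * NB S w m σ N c (t + p * δ) ≤ (1 + ε) * (2 * NB S w m σ N c t))
    (b3 : h * EnTQ S w m σ N c t ≤ 8 * q * Real.log n * (fT S w m σ N c Nb t + j * E))
    (b3' : ∀ p' ≤ p, fT S w m σ N c Nb (t + p' * δ) + (j + p') * E ≤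
      (1 + ε) * (fT S w m σ N c Nb t + j * E)) :
    RatesP S w m σ N c h Δ ε q Nb δ p t := by
  have hn2 : (2 : ℝ) ≤ n := by exact_mod_cast hn
  have hl : 0 < Real.log n := Real.log_pos (by linarith)
  have hpe : ∀ t', t ≤ t' → t' ≤ t + Δ → NQ S w m σ N c t' ≤
      (1 + ε) * NQ S w m σ N c t := fun t' c1 c2 =>
    (NQ_mono hm c (h1.trans c1) (c2.trans hend) hend1).trans b1'
  have hjE : (j : ℝ) * E ≤ (M + p) * E :=
    mul_le_mul_of_nonneg_right (by have : (0 : ℝ) ≤ p := Nat.cast_nonneg p; linarith) hE0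
  have a4 : Nb * n ≤ Nb * NQ S w m σ N c t := mul_le_mul_of_nonneg_left (NQ_ge hm c) hNb.le
  have hη1 : 0 ≤ 4 * (n : ℝ) ^ 6 * η := by positivity
  refine ⟨b1, by linarith, ?_, hpe, fun t' c1 c2 => ?_, fun t' c1 c2 => ?_, fun p' hp' => ?_⟩
  · have a1 := fT_le (S := S) (w := w) (σ := σ) hm c hNb.le hpB
    have a6 : ε * (Nb * n) ≤ 1 * (Nb * n) := mul_le_mul_of_nonneg_right hε1 (by positivity)
    have a7 : fT S w m σ N c Nb t + j * E ≤ 21 * (Nb * NQ S w m σ N c t) := by linarith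
    calc h * EnTQ S w m σ N c t ≤ 8 * q * Real.log n * (fT S w m σ N c Nb t + j * E) := b3
      _ ≤ 8 * q * Real.log n * (21 * (Nb * NQ S w m σ N c t)) :=
          mul_le_mul_of_nonneg_left a7 (by positivity)
      _ = _ := by ring
  · have b6 := IncQ_le (S := S) (w := w) (σ := σ) (t := t) (t' := t') hm c h1 c1
      ((c2.trans hend).trans hend1)
    have b7 := hpe t' c1 c2
    linarith
  · have b8 := NB_mono (S := S) (w := w) (σ := σ) hm c (h1.trans c1) (c2.trans hend) hend1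
    linarith
  · have b10 := b3' p' hp'
    have a6 : 0 ≤ (j + p' : ℝ) * E := by positivity
    have a7 : (j : ℝ) * E ≤ ε * (Nb * n) := by linarith
    have a8 : ε * (Nb * n) ≤ ε * (Nb * NQ S w m σ N c t) :=
      mul_le_mul_of_nonneg_left a4 hε.le
    have a9 : (1 + ε) * (j * E) ≤ 2 * (j * E) :=
      mul_le_mul_of_nonneg_right (by linarith) (by positivity)
    linarith

/-- **Rates and growth at the times of a dense subset of a grid**, with one family of further
potentials `f i`, rates `g i`, errors `e i` per step. -/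
theorem rates2 {ι : Type*} [Fintype ι] (hm : Pm m N) (c : ℝ) (hn : 2 ≤ n)
    {a h Δ ε q Nb η : ℝ} {M p : ℕ} (h1 : w ≤ a) (hh : 0 < h) (hp1 : Δ ≤ p * (h / M))
    (h2 : a + h + p * (h / M) ≤ 1) (hSh : Sh S (h / M)) (hq : 1 ≤ q) (hε : 0 < ε)
    (hε1 : ε ≤ 1) (hNb : 0 < Nb)
    (hpB : ∀ t, a ≤ t → t ≤ a + h + p * (h / M) → pB S w m σ N c Nb t ≤ η)
    (hη : (4 + 128 * (M + p)) * (n : ℝ) ^ 6 * η ≤ ε * (Nb * n)) (hM1 : 8 * q * Real.log n ≤ M)
    (hpM : q * (p * (4 * Real.log n)) ≤ M * Real.log (1 + ε)) {f g : ι → ℝ → ℝ}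
    {e K R : ι → ℝ} (hf : ∀ i, 0 < f i a) (he : ∀ i, 0 ≤ e i)
    (hg : ∀ i t, a ≤ t → t ≤ a + h + p * (h / M) → 0 ≤ g i t)
    (hs : ∀ i t, a ≤ t → t + h / M ≤ a + h + p * (h / M) →
      h / M * g i t ≤ f i (t + h / M) - f i t + e i)
    (hR : ∀ i, f i (a + h + p * (h / M)) + (M + p) * e i ≤ R i * f i a)
    (hK : ∀ i, 2 * q * Real.log (R i) ≤ K i) (hK0 : ∀ i, 0 < K i) (hKM : ∀ i, K i ≤ M)
    (hpR : ∀ i, q * (p * Real.log (R i)) ≤ M * Real.log (1 + ε)) :
    ∃ G ⊆ Finset.range M, (M : ℝ) * (1 - 2 * (Fintype.card ι + 3) / q) ≤ G.card ∧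
      ∀ j ∈ G, ∀ t, t = a + j * (h / M) → RatesP S w m σ N c h Δ ε q Nb (h / M) p t ∧
        ∀ i, h * g i t ≤ K i * (f i t + M * e i) ∧
          ∀ p' ≤ p, f i (t + p' * (h / M)) ≤ (1 + ε) * (f i t + M * e i) := by
  have hn2 : (2 : ℝ) ≤ n := by exact_mod_cast hn
  have hn0 : (0 : ℝ) < n := by linarith
  have hl : 0 < Real.log n := Real.log_pos (by linarith)
  have hM : (0 : ℝ) < M := lt_of_lt_of_le (by positivity) hM1
  have hlog2 : Real.log 2 ≤ Real.log n := Real.log_le_log (by norm_num) hn2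
  set δ := h / M with hδ
  have hδ0 : 0 < δ := by positivity
  have hMδ : M * δ = h := by rw [hδ]; field_simp
  have hpδ0 : 0 ≤ p * δ := by positivity
  have hη0 : 0 ≤ η := (pB_nonneg c Nb).trans (hpB a le_rfl (by linarith))
  set τ : ℕ → ℝ := fun j => a + j * δ with hτ
  have hτ1 : ∀ j, τ (j + 1) = τ j + δ := fun j => by
    show a + ((j + 1 : ℕ) : ℝ) * δ = a + j * δ + δ
    push_cast
    ring
  have hτ0 : ∀ j, a ≤ τ j := fun j => by
    show a ≤ a + j * δ
    have : 0 ≤ (j : ℝ) * δ := by positivity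
    linarith
  have hτa : τ 0 = a := by simp [hτ]
  have hτM : τ (M + p) = a + h + p * δ := by
    show a + ((M + p : ℕ) : ℝ) * δ = a + h + p * δ
    push_cast
    rw [← hMδ]
    ring
  have hτle : ∀ j, j ≤ M + p → τ j ≤ a + h + p * δ := by
    intro j hj
    rw [← hτM]
    show a + j * δ ≤ a + ((M + p : ℕ) : ℝ) * δ
    have : (j : ℝ) ≤ ((M + p : ℕ) : ℝ) := by exact_mod_cast hj
    nlinarith
  have hτle1 : ∀ j, j ≤ M + p → τ j ≤ 1 := fun j hj => (hτle j hj).trans h2
  have hτlt : ∀ j, τ j < τ (j + 1) := fun j => by rw [hτ1]; linarith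
  have hstep : ∀ j, τ (j + 1) - τ j = δ := fun j => by rw [hτ1]; ring
  have hShj : ∀ j, Sh S (τ (j + 1) - τ j) := fun j => by rw [hstep]; exact hSh
  have hpBj : ∀ j, j ≤ M + p → pB S w m σ N c Nb (τ j) ≤ η := fun j hj =>
    hpB _ (hτ0 j) (hτle j hj)
  have hlogR : Real.log (2 * (n : ℝ) ^ 3) ≤ 4 * Real.log n := by
    rw [Real.log_mul (by norm_num) (by positivity), Real.log_pow]
    push_cast
    linarith
  set E := 128 * (n : ℝ) ^ 6 * η with hE
  have hE0 : 0 ≤ E := by positivity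
  have hη' : 4 * (n : ℝ) ^ 6 * η + (M + p) * E ≤ ε * (Nb * n) := by
    refine le_trans (le_of_eq ?_) hη
    rw [hE]; ring
  have hKR : 2 * q * Real.log (2 * (n : ℝ) ^ 3) ≤ 8 * q * Real.log n := by
    have := mul_le_mul_of_nonneg_left hlogR (by linarith : 0 ≤ 2 * q)
    linarith
  have hb : q * (p * Real.log (2 * (n : ℝ) ^ 3)) ≤ M * Real.log (1 + ε) := by
    refine le_trans ?_ hpM
    refine mul_le_mul_of_nonneg_left ?_ (by linarith)
    exact mul_le_mul_of_nonneg_left hlogR (by positivity)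
  have hK00 : 0 < 8 * q * Real.log n := by positivity
  have key := good_grid2 (ι := Option (Option (Option ι)))
    (f := fun o j => o.elim (NQ S w m σ N c (τ j)) fun o => o.elim (2 * NB S w m σ N c (τ j))
      fun o => o.elim (fT S w m σ N c Nb (τ j)) fun i => f i (τ j))
    (g := fun o j => o.elim (EnQ S w m σ N c (τ j)) fun o => o.elim (EnB S w m σ N c (τ j))
      fun o => o.elim (EnTQ S w m σ N c (τ j)) fun i => g i (τ j))
    (N := M) (p := p) (δ := δ) (q := q) (ε := ε)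
    (e := fun o => o.elim 0 fun o => o.elim 0 fun o => o.elim E e)
    (K := fun o => o.elim (8 * q * Real.log n) fun o => o.elim (8 * q * Real.log n)
      fun o => o.elim (8 * q * Real.log n) K)
    (R := fun o => o.elim (2 * (n : ℝ) ^ 3) fun o => o.elim (2 * (n : ℝ) ^ 3)
      fun o => o.elim (2 * (n : ℝ) ^ 3) R) (by linarith) hδ0.le hε
    (by
      rintro (_ | _ | _ | i)
      · exact hn0.trans_le (NQ_ge hm c)
      · exact mul_pos two_pos (hn0.trans_le (NB_ge hm c (h1.trans (hτ0 0)) (hτle1 0 (by omega))))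
      · exact lt_of_lt_of_le (mul_pos (by norm_num) (mul_pos hNb (hn0.trans_le (NQ_ge hm c))))
          (fT_ge hm c (τ 0))
      · exact hτa ▸ hf i)
    (by
      rintro (_ | _ | _ | i) j hj
      · exact EnQ_nonneg hm c
      · exact EnB_nonneg hm c
      · exact EnTQ_nonneg hm c
      · exact hg i _ (hτ0 j) (hτle j hj.le))
    (by
      rintro (_ | _ | _ | i) j hj
      · have := EnQ_le (S := S) (σ := σ) hm c (h1.trans (hτ0 j)) (hτlt j)
          (hτle1 (j + 1) (by omega)) (hShj j)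
        rw [hstep] at this
        exact this.trans (le_of_eq (add_zero _).symm)
      · have := EnB_le (S := S) (σ := σ) hm c (h1.trans (hτ0 j)) (hτlt j)
          (hτle1 (j + 1) (by omega)) (hShj j)
        rw [hstep] at this
        exact this.trans (le_of_eq (add_zero _).symm)
      · have := fT_step (S := S) (σ := σ) hm c hNb.le (h1.trans (hτ0 j)) (hτlt j)
          (hτle1 (j + 1) (by omega)) (hShj j) (hpBj j (by omega)) (hpBj (j + 1) (by omega))
        rw [hstep] at this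
        exact this
      · have := hs i (τ j) (hτ0 j) (by rw [← hτ1]; exact hτle _ (by omega))
        rw [← hτ1] at this
        exact this)
    (by
      rintro (_ | _ | _ | i)
      · show NQ S w m σ N c (τ (M + p)) + (M + p) * 0 ≤ _
        rw [mul_zero, add_zero]
        exact NQ_ratio hm c hn
      · show 2 * NB S w m σ N c (τ (M + p)) + (M + p) * 0 ≤ _
        rw [mul_zero, add_zero]
        exact NB_ratio hm c hn (h1.trans (hτ0 0)) (hτle1 0 (by omega))
      · exact fT_ratio hm c hn hNb (hpBj _ le_rfl) hε1 hη'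
      · show f i (τ (M + p)) + (M + p) * e i ≤ R i * f i (τ 0)
        rw [hτa, hτM]
        exact hR i)
    (by
      rintro (_ | _ | _ | i)
      · exact hKR
      · exact hKR
      · exact hKR
      · exact hK i)
    (by
      rintro (_ | _ | _ | i)
      · exact hK00
      · exact hK00
      · exact hK00
      · exact hK0 i)
    (by
      rintro (_ | _ | _ | i)
      · exact hM1
      · exact hM1
      · exact hM1
      · exact hKM i)
    (by
      rintro (_ | _ | _ | i)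
      · exact hb
      · exact hb
      · exact hb
      · exact hpR i)
  obtain ⟨G, hG, hc, hbb⟩ := key
  refine ⟨G, hG, le_trans (le_of_eq ?_) hc, fun j hj t ht => ?_⟩
  · simp only [Fintype.card_option]
    push_cast
    ring
  · have hjM : j < M := Finset.mem_range.1 (hG hj)
    have hjM' : (j : ℝ) ≤ M := by exact_mod_cast hjM.le
    have ht' : t = τ j := ht
    subst ht'
    have ep : ∀ p' : ℕ, τ (j + p') = τ j + p' * δ := fun p' => by
      show a + ((j + p' : ℕ) : ℝ) * δ = a + j * δ + p' * δ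
      push_cast
      ring
    have b1 := hbb j hj none
    have b2 := hbb j hj (some none)
    have b3 := hbb j hj (some (some none))
    simp only [Option.elim, mul_zero, add_zero, hMδ, ep] at b1 b2 b3
    refine ⟨ratesP_of (M := M) (j := j) (E := E) (η := η) hm hn hq hε hε1 hNb
      (h1.trans (hτ0 j)) (by linarith) (by rw [← ep]; exact hτle1 _ (by omega)) hE0 hη0 hjM'
      (hpBj j (by omega)) hη' b1.1 (b1.2 p le_rfl) b2.1 (b2.2 p le_rfl) b3.1 b3.2,
      fun i => ?_⟩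
    have b4 := hbb j hj (some (some (some i)))
    simp only [Option.elim, hMδ, ep] at b4
    have c1 := mul_le_mul_of_nonneg_right hjM' (he i)
    refine ⟨b4.1.trans (mul_le_mul_of_nonneg_left (by linarith) (hK0 i).le),
      fun p' hp' => ?_⟩
    have b5 := b4.2 p' hp'
    have c2 : 0 ≤ (j + p' : ℝ) * e i := by have := he i; positivity
    have c3 : (1 + ε) * (f i (τ j) + j * e i) ≤ (1 + ε) * (f i (τ j) + M * e i) :=
      mul_le_mul_of_nonneg_left (by linarith) (by linarith)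
    linarith

end Vale.Agent.P146.H655
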