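import Mathlib

/-!
# P146: anticoncentration at the scale of the standard deviation, deterministic part

`F` is a measurable function on a probability space and
`dens μ F y = ∫ exp (F - y - exp (F - y))`, the density at `y` of `F` plus an independent Gumbel
variable.  If `dens` is log-concave, then `dens ≤ C / (1 + sd F)` and
`P(|F - y| ≤ u) ≤ C (u + 1) / (1 + sd F)`.
-/

open MeasureTheory ProbabilityTheory Set Filter

open scoped ENNReal

namespace Vale.Agent.P146.H655

/-- The Gumbel kernel. -/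
noncomputable def phi (t : ℝ) : ℝ := Real.exp (t - Real.exp t)

lemma phi_pos (t : ℝ) : 0 < phi t := Real.exp_pos _

lemma phi_le (t : ℝ) : phi t ≤ 1 := by
  unfold phi
  rw [Real.exp_le_one_iff]
  have := Real.add_one_le_exp t
  linarith

lemma measurable_phi : Measurable phi := by
  unfold phi
  fun_prop

lemma phi_ge {t : ℝ} (ht : |t| ≤ 1 / 2) : 1 / 9 ≤ phi t := by
  unfold phi
  have h1 : Real.exp t ≤ Real.exp (1 / 2) := Real.exp_le_exp.2 ((abs_le.1 ht).2)
  have h2 : Real.exp (1 / 2) ≤ 33 / 20 := by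
    have h := Real.exp_one_lt_d9
    have h3 : Real.exp (1 / 2) * Real.exp (1 / 2) = Real.exp 1 := by
      rw [← Real.exp_add]; norm_num
    by_contra h4
    push Not at h4
    have : (33 / 20 : ℝ) * (33 / 20) < Real.exp (1 / 2) * Real.exp (1 / 2) :=
      mul_lt_mul'' h4 h4 (by norm_num) (by norm_num)
    rw [h3] at this
    norm_num at this
    linarith
  have h5 : -(43 / 20 : ℝ) ≤ t - Real.exp t := by
    have := (abs_le.1 ht).1
    linarith
  refine le_trans ?_ (Real.exp_le_exp.2 h5)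
  -- exp (43/20) ≤ 9
  have h6 : Real.exp (43 / 20) ≤ 9 := by
    have h := Real.exp_one_lt_d9
    have h7 : Real.exp (43 / 20) = Real.exp 1 * Real.exp 1 * Real.exp (3 / 20) := by
      rw [← Real.exp_add, ← Real.exp_add]; norm_num
    have h8 : Real.exp (3 / 20) ≤ 1 / (1 - 3 / 20) := by
      have := Real.add_one_le_exp (-(3 / 20 : ℝ))
      rw [le_div_iff₀ (by norm_num)]
      calc Real.exp (3 / 20) * (1 - 3 / 20) ≤ Real.exp (3 / 20) * Real.exp (-(3 / 20)) :=
            mul_le_mul_of_nonneg_left (by linarith) (Real.exp_pos _).le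
        _ = 1 := by rw [← Real.exp_add]; simp
    rw [h7]
    have h9 : Real.exp 1 * Real.exp 1 ≤ 2.7182818286 * 2.7182818286 :=
      mul_le_mul h.le h.le (Real.exp_pos _).le (by norm_num)
    calc Real.exp 1 * Real.exp 1 * Real.exp (3 / 20)
        ≤ (2.7182818286 * 2.7182818286) * (1 / (1 - 3 / 20)) :=
          mul_le_mul h9 h8 (Real.exp_pos _).le (by norm_num)
      _ ≤ 9 := by norm_num
  rw [Real.exp_neg, one_div]
  exact inv_anti₀ (Real.exp_pos _) h6

/-- The kernel is at most twice an increment of a distribution function. -/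
lemma phi_le_diff (t : ℝ) :
    phi t ≤ 2 * (Real.exp (-Real.exp (t - 1)) - Real.exp (-Real.exp t)) := by
  set w := Real.exp t with hw
  have hw0 : 0 < w := Real.exp_pos t
  have h1 : phi t = w * Real.exp (-w) := by
    unfold phi
    rw [sub_eq_add_neg, Real.exp_add]
  have h2 : Real.exp (t - 1) = w * Real.exp (-1) := by
    rw [sub_eq_add_neg, Real.exp_add]
  have h3 : Real.exp (-1) ≤ 1 / 2 := by
    have := Real.exp_neg_one_lt_d9
    norm_num at this ⊢
    linarith
  have h4 : Real.exp (-(w * Real.exp (-1))) = Real.exp (-w) * Real.exp (w * (1 - Real.exp (-1))) := by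
    rw [← Real.exp_add (-w)]
    congr 1
    ring
  have h5 : w * (1 - Real.exp (-1)) + 1 ≤ Real.exp (w * (1 - Real.exp (-1))) :=
    Real.add_one_le_exp _
  rw [h1, h2, h4]
  have h6 : w * (1 / 2) ≤ w * (1 - Real.exp (-1)) :=
    mul_le_mul_of_nonneg_left (by linarith) hw0.le
  have h7 : Real.exp (-w) * (w / 2) ≤
      Real.exp (-w) * (Real.exp (w * (1 - Real.exp (-1))) - 1) :=
    mul_le_mul_of_nonneg_left (by linarith) (Real.exp_pos _).le
  nlinarith [h7]

lemma sum_phi_sub (x : ℝ) (K : ℕ) : ∑ k ∈ Finset.range K, phi (x - k) ≤ 2 := by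
  have h : ∀ k ∈ Finset.range K, phi (x - k) ≤
      2 * (Real.exp (-Real.exp (x - ((k + 1 : ℕ) : ℝ))) - Real.exp (-Real.exp (x - (k : ℝ)))) := by
    intro k _
    have := phi_le_diff (x - k)
    rw [show x - (k : ℝ) - 1 = x - ((k + 1 : ℕ) : ℝ) by push_cast; ring] at this
    exact this
  refine (Finset.sum_le_sum h).trans ?_
  rw [← Finset.mul_sum, Finset.sum_range_sub (fun k : ℕ => Real.exp (-Real.exp (x - (k : ℝ))))]
  have h1 : Real.exp (-Real.exp (x - (K : ℝ))) ≤ 1 := by
    rw [Real.exp_le_one_iff]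
    have := Real.exp_pos (x - (K : ℝ))
    linarith
  have h2 : 0 < Real.exp (-Real.exp (x - ((0 : ℕ) : ℝ))) := Real.exp_pos _
  linarith

lemma sum_phi_add (x : ℝ) (K : ℕ) : ∑ k ∈ Finset.range K, phi (x + k) ≤ 2 := by
  have h : ∀ k ∈ Finset.range K, phi (x + k) ≤
      2 * (Real.exp (-Real.exp (x - 1 + (k : ℝ))) -
        Real.exp (-Real.exp (x - 1 + ((k + 1 : ℕ) : ℝ)))) := by
    intro k _
    have := phi_le_diff (x + k)
    rw [show x + (k : ℝ) - 1 = x - 1 + (k : ℝ) by ring] at this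
    rw [show x - 1 + ((k + 1 : ℕ) : ℝ) = x + (k : ℝ) by push_cast; ring]
    exact this
  refine (Finset.sum_le_sum h).trans ?_
  rw [← Finset.mul_sum, Finset.sum_range_sub' (fun k : ℕ => Real.exp (-Real.exp (x - 1 + (k : ℝ))))]
  have h1 : Real.exp (-Real.exp (x - 1 + ((0 : ℕ) : ℝ))) ≤ 1 := by
    rw [Real.exp_le_one_iff]
    have := Real.exp_pos (x - 1 + ((0 : ℕ) : ℝ))
    linarith
  have h2 : 0 < Real.exp (-Real.exp (x - 1 + (K : ℝ))) := Real.exp_pos _
  linarith

/-! ### log-concave functions with bounded sums over a half-line -/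

section decay

variable {P : ℝ → ℝ}

lemma lc_min (hpos : ∀ t, 0 < P t)
    (hlc : ∀ {s t : ℝ}, 0 < s → 0 < t → s + t = 1 → ∀ a b : ℝ,
      P a ^ s * P b ^ t ≤ P (s * a + t * b))
    {A : ℝ} (hA : 0 < A) {T x : ℝ} (h0 : A ≤ P 0) (h1 : A ≤ P T) (hx : 0 ≤ x) (hxT : x ≤ T) :
    A ≤ P x := by
  rcases hx.eq_or_lt with rfl | hx
  · exact h0
  rcases hxT.eq_or_lt with rfl | hxT
  · exact h1
  have hT : 0 < T := hx.trans hxT
  have hs : 0 < 1 - x / T := by
    rw [sub_pos, div_lt_one hT]; exact hxT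
  have ht : 0 < x / T := div_pos hx hT
  have h := hlc hs ht (by ring) 0 T
  rw [mul_zero, zero_add, div_mul_cancel₀ _ hT.ne'] at h
  refine le_trans ?_ h
  calc A = A ^ (1 - x / T) * A ^ (x / T) := by
        rw [← Real.rpow_add hA]; simp
    _ ≤ P 0 ^ (1 - x / T) * P T ^ (x / T) :=
        mul_le_mul (Real.rpow_le_rpow hA.le h0 hs.le) (Real.rpow_le_rpow hA.le h1 ht.le)
          (Real.rpow_nonneg hA.le _) (Real.rpow_nonneg (hpos 0).le _)

lemma half (hpos : ∀ t, 0 < P t)
    (hlc : ∀ {s t : ℝ}, 0 < s → 0 < t → s + t = 1 → ∀ a b : ℝ,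
      P a ^ s * P b ^ t ≤ P (s * a + t * b))
    (hsum : ∀ K : ℕ, ∑ k ∈ Finset.range K, P k ≤ 2) {N : ℕ} (hN : 4 / P 0 < N + 1) :
    P N < P 0 / 2 := by
  by_contra h
  push Not at h
  have hA : 0 < P 0 / 2 := by have := hpos 0; linarith
  have h1 : ∀ k ∈ Finset.range (N + 1), P 0 / 2 ≤ P k := by
    intro k hk
    refine lc_min hpos hlc hA (by linarith) h (Nat.cast_nonneg k) ?_
    exact_mod_cast Nat.lt_succ_iff.1 (Finset.mem_range.1 hk)
  have h2 := Finset.sum_le_sum h1
  rw [Finset.sum_const, Finset.card_range, nsmul_eq_mul] at h2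
  have h3 := h2.trans (hsum (N + 1))
  rw [div_lt_iff₀ (hpos 0)] at hN
  push_cast at h3
  nlinarith

/-- Exponential decay. -/
lemma decay (hpos : ∀ t, 0 < P t)
    (hlc : ∀ {s t : ℝ}, 0 < s → 0 < t → s + t = 1 → ∀ a b : ℝ,
      P a ^ s * P b ^ t ≤ P (s * a + t * b))
    (hsum : ∀ K : ℕ, ∑ k ∈ Finset.range K, P k ≤ 2) {N : ℕ} (hN : 4 / P 0 < N + 1)
    (hN1 : 1 ≤ N) {t : ℝ} (ht : (N : ℝ) ≤ t) :
    P t ≤ P 0 * (1 / 2) ^ (t / N) := by
  have hh := half hpos hlc hsum hN
  have hN0 : (0 : ℝ) < N := by exact_mod_cast hN1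
  have ht0 : 0 < t := hN0.trans_le ht
  rcases ht.eq_or_lt with h | hlt
  · rw [← h, div_self hN0.ne', Real.rpow_one]
    linarith
  have hs : 0 < 1 - N / t := by rw [sub_pos, div_lt_one ht0]; exact hlt
  have hp : 0 < (N : ℝ) / t := div_pos hN0 ht0
  have h := hlc hs hp (by ring) 0 t
  rw [mul_zero, zero_add, div_mul_cancel₀ _ ht0.ne'] at h
  have h1 : P 0 ^ (1 - N / t) * P t ^ (N / t : ℝ) ≤ P 0 / 2 := h.trans hh.le
  have h2 : P 0 / 2 = P 0 ^ (1 - N / t) * (P 0 ^ (N / t : ℝ) * (1 / 2)) := by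
    rw [← mul_assoc, ← Real.rpow_add (hpos 0)]
    simp only [sub_add_cancel, Real.rpow_one]
    ring
  rw [h2] at h1
  have h3 : P t ^ (N / t : ℝ) ≤ P 0 ^ (N / t : ℝ) * (1 / 2) :=
    le_of_mul_le_mul_left h1 (Real.rpow_pos_of_pos (hpos 0) _)
  have h4 := Real.rpow_le_rpow (Real.rpow_nonneg (hpos t).le _) h3 (div_nonneg ht0.le hN0.le)
  rw [← Real.rpow_mul (hpos t).le, Real.mul_rpow (Real.rpow_nonneg (hpos 0).le _) (by norm_num),
    ← Real.rpow_mul (hpos 0).le, div_mul_div_cancel₀ ht0.ne', div_self hN0.ne',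
    Real.rpow_one, Real.rpow_one] at h4
  exact h4

lemma half_rpow_le {x : ℝ} (h0 : 0 ≤ x) (h1 : x ≤ 1) : (1 / 2 : ℝ) ^ x ≤ 1 - x / 2 := by
  have h : (1 / 2 : ℝ) ^ x = 1 ^ (1 - x) * (1 / 2) ^ x := by simp
  have h2 := Real.geom_mean_le_arith_mean2_weighted (w₁ := 1 - x) (w₂ := x) (p₁ := 1)
    (p₂ := 1 / 2) (by linarith) h0 (by norm_num) (by norm_num) (by ring)
  rw [h]
  linarith

/-- The sum of `(k + 1) ^ 2 P k`. -/
lemma sum_sq (hpos : ∀ t, 0 < P t)
    (hlc : ∀ {s t : ℝ}, 0 < s → 0 < t → s + t = 1 → ∀ a b : ℝ,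
      P a ^ s * P b ^ t ≤ P (s * a + t * b))
    (hsum : ∀ K : ℕ, ∑ k ∈ Finset.range K, P k ≤ 2) {N : ℕ} (hN : 4 / P 0 < N + 1)
    (hN1 : 1 ≤ N) (hN2 : N ≤ 4 / P 0) (K : ℕ) :
    ∑ k ∈ Finset.range K, ((k : ℝ) + 1) ^ 2 * P k ≤ 72 * (N : ℝ) ^ 2 := by
  have hN0 : (1 : ℝ) ≤ N := by exact_mod_cast hN1
  set r : ℝ := (1 / 2 : ℝ) ^ (1 / (N : ℝ)) with hr
  have hr0 : 0 < r := Real.rpow_pos_of_pos (by norm_num) _
  have hr1 : r ≤ 1 - 1 / (2 * N) := by
    have := half_rpow_le (x := 1 / (N : ℝ)) (by positivity) (by rw [div_le_one (by linarith)]; exact hN0)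
    calc r ≤ 1 - 1 / (N : ℝ) / 2 := this
      _ = 1 - 1 / (2 * N) := by rw [div_div, mul_comm]
  have hNp : 0 < 1 / (2 * (N : ℝ)) := by positivity
  have hr2 : ‖r‖ < 1 := by
    rw [Real.norm_of_nonneg hr0.le]; linarith
  have hbd : ∀ k ∈ Finset.range K, ((k : ℝ) + 1) ^ 2 * P k ≤
      4 * (N : ℝ) ^ 2 * P k + 2 * P 0 * (((k + 2).choose 2 : ℕ) * r ^ k) := by
    intro k _
    have hch : (((k + 2).choose 2 : ℕ) : ℝ) = ((k : ℝ) + 2) * (k + 1) / 2 := by
      rw [Nat.cast_choose_two]; push_cast; ring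
    rcases le_or_gt k N with hk | hk
    · have hk' : (k : ℝ) ≤ N := by exact_mod_cast hk
      have h1 : ((k : ℝ) + 1) ^ 2 ≤ 4 * (N : ℝ) ^ 2 := by
        have : (k : ℝ) + 1 ≤ 2 * N := by linarith
        nlinarith [Nat.cast_nonneg (α := ℝ) k]
      have h2 : ((k : ℝ) + 1) ^ 2 * P k ≤ 4 * (N : ℝ) ^ 2 * P k :=
        mul_le_mul_of_nonneg_right h1 (hpos _).le
      have h3 : 0 ≤ 2 * P 0 * (((k + 2).choose 2 : ℕ) * r ^ k) := by
        have := hpos 0
        positivity
      linarith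
    · have hk' : (N : ℝ) ≤ k := by exact_mod_cast hk.le
      have h1 := decay hpos hlc hsum hN hN1 hk'
      have h2 : (1 / 2 : ℝ) ^ ((k : ℝ) / N) = r ^ k := by
        rw [hr, ← Real.rpow_natCast, ← Real.rpow_mul (by norm_num)]
        congr 1
        field_simp
      rw [h2] at h1
      have h3 : ((k : ℝ) + 1) ^ 2 * P k ≤ ((k : ℝ) + 1) ^ 2 * (P 0 * r ^ k) :=
        mul_le_mul_of_nonneg_left h1 (sq_nonneg _)
      have h4 : ((k : ℝ) + 1) ^ 2 * (P 0 * r ^ k) ≤
          2 * P 0 * (((k + 2).choose 2 : ℕ) * r ^ k) := by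
        rw [hch]
        have h5 : 0 ≤ P 0 * r ^ k := mul_nonneg (hpos 0).le (pow_nonneg hr0.le _)
        have h6 : ((k : ℝ) + 1) ^ 2 ≤ (k + 2) * (k + 1) := by
          nlinarith [Nat.cast_nonneg (α := ℝ) k]
        calc ((k : ℝ) + 1) ^ 2 * (P 0 * r ^ k) ≤ ((k + 2) * (k + 1)) * (P 0 * r ^ k) :=
              mul_le_mul_of_nonneg_right h6 h5
          _ = 2 * P 0 * (((k : ℝ) + 2) * (k + 1) / 2 * r ^ k) := by ring
      have h5 : 0 ≤ 4 * (N : ℝ) ^ 2 * P k := by
        have := hpos k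
        positivity
      linarith
  refine (Finset.sum_le_sum hbd).trans ?_
  rw [Finset.sum_add_distrib, ← Finset.mul_sum, ← Finset.mul_sum]
  have h1 : 4 * (N : ℝ) ^ 2 * ∑ k ∈ Finset.range K, P k ≤ 4 * (N : ℝ) ^ 2 * 2 :=
    mul_le_mul_of_nonneg_left (hsum K) (by positivity)
  have h2 : ∑ k ∈ Finset.range K, (((k + 2).choose 2 : ℕ) * r ^ k : ℝ) ≤ 1 / (1 - r) ^ (2 + 1) := by
    have hs := hasSum_choose_mul_geometric_of_norm_lt_one 2 hr2
    exact sum_le_hasSum _ (fun k _ => by positivity) hs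
  have h3 : 1 / (1 - r) ^ (2 + 1) ≤ (2 * (N : ℝ)) ^ 3 := by
    have h4 : 1 / (2 * (N : ℝ)) ≤ 1 - r := by linarith
    have h5 : (1 / (2 * (N : ℝ))) ^ 3 ≤ (1 - r) ^ (2 + 1) := pow_le_pow_left₀ hNp.le h4 3
    calc 1 / (1 - r) ^ (2 + 1) ≤ 1 / (1 / (2 * (N : ℝ))) ^ 3 :=
          one_div_le_one_div_of_le (by positivity) h5
      _ = (2 * (N : ℝ)) ^ 3 := by
          field_simp
  have h6 : 2 * P 0 * ∑ k ∈ Finset.range K, (((k + 2).choose 2 : ℕ) * r ^ k : ℝ) ≤
      2 * P 0 * (2 * (N : ℝ)) ^ 3 :=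
    mul_le_mul_of_nonneg_left (h2.trans h3) (by have := hpos 0; positivity)
  have h7 : P 0 * N ≤ 4 := by
    rw [le_div_iff₀ (hpos 0)] at hN2
    linarith
  have h8 : 2 * P 0 * (2 * (N : ℝ)) ^ 3 = 16 * (P 0 * N) * (N : ℝ) ^ 2 := by ring
  have h9 : 16 * (P 0 * N) * (N : ℝ) ^ 2 ≤ 64 * (N : ℝ) ^ 2 :=
    mul_le_mul_of_nonneg_right (by linarith) (sq_nonneg _)
  linarith

end decay

/-! ### the smoothed density -/

section dens

variable {Ω : Type*} [MeasurableSpace Ω]

/-- The density at `y` of `F` plus an independent Gumbel variable. -/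
noncomputable def dens (μ : Measure Ω) (F : Ω → ℝ) (y : ℝ) : ℝ := ∫ ω, phi (F ω - y) ∂μ

variable {μ : Measure Ω} [IsProbabilityMeasure μ] {F : Ω → ℝ}

lemma integrable_phi (hF : Measurable F) (y : ℝ) : Integrable (fun ω => phi (F ω - y)) μ := by
  refine Integrable.of_bound (C := 1) ?_ ?_
  · exact (measurable_phi.comp (hF.sub_const y)).aestronglyMeasurable
  · refine Filter.Eventually.of_forall fun ω => ?_
    rw [Real.norm_of_nonneg (phi_pos _).le]
    exact phi_le _

lemma dens_pos (hF : Measurable F) (y : ℝ) : 0 < dens μ F y := by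
  unfold dens
  rw [integral_pos_iff_support_of_nonneg (fun ω => (phi_pos _).le) (integrable_phi hF y)]
  have : Function.support (fun ω => phi (F ω - y)) = univ := by
    ext ω
    simp [(phi_pos (F ω - y)).ne']
  rw [this]
  simp

lemma dens_le_one (hF : Measurable F) (y : ℝ) : dens μ F y ≤ 1 := by
  unfold dens
  calc ∫ ω, phi (F ω - y) ∂μ ≤ ∫ _, (1 : ℝ) ∂μ :=
        integral_mono (integrable_phi hF y) (integrable_const _) fun ω => phi_le _
    _ = 1 := by simp

lemma sum_dens_add (hF : Measurable F) (y : ℝ) (K : ℕ) :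
    ∑ k ∈ Finset.range K, dens μ F (y + k) ≤ 2 := by
  unfold dens
  rw [← integral_finsetSum _ fun k _ => integrable_phi hF _]
  calc ∫ ω, ∑ k ∈ Finset.range K, phi (F ω - (y + k)) ∂μ ≤ ∫ _, (2 : ℝ) ∂μ := by
        refine integral_mono (integrable_finsetSum _ fun k _ => integrable_phi hF _)
          (integrable_const _) fun ω => ?_
        have := sum_phi_sub (F ω - y) K
        simpa only [sub_sub] using this
    _ = 2 := by simp

lemma sum_dens_sub (hF : Measurable F) (y : ℝ) (K : ℕ) :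
    ∑ k ∈ Finset.range K, dens μ F (y - k) ≤ 2 := by
  unfold dens
  rw [← integral_finsetSum _ fun k _ => integrable_phi hF _]
  calc ∫ ω, ∑ k ∈ Finset.range K, phi (F ω - (y - k)) ∂μ ≤ ∫ _, (2 : ℝ) ∂μ := by
        refine integral_mono (integrable_finsetSum _ fun k _ => integrable_phi hF _)
          (integrable_const _) fun ω => ?_
        have := sum_phi_add (F ω - y) K
        simpa only [sub_sub_eq_add_sub, sub_add_eq_add_sub] using this
    _ = 2 := by simp

/-- A unit cell has probability at most `9 dens`. -/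
lemma cell_le (hF : Measurable F) (z : ℝ) : μ.real {ω | |F ω - z| ≤ 1 / 2} ≤ 9 * dens μ F z := by
  have hm : MeasurableSet {ω | |F ω - z| ≤ 1 / 2} :=
    measurableSet_le (by fun_prop) measurable_const
  have h1 : ∫ ω, ({ω | |F ω - z| ≤ 1 / 2}.indicator (fun _ => (1 : ℝ))) ω ∂μ ≤
      ∫ ω, 9 * phi (F ω - z) ∂μ := by
    refine integral_mono ((integrable_const _).indicator hm) ((integrable_phi hF z).const_mul 9)
      fun ω => ?_
    by_cases h : ω ∈ {ω | |F ω - z| ≤ 1 / 2}
    · simp only [indicator_of_mem h]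
      have := phi_ge (t := F ω - z) h
      linarith
    · simp only [indicator_of_notMem h]
      have := phi_pos (F ω - z)
      linarith
  rw [integral_indicator_const _ hm, integral_const_mul] at h1
  simpa [dens] using h1

/-- Pointwise bound of the square by a sum over unit cells. -/
lemma sq_le_tsum (x : ℝ) :
    ENNReal.ofReal (x ^ 2) ≤
      ∑' k : ℕ, ENNReal.ofReal (9 * (((k : ℝ) + 1) ^ 2 * (phi (x - k) + phi (x + k)))) := by
  set k : ℕ := ⌊|x| + 1 / 2⌋₊ with hk
  have h1 : (k : ℝ) ≤ |x| + 1 / 2 := Nat.floor_le (by positivity)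
  have h2 : |x| + 1 / 2 < k + 1 := Nat.lt_floor_add_one _
  refine le_trans ?_ (ENNReal.le_tsum k)
  refine ENNReal.ofReal_le_ofReal ?_
  have h3 : x ^ 2 ≤ ((k : ℝ) + 1) ^ 2 := by
    rw [← sq_abs]
    exact pow_le_pow_left₀ (abs_nonneg _) (by linarith) 2
  have h4 : 1 / 9 ≤ phi (x - k) + phi (x + k) := by
    rcases le_total 0 x with hx | hx
    · rw [abs_of_nonneg hx] at h1 h2
      have h5 : |x - k| ≤ 1 / 2 := by
        rw [abs_le]; constructor <;> linarith
      have := phi_ge h5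
      have := phi_pos (x + k)
      linarith
    · rw [abs_of_nonpos hx] at h1 h2
      have h5 : |x + k| ≤ 1 / 2 := by
        rw [abs_le]; constructor <;> linarith
      have := phi_ge h5
      have := phi_pos (x - k)
      linarith
  have h5 : 0 ≤ ((k : ℝ) + 1) ^ 2 := sq_nonneg _
  nlinarith [mul_le_mul_of_nonneg_left h4 h5]

/-- The second moment about any point. -/
lemma second_moment (hF : Measurable F)
    (hlc : ∀ {s t : ℝ}, 0 < s → 0 < t → s + t = 1 → ∀ a b : ℝ,
      dens μ F a ^ s * dens μ F b ^ t ≤ dens μ F (s * a + t * b)) (y : ℝ) :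
    ∫ ω, (F ω - y) ^ 2 ∂μ ≤ 20736 / dens μ F y ^ 2 := by
  have hy := dens_pos (μ := μ) hF y
  have hy1 := dens_le_one (μ := μ) hF y
  set m := dens μ F y with hm
  set N : ℕ := ⌊4 / m⌋₊ with hN
  have h4m : 4 ≤ 4 / m := by rw [le_div_iff₀ hy]; linarith
  have hN2 : (N : ℝ) ≤ 4 / m := Nat.floor_le (by positivity)
  have hN3 : 4 / m < N + 1 := Nat.lt_floor_add_one _
  have hN1 : 1 ≤ N := by
    have : (1 : ℝ) < N + 1 := by linarith
    have : (0 : ℝ) < N := by linarith
    exact_mod_cast this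
  have hA := fun K : ℕ => sum_sq (P := fun t => dens μ F (y + t)) (fun t => dens_pos hF _)
    (fun {s t} hs ht hst a b => by
      have := hlc hs ht hst (y + a) (y + b)
      rwa [show s * (y + a) + t * (y + b) = (s + t) * y + (s * a + t * b) by ring, hst,
        one_mul] at this)
    (fun K => sum_dens_add hF y K) (N := N) (by simpa using hN3) hN1 (by simpa using hN2) K
  have hB := fun K : ℕ => sum_sq (P := fun t => dens μ F (y - t)) (fun t => dens_pos hF _)
    (fun {s t} hs ht hst a b => by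
      have := hlc hs ht hst (y - a) (y - b)
      rwa [show s * (y - a) + t * (y - b) = (s + t) * y - (s * a + t * b) by ring, hst,
        one_mul] at this)
    (fun K => sum_dens_sub hF y K) (N := N) (by simpa using hN3) hN1 (by simpa using hN2) K
  have hC : ∫⁻ ω, ENNReal.ofReal ((F ω - y) ^ 2) ∂μ ≤ ENNReal.ofReal (1296 * (N : ℝ) ^ 2) := by
    calc ∫⁻ ω, ENNReal.ofReal ((F ω - y) ^ 2) ∂μ
        ≤ ∫⁻ ω, ∑' k : ℕ, ENNReal.ofReal
            (9 * (((k : ℝ) + 1) ^ 2 * (phi (F ω - y - k) + phi (F ω - y + k)))) ∂μ :=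
          lintegral_mono fun ω => sq_le_tsum _
      _ = ∑' k : ℕ, ∫⁻ ω, ENNReal.ofReal
            (9 * (((k : ℝ) + 1) ^ 2 * (phi (F ω - y - k) + phi (F ω - y + k)))) ∂μ := by
          refine lintegral_tsum fun k => ?_
          refine (Measurable.ennreal_ofReal ?_).aemeasurable
          exact ((((measurable_phi.comp ((hF.sub_const y).sub_const _)).add
            (measurable_phi.comp ((hF.sub_const y).add_const _))).const_mul _).const_mul _)
      _ = ∑' k : ℕ, ENNReal.ofReal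
            (9 * (((k : ℝ) + 1) ^ 2 * dens μ F (y + k) + ((k : ℝ) + 1) ^ 2 * dens μ F (y - k))) := by
          congr 1
          funext k
          have hi1 : Integrable (fun ω => phi (F ω - y - k)) μ := by
            simpa only [sub_sub] using integrable_phi (μ := μ) hF (y + k)
          have hi2 : Integrable (fun ω => phi (F ω - y + k)) μ := by
            have := integrable_phi (μ := μ) hF (y - k)
            simpa only [sub_sub_eq_add_sub, sub_add_eq_add_sub] using this
          have hi3 : Integrable (fun ω =>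
              9 * (((k : ℝ) + 1) ^ 2 * (phi (F ω - y - k) + phi (F ω - y + k)))) μ :=
            ((hi1.add hi2).const_mul _).const_mul _
          rw [← ofReal_integral_eq_lintegral_ofReal hi3
            (Filter.Eventually.of_forall fun ω => by
              have := phi_pos (F ω - y - k)
              have := phi_pos (F ω - y + k)
              positivity)]
          congr 1
          rw [integral_const_mul, integral_const_mul, integral_add hi1 hi2]
          have e1 : ∫ ω, phi (F ω - y - k) ∂μ = dens μ F (y + k) := by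
            unfold dens
            simp only [sub_sub]
          have e2 : ∫ ω, phi (F ω - y + k) ∂μ = dens μ F (y - k) := by
            unfold dens
            simp only [sub_sub_eq_add_sub, sub_add_eq_add_sub]
          rw [e1, e2]
          ring
      _ ≤ ENNReal.ofReal (1296 * (N : ℝ) ^ 2) := by
          refine ENNReal.tsum_le_of_sum_range_le fun K => ?_
          rw [← ENNReal.ofReal_sum_of_nonneg (fun k _ => by
              have := dens_pos (μ := μ) hF (y + k)
              have := dens_pos (μ := μ) hF (y - k)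
              positivity)]
          refine ENNReal.ofReal_le_ofReal ?_
          rw [← Finset.mul_sum, Finset.sum_add_distrib]
          have h1 := hA K
          have h2 := hB K
          linarith
  have hD : ∫ ω, (F ω - y) ^ 2 ∂μ ≤ 1296 * (N : ℝ) ^ 2 := by
    rw [integral_eq_lintegral_of_nonneg_ae (Filter.Eventually.of_forall fun ω => sq_nonneg _)
      ((hF.sub_const y).pow_const 2).aestronglyMeasurable]
    exact ENNReal.toReal_le_of_le_ofReal (by positivity) hC
  refine hD.trans ?_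
  have hE : (N : ℝ) ^ 2 ≤ (4 / m) ^ 2 := pow_le_pow_left₀ (Nat.cast_nonneg _) hN2 2
  calc 1296 * (N : ℝ) ^ 2 ≤ 1296 * (4 / m) ^ 2 := by linarith
    _ = 20736 / m ^ 2 := by ring

/-- The density is at most `145 / (1 + sd)`. -/
theorem dens_le (hF : Measurable F)
    (hlc : ∀ {s t : ℝ}, 0 < s → 0 < t → s + t = 1 → ∀ a b : ℝ,
      dens μ F a ^ s * dens μ F b ^ t ≤ dens μ F (s * a + t * b)) (y : ℝ) :
    dens μ F y ≤ 145 / (1 + Real.sqrt Var[F; μ]) := by
  have hy := dens_pos (μ := μ) hF y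
  have hy1 := dens_le_one (μ := μ) hF y
  have hV : Var[F; μ] ≤ (144 / dens μ F y) ^ 2 := by
    have h1 : Var[F; μ] = Var[fun ω => F ω - y; μ] :=
      (variance_sub_const hF.aestronglyMeasurable y).symm
    have h2 := variance_le_expectation_sq (μ := μ) (X := fun ω => F ω - y)
      (hF.sub_const y).aestronglyMeasurable
    have h3 := second_moment hF hlc y
    rw [h1]
    calc Var[fun ω => F ω - y; μ] ≤ ∫ ω, (F ω - y) ^ 2 ∂μ := h2
      _ ≤ 20736 / dens μ F y ^ 2 := h3
      _ = (144 / dens μ F y) ^ 2 := by ring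
  have hs : Real.sqrt Var[F; μ] ≤ 144 / dens μ F y := by
    rw [Real.sqrt_le_left (by positivity)]
    exact hV
  rw [le_div_iff₀ (by positivity)]
  have h3 : dens μ F y * Real.sqrt Var[F; μ] ≤ 144 := by
    calc dens μ F y * Real.sqrt Var[F; μ] ≤ dens μ F y * (144 / dens μ F y) :=
          mul_le_mul_of_nonneg_left hs hy.le
      _ = 144 := by field_simp
  linarith

/-- **Anticoncentration at the scale of the standard deviation.** -/
theorem small_ball (hF : Measurable F)
    (hlc : ∀ {s t : ℝ}, 0 < s → 0 < t → s + t = 1 → ∀ a b : ℝ,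
      dens μ F a ^ s * dens μ F b ^ t ≤ dens μ F (s * a + t * b)) (y : ℝ) {u : ℝ} (hu : 0 ≤ u) :
    μ.real {ω | |F ω - y| ≤ u} ≤ 2610 * (u + 1) / (1 + Real.sqrt Var[F; μ]) := by
  set K : ℕ := ⌈2 * u⌉₊ with hK
  have hK1 : 2 * u ≤ K := Nat.le_ceil _
  have hK2 : (K : ℝ) < 2 * u + 1 := Nat.ceil_lt_add_one (by linarith)
  have hsub : {ω | |F ω - y| ≤ u} ⊆
      ⋃ j ∈ Finset.range (K + 1), {ω | |F ω - (y - u + (j : ℝ))| ≤ 1 / 2} := by
    intro ω hω
    have h1 := abs_le.1 (show |F ω - y| ≤ u from hω)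
    set j : ℕ := ⌊F ω - y + u + 1 / 2⌋₊ with hj
    have h2 : (j : ℝ) ≤ F ω - y + u + 1 / 2 := Nat.floor_le (by linarith)
    have h3 : F ω - y + u + 1 / 2 < j + 1 := Nat.lt_floor_add_one _
    have h4 : j < K + 1 := by
      have : (j : ℝ) < K + 1 := by linarith
      exact_mod_cast this
    simp only [mem_iUnion, Finset.mem_range]
    refine ⟨j, h4, ?_⟩
    rw [mem_ofPred_eq, abs_le]
    constructor <;> linarith
  calc μ.real {ω | |F ω - y| ≤ u}
      ≤ μ.real (⋃ j ∈ Finset.range (K + 1), {ω | |F ω - (y - u + (j : ℝ))| ≤ 1 / 2}) :=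
        measureReal_mono hsub (measure_ne_top _ _)
    _ ≤ ∑ j ∈ Finset.range (K + 1), μ.real {ω | |F ω - (y - u + (j : ℝ))| ≤ 1 / 2} :=
        measureReal_biUnion_finset_le _ _
    _ ≤ ∑ j ∈ Finset.range (K + 1), 9 * (145 / (1 + Real.sqrt Var[F; μ])) := by
        refine Finset.sum_le_sum fun j _ => (cell_le hF _).trans ?_
        have := dens_le hF hlc (y - u + (j : ℝ))
        linarith
    _ = (K + 1) * (9 * (145 / (1 + Real.sqrt Var[F; μ]))) := by
        rw [Finset.sum_const, Finset.card_range, nsmul_eq_mul]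
        push_cast
        ring
    _ ≤ (2 * (u + 1)) * (9 * (145 / (1 + Real.sqrt Var[F; μ]))) :=
        mul_le_mul_of_nonneg_right (by linarith) (by positivity)
    _ = 2610 * (u + 1) / (1 + Real.sqrt Var[F; μ]) := by ring

end dens

end Vale.Agent.P146.H655
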