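import Vale.Agent.P146.H641.Tail
import Vale.Agent.P146.H863.GumLC

/-!
# P146: the lower exponential moment of the free energy at the scale of its standard deviation

`P(F ≤ a)` is log-concave in `a`, at least `8/9` at `a = EF + 3(σ+1)` and at most `1/9` at
`a = EF - 3(σ+1)`, where `σ` is the standard deviation of `F`.  So the lower tail of `F` is
exponential at the scale `σ + 1`, and `E e^{-x(F-EF)} ≤ 7/2` for `0 ≤ x ≤ 1/(18(σ+1))`.
-/

open MeasureTheory ProbabilityTheory Set
open scoped ENNReal NNReal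

namespace Vale.Agent.P146.H655

open Vale.Agent.P146.H605 Vale.Agent.P146.H605.Gauge Vale.Agent.P146.H641

variable (n : ℕ) (β : ℝ)

/-- The distribution function. -/
noncomputable def Fd (a : ℝ) : ℝ := (disorder n).real {g | freeEnergy n β g ≤ a}

lemma Fd_nonneg (a : ℝ) : 0 ≤ Fd n β a := measureReal_nonneg

lemma Fd_le_one (a : ℝ) : Fd n β a ≤ 1 := measureReal_le_one

lemma Fd_mono : Monotone (Fd n β) := by
  intro a b hab
  refine measureReal_mono ?_
  intro g hg
  exact le_trans (show freeEnergy n β g ≤ a from hg) hab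

lemma Fd_mid (a b : ℝ) : Fd n β a * Fd n β b ≤ Fd n β ((a + b) / 2) ^ 2 := by
  have h := cdf_logconcave (F := freeEnergy n β) (continuous_freeEnergy n β)
    (H863.convex_freeEnergy n β) (s := 1 / 2) (t := 1 / 2) (by norm_num) (by norm_num)
    (by norm_num) a b
  have e : 1 / 2 * a + 1 / 2 * b = (a + b) / 2 := by ring
  rw [e] at h
  have h1 : Fd n β a ^ (1 / 2 : ℝ) * Fd n β b ^ (1 / 2 : ℝ) ≤ Fd n β ((a + b) / 2) := h
  have h2 := pow_le_pow_left₀ (mul_nonneg (Real.rpow_nonneg (Fd_nonneg n β a) _)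
    (Real.rpow_nonneg (Fd_nonneg n β b) _)) h1 2
  have h3 : ∀ y : ℝ, 0 ≤ y → (y ^ (1 / 2 : ℝ)) ^ 2 = y := by
    intro y hy
    rw [← Real.rpow_natCast, ← Real.rpow_mul hy]
    norm_num
  rw [mul_pow, h3 _ (Fd_nonneg n β a), h3 _ (Fd_nonneg n β b)] at h2
  exact h2

/-- The ratios of a nonincreasing log-concave sequence are nonincreasing. -/
lemma ratio_bound' {t : ℕ → ℝ} (hp : ∀ k, 0 ≤ t k) (ha : ∀ k, t (k + 1) ≤ t k)
    (hc : ∀ k, t k * t (k + 2) ≤ t (k + 1) ^ 2)
    {r : ℝ} (hr0 : 0 ≤ r) (hr : t 1 ≤ r * t 0) (k : ℕ) : t (k + 1) ≤ r * t k := by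
  induction k with
  | zero => exact hr
  | succ k ih =>
    rcases (hp k).eq_or_lt with h0 | h2
    · have h1 : t (k + 1 + 1) ≤ 0 := by
        have := ha (k + 1)
        have := ha k
        linarith
      exact h1.trans (mul_nonneg hr0 (hp _))
    · have h1 := hc k
      have h3 := hp (k + 1)
      have h4 : t k * t (k + 2) ≤ t k * (r * t (k + 1)) := by
        calc t k * t (k + 2) ≤ t (k + 1) * t (k + 1) := by rw [← sq]; exact h1
          _ ≤ (r * t k) * t (k + 1) := mul_le_mul_of_nonneg_right ih h3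
          _ = t k * (r * t (k + 1)) := by ring
      exact le_of_mul_le_mul_left h4 h2

lemma geom_bound' {t : ℕ → ℝ} (hp : ∀ k, 0 ≤ t k) (ha : ∀ k, t (k + 1) ≤ t k)
    (hc : ∀ k, t k * t (k + 2) ≤ t (k + 1) ^ 2)
    {r : ℝ} (hr0 : 0 ≤ r) (hr : t 1 ≤ r * t 0) (h0 : t 0 ≤ 1) (k : ℕ) : t k ≤ r ^ k := by
  induction k with
  | zero => simpa using h0
  | succ k ih =>
    refine (ratio_bound' hp ha hc hr0 hr k).trans ?_
    rw [pow_succ, mul_comm]
    exact mul_le_mul_of_nonneg_right ih hr0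

lemma Fd_high : 8 / 9 ≤ Fd n β (mean n β + 3 * sd1 n β) := by
  have hm : MeasurableSet {g : Pair n → ℝ | freeEnergy n β g ≤ mean n β + 3 * sd1 n β} :=
    measurableSet_le (continuous_freeEnergy n β).measurable measurable_const
  have h1 := probReal_compl_eq_one_sub (μ := disorder n) hm
  have h2 : (disorder n).real {g : Pair n → ℝ | freeEnergy n β g ≤ mean n β + 3 * sd1 n β}ᶜ ≤
      1 / 9 := by
    refine (measureReal_mono ?_).trans (cheb n β)
    intro g hg
    have h3 : mean n β + 3 * sd1 n β < freeEnergy n β g := not_le.1 hg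
    have h4 : 3 * sd1 n β ≤ |freeEnergy n β g - mean n β| := by
      rw [abs_of_pos (by linarith [sd1_pos n β])]
      linarith
    exact h4
  unfold Fd
  linarith

lemma Fd_low : Fd n β (mean n β - 3 * sd1 n β) ≤ 1 / 9 := by
  refine (measureReal_mono ?_).trans (cheb n β)
  intro g hg
  have h3 : freeEnergy n β g ≤ mean n β - 3 * sd1 n β := hg
  have h4 : 3 * sd1 n β ≤ |freeEnergy n β g - mean n β| := by
    rw [abs_of_neg (by linarith [sd1_pos n β])]
    linarith
  exact h4

/-- The lower tail of the free energy: `P(F ≤ EF + (3-6k)(σ+1)) ≤ (1/8)^k`. -/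
theorem tail_lower (k : ℕ) :
    (disorder n).real {g | freeEnergy n β g ≤ mean n β + 3 * sd1 n β - k * (6 * sd1 n β)} ≤
      (1 / 8) ^ k := by
  have hs := sd1_pos n β
  refine geom_bound' (t := fun k : ℕ => Fd n β (mean n β + 3 * sd1 n β - k * (6 * sd1 n β)))
    (fun k => Fd_nonneg n β _) (fun k => Fd_mono n β ?_) (fun k => ?_) (by norm_num) ?_
    (Fd_le_one n β _) k
  · push_cast
    nlinarith
  · have h := Fd_mid n β (mean n β + 3 * sd1 n β - k * (6 * sd1 n β))
      (mean n β + 3 * sd1 n β - ((k + 2 : ℕ) : ℝ) * (6 * sd1 n β))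
    have e : (mean n β + 3 * sd1 n β - k * (6 * sd1 n β) +
        (mean n β + 3 * sd1 n β - ((k + 2 : ℕ) : ℝ) * (6 * sd1 n β))) / 2 =
        mean n β + 3 * sd1 n β - ((k + 1 : ℕ) : ℝ) * (6 * sd1 n β) := by
      push_cast
      ring
    rw [e] at h
    exact h
  · have h1 := Fd_high n β
    have h2 := Fd_low n β
    have e : mean n β + 3 * sd1 n β - ((1 : ℕ) : ℝ) * (6 * sd1 n β) =
        mean n β - 3 * sd1 n β := by
      push_cast
      ring
    have e0 : mean n β + 3 * sd1 n β - ((0 : ℕ) : ℝ) * (6 * sd1 n β) =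
        mean n β + 3 * sd1 n β := by
      push_cast
      ring
    simp only [e, e0]
    linarith

/-- The lower exponential moment, as a lower integral. -/
theorem lexp_moment_neg {x : ℝ} (hx : 0 ≤ x) (hx1 : x * (18 * sd1 n β) ≤ 1) :
    ∫⁻ g, ENNReal.ofReal (Real.exp (-(x * (freeEnergy n β g - mean n β)))) ∂(disorder n) ≤
      ENNReal.ofReal (7 / 2) := by
  have hs := sd1_pos n β
  set a0 := mean n β + 3 * sd1 n β with ha0
  set L := 6 * sd1 n β with hL
  have hL0 : 0 < L := by positivity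
  have hxL : x * L ≤ 1 / 2 := by
    have : x * L = x * (18 * sd1 n β) / 3 := by rw [hL]; ring
    linarith
  have hmF := (continuous_freeEnergy n β).measurable
  have hset : ∀ k : ℕ, MeasurableSet {g : Pair n → ℝ | freeEnergy n β g ≤ a0 - k * L} :=
    fun k => measurableSet_le hmF measurable_const
  have hpt : ∀ g : Pair n → ℝ,
      ENNReal.ofReal (Real.exp (-(x * (freeEnergy n β g - mean n β)))) ≤
      1 + ∑' k : ℕ, {g : Pair n → ℝ | freeEnergy n β g ≤ a0 - k * L}.indicator
        (fun _ => ENNReal.ofReal (Real.exp (((k : ℝ) + 1) * (1 / 2)))) g := by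
    intro g
    rcases lt_or_ge a0 (freeEnergy n β g) with h | h
    · refine le_trans ?_ (le_self_add)
      rw [← ENNReal.ofReal_one]
      refine ENNReal.ofReal_le_ofReal (Real.exp_le_one_iff.2 ?_)
      have : 0 ≤ x * (freeEnergy n β g - mean n β) := mul_nonneg hx (by linarith)
      linarith
    · refine le_trans ?_ (le_add_self)
      refine le_trans ?_ (ENNReal.le_tsum ⌊(a0 - freeEnergy n β g) / L⌋₊)
      have h1 : freeEnergy n β g ≤ a0 - (⌊(a0 - freeEnergy n β g) / L⌋₊ : ℝ) * L := by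
        have h2 := Nat.floor_le (div_nonneg (sub_nonneg.2 h) hL0.le)
        rw [le_div_iff₀ hL0] at h2
        linarith
      have hmem : g ∈ {g' : Pair n → ℝ |
          freeEnergy n β g' ≤ a0 - (⌊(a0 - freeEnergy n β g) / L⌋₊ : ℝ) * L} := h1
      rw [indicator_of_mem hmem]
      refine ENNReal.ofReal_le_ofReal (Real.exp_le_exp.2 ?_)
      have h3 := Nat.lt_floor_add_one ((a0 - freeEnergy n β g) / L)
      rw [div_lt_iff₀ hL0] at h3
      set N : ℝ := (⌊(a0 - freeEnergy n β g) / L⌋₊ : ℝ) with hN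
      have hN0 : 0 ≤ N := Nat.cast_nonneg _
      calc -(x * (freeEnergy n β g - mean n β)) = x * (mean n β - freeEnergy n β g) := by ring
        _ ≤ x * ((N + 1) * L) := mul_le_mul_of_nonneg_left (by linarith) hx
        _ = (N + 1) * (x * L) := by ring
        _ ≤ (N + 1) * (1 / 2) := mul_le_mul_of_nonneg_left hxL (by linarith)
  refine (lintegral_mono hpt).trans ?_
  rw [lintegral_add_left measurable_const, lintegral_const, measure_univ, mul_one,
    lintegral_tsum fun k => (measurable_const.indicator (hset k)).aemeasurable]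
  have hterm : ∀ k : ℕ, ∫⁻ g, {g : Pair n → ℝ | freeEnergy n β g ≤ a0 - k * L}.indicator
        (fun _ => ENNReal.ofReal (Real.exp (((k : ℝ) + 1) * (1 / 2)))) g ∂(disorder n) ≤
      ENNReal.ofReal (5 / 3) * ENNReal.ofReal (5 / 24) ^ k := by
    intro k
    rw [lintegral_indicator_const (hset k)]
    have h1 : (disorder n) {g : Pair n → ℝ | freeEnergy n β g ≤ a0 - k * L} ≤
        ENNReal.ofReal ((1 / 8) ^ k) := by
      rw [← ofReal_measureReal]
      exact ENNReal.ofReal_le_ofReal (tail_lower n β k)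
    refine (mul_le_mul_right h1 _).trans ?_
    rw [← ENNReal.ofReal_mul (Real.exp_pos _).le, ← ENNReal.ofReal_pow (by norm_num),
      ← ENNReal.ofReal_mul (by norm_num)]
    refine ENNReal.ofReal_le_ofReal ?_
    have h2 : Real.exp (((k : ℝ) + 1) * (1 / 2)) = Real.exp (1 / 2) ^ (k + 1) := by
      rw [← Real.exp_nat_mul]
      push_cast
      ring_nf
    rw [h2]
    calc Real.exp (1 / 2) ^ (k + 1) * (1 / 8) ^ k ≤ (5 / 3) ^ (k + 1) * (1 / 8) ^ k := by
          have := pow_le_pow_left₀ (Real.exp_pos (1 / 2)).le exp_half_le (k + 1)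
          exact mul_le_mul_of_nonneg_right this (by positivity)
      _ = 5 / 3 * ((5 / 3) * (1 / 8)) ^ k := by
          rw [mul_pow, pow_succ]
          ring
      _ = 5 / 3 * (5 / 24) ^ k := by norm_num
  refine (add_le_add_right (ENNReal.tsum_le_tsum hterm) 1).trans ?_
  rw [ENNReal.tsum_mul_left, ENNReal.tsum_geometric]
  have h1 : (1 : ℝ≥0∞) - ENNReal.ofReal (5 / 24) = ENNReal.ofReal (19 / 24) := by
    rw [← ENNReal.ofReal_one, ← ENNReal.ofReal_sub _ (by norm_num)]
    norm_num
  rw [h1, ← ENNReal.ofReal_inv_of_pos (by norm_num), ← ENNReal.ofReal_mul (by norm_num),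
    ← ENNReal.ofReal_one, ← ENNReal.ofReal_add (by norm_num) (by norm_num)]
  exact ENNReal.ofReal_le_ofReal (by norm_num)

/-- `E e^{-x(F-EF)} ≤ 7/2` for `0 ≤ x ≤ 1/(18(σ+1))`, in the letters of `H641.Tail`. -/
theorem exp_moment_neg' {x : ℝ} (hx : 0 ≤ x) (hx1 : x * (18 * sd1 n β) ≤ 1) :
    Integrable (fun g => Real.exp (-(x * (freeEnergy n β g - mean n β)))) (disorder n) ∧
    ∫ g, Real.exp (-(x * (freeEnergy n β g - mean n β))) ∂(disorder n) ≤ 7 / 2 := by
  have hc : Continuous fun g => Real.exp (-(x * (freeEnergy n β g - mean n β))) :=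
    Real.continuous_exp.comp (continuous_const.mul ((continuous_freeEnergy n β).sub
      continuous_const)).neg
  have h := lexp_moment_neg n β hx hx1
  have hi : Integrable (fun g => Real.exp (-(x * (freeEnergy n β g - mean n β))))
      (disorder n) := by
    refine ⟨hc.aestronglyMeasurable, ?_⟩
    rw [hasFiniteIntegral_iff_ofReal (Filter.Eventually.of_forall fun g => (Real.exp_pos _).le)]
    exact h.trans_lt ENNReal.ofReal_lt_top
  refine ⟨hi, ?_⟩
  rw [← ofReal_integral_eq_lintegral_ofReal hi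
    (Filter.Eventually.of_forall fun g => (Real.exp_pos _).le)] at h
  exact (ENNReal.ofReal_le_ofReal_iff (by norm_num)).1 h

/-- `E e^{-x(F-EF)} ≤ 7/2` for `0 ≤ x ≤ 1/(18(1+√Var F))`. -/
theorem exp_moment_neg {x : ℝ} (hx : 0 ≤ x)
    (hx1 : x * (18 * (1 + Real.sqrt Var[freeEnergy n β; disorder n])) ≤ 1) :
    Integrable (fun g => Real.exp (-(x * (freeEnergy n β g -
      ∫ g, freeEnergy n β g ∂(disorder n))))) (disorder n) ∧
    ∫ g, Real.exp (-(x * (freeEnergy n β g - ∫ g, freeEnergy n β g ∂(disorder n))))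
      ∂(disorder n) ≤ 7 / 2 :=
  exp_moment_neg' n β hx hx1

end Vale.Agent.P146.H655
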