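import Vale.Agent.P146.H655.GridE
import Vale.Agent.P146.H713.En6

/-!
Pairs of times on one grid: most later times have a good earlier time.
-/

open MeasureTheory ProbabilityTheory

namespace Vale.Agent.P146.H655

open Vale.Agent.P157.Lv Vale.Agent.P146.H425 Vale.Agent.P146.H325 Vale.Agent.P146.H332
  Vale.Agent.P146.H712 Vale.Agent.P146.H816 Vale.Agent.P146.R1 Vale.Agent.P146.R1C Matrix
  Vale.Agent.P146.R1S Vale.Agent.P146.H693 Vale.Agent.P146.H946.En2
open Vale.Agent.P146.H713.En2 (IncT RtT NmT FF FF_mono IncT_nonneg RtT_nonneg)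

set_option linter.unusedSectionVars false

/-- **Most later times have a good earlier time.** -/
lemma pair_count {M p : ℕ} {G : Finset ℕ} {B : ℕ → Finset ℕ} {β γ : ℝ} (hp : 0 < p)
    (hG : G ⊆ Finset.range M) (hGc : (M : ℝ) * (1 - β) ≤ G.card)
    (hB : ∀ i < M, ((B i).card : ℝ) ≤ p * γ) :
    ∃ G' ⊆ Finset.range M, (M : ℝ) * (1 - β - γ) - 2 * p ≤ G'.card ∧
      ∀ j ∈ G', ∃ i ∈ G, ∃ r < p, r ∉ B i ∧ j = i + p + r := by
  classical
  obtain ⟨G', hG'⟩ : ∃ G', G' = (Finset.range M).filter fun j =>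
    ∃ i ∈ G, ∃ r < p, r ∉ B i ∧ j = i + p + r := ⟨_, rfl⟩
  obtain ⟨U, hU⟩ : ∃ U, U = (Finset.range M).filter fun j => 2 * p ≤ j ∧ j ∉ G' := ⟨_, rfl⟩
  obtain ⟨Bd, hBd⟩ : ∃ Bd, Bd = ((Finset.range M \ G) ×ˢ Finset.range p) ∪
    (Finset.range M).biUnion fun i => (B i).image fun r => (i, r) := ⟨_, rfl⟩
  have h1 : (U ×ˢ Finset.range p).card ≤ Bd.card := by
    refine Finset.card_le_card_of_injOn (fun a => (a.1 - p - a.2, a.2)) ?_ ?_
    · rintro ⟨j, r⟩ hjr
      rw [Finset.mem_coe, Finset.mem_product] at hjr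
      obtain ⟨hj, hr⟩ := hjr
      rw [hU, Finset.mem_filter, Finset.mem_range] at hj
      rw [Finset.mem_range] at hr
      obtain ⟨hj1, hj2, hj3⟩ := hj
      simp only at hr hj1 hj2 hj3
      have hi : j - p - r < M := by omega
      have h3 : ¬ (j - p - r ∈ G ∧ r ∉ B (j - p - r)) := by
        rintro ⟨a, b⟩
        refine hj3 ?_
        rw [hG']
        exact Finset.mem_filter.2 ⟨Finset.mem_range.2 hj1, j - p - r, a, r, hr, b, by omega⟩
      rw [hBd, Finset.mem_coe, Finset.mem_union]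
      by_cases h4 : j - p - r ∈ G
      · right
        rw [Finset.mem_biUnion]
        refine ⟨j - p - r, Finset.mem_range.2 hi, ?_⟩
        rw [Finset.mem_image]
        exact ⟨r, by_contra fun h5 => h3 ⟨h4, h5⟩, rfl⟩
      · left
        rw [Finset.mem_product, Finset.mem_sdiff]
        exact ⟨⟨Finset.mem_range.2 hi, h4⟩, Finset.mem_range.2 hr⟩
    · rintro ⟨j, r⟩ hjr ⟨j', r'⟩ hjr' h
      rw [Finset.mem_coe, Finset.mem_product] at hjr hjr'
      obtain ⟨hj, hr⟩ := hjr
      obtain ⟨hj', hr'⟩ := hjr'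
      rw [hU, Finset.mem_filter, Finset.mem_range] at hj hj'
      rw [Finset.mem_range] at hr hr'
      obtain ⟨hj1, hj2, hj3⟩ := hj
      obtain ⟨hj1', hj2', hj3'⟩ := hj'
      simp only at hr hr' hj1 hj2 hj1' hj2'
      simp only [Prod.mk.injEq] at h ⊢
      omega
  have h2 : Bd.card ≤ (M - G.card) * p + ∑ i ∈ Finset.range M, (B i).card := by
    rw [hBd]
    refine (Finset.card_union_le _ _).trans (add_le_add ?_ ?_)
    · rw [Finset.card_product, Finset.card_range, Finset.card_sdiff_of_subset hG,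
        Finset.card_range]
    · exact Finset.card_biUnion_le.trans (Finset.sum_le_sum fun i _ => Finset.card_image_le)
  have hGM : G.card ≤ M := by
    have := Finset.card_le_card hG
    rwa [Finset.card_range] at this
  have hp' : (0 : ℝ) < p := by exact_mod_cast hp
  have h3 : (U.card : ℝ) * p ≤ M * (β + γ) * p := by
    have a1 : ((U ×ˢ Finset.range p).card : ℝ) ≤
        (((M - G.card) * p + ∑ i ∈ Finset.range M, (B i).card : ℕ) : ℝ) := by
      exact_mod_cast h1.trans h2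
    rw [Finset.card_product, Finset.card_range] at a1
    push_cast [hGM] at a1
    have a2 : ∑ i ∈ Finset.range M, ((B i).card : ℝ) ≤ M * (p * γ) := by
      refine (Finset.sum_le_sum fun i hi => hB i (Finset.mem_range.1 hi)).trans ?_
      rw [Finset.sum_const, Finset.card_range, nsmul_eq_mul]
    have a3 : ((M : ℝ) - G.card) * p ≤ M * β * p :=
      mul_le_mul_of_nonneg_right (by linarith) hp'.le
    calc (U.card : ℝ) * p ≤ _ := a1
      _ ≤ M * β * p + M * (p * γ) := add_le_add a3 a2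
      _ = _ := by ring
  have h4 : (U.card : ℝ) ≤ M * (β + γ) := le_of_mul_le_mul_right h3 hp'
  have h5 : M ≤ G'.card + U.card + 2 * p := by
    have a1 : Finset.range M ⊆ (G' ∪ U) ∪ Finset.range (2 * p) := by
      intro j hj
      by_cases b1 : j ∈ G'
      · exact Finset.mem_union_left _ (Finset.mem_union_left _ b1)
      · by_cases b2 : 2 * p ≤ j
        · refine Finset.mem_union_left _ (Finset.mem_union_right _ ?_)
          rw [hU]
          exact Finset.mem_filter.2 ⟨hj, b2, b1⟩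
        · exact Finset.mem_union_right _ (Finset.mem_range.2 (by omega))
    have a2 := Finset.card_le_card a1
    rw [Finset.card_range] at a2
    have a3 := Finset.card_union_le (G' ∪ U) (Finset.range (2 * p))
    have a4 := Finset.card_union_le G' U
    rw [Finset.card_range] at a3
    omega
  refine ⟨G', by rw [hG']; exact Finset.filter_subset _ _, ?_, fun j hj => ?_⟩
  · have : (M : ℝ) ≤ G'.card + U.card + 2 * p := by exact_mod_cast h5
    linarith
  · rw [hG'] at hj
    exact (Finset.mem_filter.1 hj).2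

variable {n : ℕ} {k x : ℝ} {S : CS n k x} {w t t' : ℝ} {m σ : ℕ → ℝ} {N : ℕ}

/-- **The increment with the weight `W`** is small between the two times. -/
lemma incT_of {c h Δ ε q Nb δ η t' : ℝ} {p p' : ℕ} (hm : Pm m N) (hNb : 0 < Nb) (hε : 0 ≤ ε)
    (hε1 : ε ≤ 1) (h1 : w ≤ t) (h2 : 0 ≤ δ) (hp' : p' ≤ p) (ht' : t' = t + p' * δ) (h3 : t' ≤ 1)
    (hpB : pB S w m σ N c Nb t ≤ η) (hpB' : pB S w m σ N c Nb t' ≤ η) (hη0 : 0 ≤ η)
    (hη : 66 * (n : ℝ) ^ 6 * η ≤ ε * (Nb * n)) (hr : RatesP S w m σ N c h Δ ε q Nb δ p t) :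
    IncT S w m σ N c t t' ≤ 12 * ε * (Nb * NQ S w m σ N c t) := by
  have htt : t ≤ t' := by
    rw [ht']
    have : 0 ≤ (p' : ℝ) * δ := by positivity
    linarith
  have a1 := H713.En2.IncT_le (S := S) (σ := σ) (w := w) hm c hNb.le h1 htt h3
  have a2 := hr.pgT p' hp'
  rw [← ht'] at a2
  have a3 := fT_le (S := S) (w := w) (t := t) (σ := σ) hm c hNb.le hpB
  have a4 : Nb * n ≤ Nb * NQ S w m σ N c t := mul_le_mul_of_nonneg_left (NQ_ge hm c) hNb.le
  have a5 : ε * (Nb * n) ≤ ε * (Nb * NQ S w m σ N c t) := mul_le_mul_of_nonneg_left a4 hε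
  have a6 := mul_le_mul_of_nonneg_left a3 hε
  have a7 : ε * (4 * (n : ℝ) ^ 6 * η) ≤ 1 * (4 * (n : ℝ) ^ 6 * η) :=
    mul_le_mul_of_nonneg_right hε1 (by positivity)
  have a8 : 32 * (n : ℝ) ^ 6 * (pB S w m σ N c Nb t' + pB S w m σ N c Nb t) ≤
      32 * (n : ℝ) ^ 6 * (η + η) := mul_le_mul_of_nonneg_left (by linarith) (by positivity)
  have e1 : fT S w m σ N c Nb t' = 4 * QNQ S w m σ N c t' + 16 * Nb * NQ S w m σ N c t' := rfl
  have e2 : fT S w m σ N c Nb t = 4 * QNQ S w m σ N c t + 16 * Nb * NQ S w m σ N c t := rfl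
  have a9 : 0 ≤ (n : ℝ) ^ 6 * η := by positivity
  linarith

end Vale.Agent.P146.H655
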