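import Vale.Agent.P146.H693.R3

/-!
Pigeonhole in time, part 1: iterated tilted means, conditional variances, and the gradient of a
tilted mean over a short layer.
-/

open MeasureTheory ProbabilityTheory

namespace Vale.Agent.P146.H655

open Vale.Agent.P157.Lv Vale.Agent.P146.H425 Vale.Agent.P146.H325 Vale.Agent.P146.H332
  Vale.Agent.P146.H712 Vale.Agent.P146.H816 Vale.Agent.P146.R1 Vale.Agent.P146.R1C Matrix
  Vale.Agent.P146.R1S
open Vale.Agent.P146.H785 (Ax)

set_option linter.unusedSectionVars false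

section gen

variable {κ : Type} [Fintype κ] {U : (κ → ℝ) → ℝ} {D : κ → (κ → ℝ) → ℝ} {B L x a b c s : ℝ}
  {φ ψ : (κ → ℝ) → ℝ}

/-- **Two layers with the same exponent are one layer.** -/
theorem Ax_rot (h : C11 U D B L) (hx : 0 < x) (hφ : EG φ) (habc : a ^ 2 + b ^ 2 = c ^ 2)
    (z : κ → ℝ) : Ax x a (W x b U) (Ax x b U φ) z = Ax x c U φ z := by
  have hE : EG fun u => Real.exp (x * U u) := h.eg_exp x
  have e1 : ∀ v, Real.exp (x * W x b U v) = ∫ g, Real.exp (x * U (v + b • g)) ∂(gI κ) :=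
    fun v => h.lip.exp_W h.B0 hx v
  have e2 : ∀ v, Real.exp (x * W x b U v) * Ax x b U φ v =
      ∫ g, Real.exp (x * U (v + b • g)) * φ (v + b • g) ∂(gI κ) := by
    intro v
    rw [e1 v]
    unfold Ax
    exact mul_div_cancel₀ _ (h.lip.pos h.B0 v b x).ne'
  show (∫ y, Real.exp (x * W x b U (z + a • y)) * Ax x b U φ (z + a • y) ∂(gI κ)) /
    (∫ y, Real.exp (x * W x b U (z + a • y)) ∂(gI κ)) = Ax x c U φ z
  simp_rw [e2, e1]
  rw [gI_rot (hE.mul hφ) habc z, gI_rot hE habc z]
  rfl

/-- the conditional covariance -/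
lemma Ax_cov (h : C11 U D B L) (hφ : EG φ) (hψ : EG ψ) (x s : ℝ) (z : κ → ℝ) :
    Ax x s U (fun v => (φ v - Ax x s U φ z) * (ψ v - Ax x s U ψ z)) z =
      Ax x s U (fun v => φ v * ψ v) z - Ax x s U φ z * Ax x s U ψ z := by
  set p := Ax x s U φ z with hp
  set r := Ax x s U ψ z with hr
  have e : (fun v => (φ v - p) * (ψ v - r)) = fun v => φ v * ψ v + ((-r) * φ v +
      ((-p) * ψ v + p * r)) := by
    funext v; ring
  rw [e, H785.Ax_add h.lip h.B0 (hφ.mul hψ) ((hφ.const_mul _).add ((hψ.const_mul _).add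
    (EG.const _))), H785.Ax_add h.lip h.B0 (hφ.const_mul _) ((hψ.const_mul _).add (EG.const _)),
    H785.Ax_add h.lip h.B0 (hψ.const_mul _) (EG.const _), H785.Ax_const_mul, H785.Ax_const_mul,
    H785.Ax_const h.lip h.B0, ← hp, ← hr]
  ring

end gen

section grad

variable {κ : Type} [Fintype κ] [DecidableEq κ] {U : (κ → ℝ) → ℝ} {D : κ → (κ → ℝ) → ℝ}
  {B L x s : ℝ} {φ : (κ → ℝ) → ℝ} {φ' : κ → (κ → ℝ) → ℝ}

/-- the derivative of a tilted mean -/
noncomputable def GA (x s : ℝ) (U : (κ → ℝ) → ℝ) (D : κ → (κ → ℝ) → ℝ) (φ : (κ → ℝ) → ℝ)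
    (φ' : κ → (κ → ℝ) → ℝ) (z : κ → ℝ) (e : κ) : ℝ :=
  Ax x s U (φ' e) z + x * (Ax x s U (fun u => φ u * D e u) z - Ax x s U φ z * Ax x s U (D e) z)

lemma fd_sc {G : (κ → ℝ) → ℝ} {G' : κ → (κ → ℝ) → ℝ}
    (hd : ∀ y, HasFDerivAt G (H785.lf fun e => G' e y) y) (z : κ → ℝ) (s : ℝ) (g : κ → ℝ) :
    HasFDerivAt (fun g => G (z + s • g)) (H785.lf fun e => s * G' e (z + s • g)) g := by
  have h1 : HasFDerivAt (fun g : κ → ℝ => z + s • g) (s • ContinuousLinearMap.id ℝ (κ → ℝ)) g :=
    ((hasFDerivAt_id g).const_smul s).const_add z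
  refine ((hd (z + s • g)).comp g h1).congr_fderiv ?_
  ext w
  simp only [ContinuousLinearMap.comp_apply, _root_.smul_apply, ContinuousLinearMap.id_apply,
    H785.lf_apply, Pi.smul_apply, smul_eq_mul]
  exact Finset.sum_congr rfl fun i _ => by ring

/-- integration by parts in one coordinate under the tilted law -/
lemma ibp_tilt (h : C11 U D B L) (x : ℝ) (hφ : EG φ) (hφ' : ∀ e, EG (φ' e))
    (hd : ∀ y, HasFDerivAt φ (H785.lf fun e => φ' e y) y) (s : ℝ) (z : κ → ℝ) (e : κ) :
    ∫ g, g e * (Real.exp (x * U (z + s • g)) * φ (z + s • g)) ∂(gI κ) =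
      s * ∫ g, Real.exp (x * U (z + s • g)) * (φ' e (z + s • g) +
        x * (φ (z + s • g) * D e (z + s • g))) ∂(gI κ) := by
  have he : EG fun u => Real.exp (x * U u) := h.eg_exp x
  have hD : ∀ f, EG (D f) := h.eg_D
  have hexp : ∀ y, HasFDerivAt (fun u => Real.exp (x * U u) * φ u)
      (H785.lf fun e => Real.exp (x * U y) * (φ' e y + x * (φ y * D e y))) y := by
    intro y
    have h1 := (((H785.C11.hasFDerivAt h y).const_mul x).exp).mul (hd y)
    refine h1.congr_fderiv ?_
    ext w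
    simp only [_root_.add_apply, _root_.smul_apply, H785.lf_apply, smul_eq_mul, Finset.mul_sum,
      ← Finset.sum_add_distrib]
    exact Finset.sum_congr rfl fun i _ => by ring
  have e1 : EG fun u => Real.exp (x * U u) * (φ' e u + x * (φ u * D e u)) :=
    he.mul ((hφ' e).add ((hφ.mul (hD e)).const_mul x))
  have h2 := PD.stein (e := e) (H785.pd_of_fd (fun g => fd_sc hexp z s g) e)
    (EG.add_smul (he.mul hφ) z s) ((EG.add_smul e1 z s).const_mul s)
  rw [← integral_const_mul]
  exact h2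

lemma C11.tpos (h : C11 U D B L) (x s : ℝ) (z : κ → ℝ) :
    0 < ∫ g, Real.exp (x * U (z + s • g)) ∂(gI κ) := h.lip.pos h.B0 z s x

/-- the derivative of a tilted mean as a covariance with the noise -/
lemma cov_noise (h : C11 U D B L) (x : ℝ) (hφ : EG φ) (hφ' : ∀ e, EG (φ' e))
    (hd : ∀ y, HasFDerivAt φ (H785.lf fun e => φ' e y) y) (s : ℝ) (z : κ → ℝ) (e : κ) :
    ∫ g, g e * (Real.exp (x * U (z + s • g)) * (φ (z + s • g) - Ax x s U φ z)) ∂(gI κ) =
      s * (GA x s U D φ φ' z e * ∫ g, Real.exp (x * U (z + s • g)) ∂(gI κ)) := by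
  set p := Ax x s U φ z with hp
  set Z := ∫ g, Real.exp (x * U (z + s • g)) ∂(gI κ) with hZ
  have hZ0 : 0 < Z := C11.tpos h x s z
  have he : EG fun u => Real.exp (x * U u) := h.eg_exp x
  have hd2 : ∀ y, HasFDerivAt (fun v => φ v - p) (H785.lf fun e => φ' e y) y := fun y =>
    (hd y).sub_const p
  rw [ibp_tilt h x (hφ.sub (EG.const p)) hφ' hd2 s z e]
  congr 1
  have a1 : ∫ g, Real.exp (x * U (z + s • g)) * (φ' e (z + s • g) +
      x * ((φ (z + s • g) - p) * D e (z + s • g))) ∂(gI κ) =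
      ∫ g, (Real.exp (x * U (z + s • g)) * φ' e (z + s • g) +
        (x * (Real.exp (x * U (z + s • g)) * (φ (z + s • g) * D e (z + s • g))) +
        (-(x * p)) * (Real.exp (x * U (z + s • g)) * D e (z + s • g)))) ∂(gI κ) := by
    refine integral_congr_ae (Filter.Eventually.of_forall fun g => ?_)
    simp only
    ring
  have i1 := (EG.add_smul (he.mul (hφ' e)) z s).integrable
  have i2 := (EG.add_smul (he.mul (hφ.mul (h.eg_D e))) z s).integrable
  have i3 := (EG.add_smul (he.mul (h.eg_D e)) z s).integrable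
  have i4 : Integrable (fun g => x * (Real.exp (x * U (z + s • g)) *
      (φ (z + s • g) * D e (z + s • g))) +
      (-(x * p)) * (Real.exp (x * U (z + s • g)) * D e (z + s • g))) (gI κ) :=
    (i2.const_mul x).add (i3.const_mul _)
  rw [a1, integral_add i1 i4, integral_add (i2.const_mul x) (i3.const_mul _),
    integral_const_mul, integral_const_mul]
  unfold GA
  rw [← hp]
  unfold Ax
  rw [← hZ]
  field_simp
  ring

/-- the second moment of the noise in a direction, under the tilted law of a short layer -/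
lemma noise_le (h : C11 U D B L) (x s : ℝ)
    (hk : x ^ 2 * s ^ 2 * (Fintype.card κ * B ^ 2) ≤ 1 / 2) (z a : κ → ℝ) :
    ∫ g, Real.exp (x * U (z + s • g)) * (∑ e, a e * g e) ^ 2 ∂(gI κ) ≤
      2 * ((∑ e, a e ^ 2) * ∫ g, Real.exp (x * U (z + s • g)) ∂(gI κ)) := by
  set Z := ∫ g, Real.exp (x * U (z + s • g)) ∂(gI κ) with hZ
  set A := ∑ e, a e ^ 2 with hA
  have hA0 : 0 ≤ A := Finset.sum_nonneg fun e _ => sq_nonneg _
  have hZ0 : 0 < Z := C11.tpos h x s z
  have he : EG fun u => Real.exp (x * U u) := h.eg_exp x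
  have heg : EG fun g : κ → ℝ => Real.exp (x * U (z + s • g)) := EG.add_smul he z s
  have hl : EG fun g : κ → ℝ => ∑ e, a e * g e := EG.sum _ fun e _ => (EG.coord e).const_mul _
  have hDe : ∀ e, EG fun g : κ → ℝ => D e (z + s • g) := fun e => EG.add_smul (h.eg_D e) z s
  -- the derivative of the density times the linear form
  have fdl : ∀ g : κ → ℝ, HasFDerivAt (fun g : κ → ℝ => ∑ e, a e * g e)
      (H785.lf a) g := by
    intro g
    have h1 : HasFDerivAt (fun g : κ → ℝ => H785.lf a g) (H785.lf a) g :=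
      (H785.lf a).hasFDerivAt
    have h2 : (fun g : κ → ℝ => ∑ e, a e * g e) = fun g => H785.lf a g := by
      funext g
      rw [H785.lf_apply]
    rw [h2]
    exact h1
  have hexp : ∀ y, HasFDerivAt (fun u => Real.exp (x * U u))
      (H785.lf fun e => Real.exp (x * U y) * (x * D e y)) y := by
    intro y
    have h1 := ((H785.C11.hasFDerivAt h y).const_mul x).exp
    refine h1.congr_fderiv ?_
    ext w
    simp only [_root_.smul_apply, H785.lf_apply, smul_eq_mul, Finset.mul_sum]
    exact Finset.sum_congr rfl fun i _ => by ring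
  have fdr : ∀ g : κ → ℝ, HasFDerivAt
      (fun g : κ → ℝ => Real.exp (x * U (z + s • g)) * ∑ e, a e * g e)
      (H785.lf fun e => Real.exp (x * U (z + s • g)) * a e + x * s *
        (Real.exp (x * U (z + s • g)) * ((∑ f, a f * g f) * D e (z + s • g)))) g := by
    intro g
    have h1 := (fd_sc hexp z s g).mul (fdl g)
    refine h1.congr_fderiv ?_
    generalize (∑ e, a e * g e) = l
    ext w
    simp only [_root_.add_apply, _root_.smul_apply, H785.lf_apply, smul_eq_mul, Finset.mul_sum,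
      ← Finset.sum_add_distrib]
    exact Finset.sum_congr rfl fun i _ => by ring
  have e1 : ∀ e, EG fun g : κ → ℝ => Real.exp (x * U (z + s • g)) * a e + x * s *
      (Real.exp (x * U (z + s • g)) * ((∑ f, a f * g f) * D e (z + s • g))) := fun e =>
    (heg.mul (EG.const _)).add ((heg.mul (hl.mul (hDe e))).const_mul _)
  have st : ∀ e, ∫ g, g e * (Real.exp (x * U (z + s • g)) * ∑ f, a f * g f) ∂(gI κ) =
      ∫ g, (Real.exp (x * U (z + s • g)) * a e + x * s *
        (Real.exp (x * U (z + s • g)) * ((∑ f, a f * g f) * D e (z + s • g)))) ∂(gI κ) :=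
    fun e => PD.stein (H785.pd_of_fd fdr e) (heg.mul hl) (e1 e)
  -- sum over the directions
  have key : ∫ g, Real.exp (x * U (z + s • g)) * (∑ e, a e * g e) ^ 2 ∂(gI κ) =
      ∫ g, (A * Real.exp (x * U (z + s • g)) + Real.exp (x * U (z + s • g)) *
        (x * s * ((∑ e, a e * g e) * ∑ e, a e * D e (z + s • g)))) ∂(gI κ) := by
    have k1 : ∫ g, Real.exp (x * U (z + s • g)) * (∑ e, a e * g e) ^ 2 ∂(gI κ) =
        ∫ g, ∑ e, a e * (g e * (Real.exp (x * U (z + s • g)) * ∑ f, a f * g f)) ∂(gI κ) := by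
      refine integral_congr_ae (Filter.Eventually.of_forall fun g => ?_)
      simp only
      rw [pow_two]
      conv_rhs => rw [show (fun e => a e * (g e * (Real.exp (x * U (z + s • g)) *
        ∑ f, a f * g f))) = fun e => a e * g e * (Real.exp (x * U (z + s • g)) *
        ∑ f, a f * g f) from funext fun e => by ring]
      rw [← Finset.sum_mul]
      ring
    rw [k1, integral_finsetSum _ fun e _ =>
      (((EG.coord e).mul (heg.mul hl)).const_mul (a e)).integrable]
    have k2 : ∀ e, ∫ g, a e * (g e * (Real.exp (x * U (z + s • g)) * ∑ f, a f * g f)) ∂(gI κ) =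
        ∫ g, a e * (Real.exp (x * U (z + s • g)) * a e + x * s *
        (Real.exp (x * U (z + s • g)) * ((∑ f, a f * g f) * D e (z + s • g)))) ∂(gI κ) := by
      intro e
      rw [integral_const_mul, integral_const_mul, st e]
    simp only [k2]
    rw [← integral_finsetSum _ fun e _ => ((e1 e).const_mul (a e)).integrable]
    refine integral_congr_ae (Filter.Eventually.of_forall fun g => ?_)
    simp only
    have k3 : ∀ e, a e * (Real.exp (x * U (z + s • g)) * a e + x * s *
        (Real.exp (x * U (z + s • g)) * ((∑ f, a f * g f) * D e (z + s • g)))) =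
        a e ^ 2 * Real.exp (x * U (z + s • g)) + (a e * D e (z + s • g)) *
          (Real.exp (x * U (z + s • g)) * (x * s * ∑ f, a f * g f)) := fun e => by ring
    simp only [k3]
    rw [Finset.sum_add_distrib, ← Finset.sum_mul, ← Finset.sum_mul, ← hA]
    ring
  have hA2 : ∀ g : κ → ℝ, (∑ e, a e * D e (z + s • g)) ^ 2 ≤
      A * (Fintype.card κ * B ^ 2) := by
    intro g
    refine (Finset.sum_mul_sq_le_sq_mul_sq _ _ _).trans ?_
    refine mul_le_mul_of_nonneg_left ?_ hA0
    have h1 : ∀ e ∈ (Finset.univ : Finset κ), D e (z + s • g) ^ 2 ≤ B ^ 2 := fun e _ => by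
      have := h.bd e (z + s • g)
      nlinarith [abs_nonneg (D e (z + s • g)), sq_abs (D e (z + s • g)), h.B0]
    refine (Finset.sum_le_sum h1).trans (le_of_eq ?_)
    rw [Finset.sum_const, Finset.card_univ, nsmul_eq_mul]
  have iV := (heg.mul (hl.pow 2)).integrable
  have up : ∫ g, Real.exp (x * U (z + s • g)) * (∑ e, a e * g e) ^ 2 ∂(gI κ) ≤
      ∫ g, ((A + A / 2) * Real.exp (x * U (z + s • g)) +
        1 / 4 * (Real.exp (x * U (z + s • g)) * (∑ e, a e * g e) ^ 2)) ∂(gI κ) := by
    rw [key]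
    refine integral_mono ?_ ?_ fun g => ?_
    · exact ((heg.const_mul A).add (heg.mul ((hl.mul (EG.sum _ fun e _ =>
        (hDe e).const_mul (a e))).const_mul (x * s)))).integrable
    · exact ((heg.const_mul _).add ((heg.mul (hl.pow 2)).const_mul _)).integrable
    · simp only
      have hE : 0 < Real.exp (x * U (z + s • g)) := Real.exp_pos _
      have h1 := hA2 g
      set l := ∑ e, a e * g e with hl'
      set d := ∑ e, a e * D e (z + s • g) with hd'
      have h2 : x * s * (l * d) ≤ 1 / 4 * l ^ 2 + A / 2 := by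
        have h3 : (x * s) ^ 2 * d ^ 2 ≤ A / 2 := by
          calc (x * s) ^ 2 * d ^ 2 ≤ (x * s) ^ 2 * (A * (Fintype.card κ * B ^ 2)) :=
                mul_le_mul_of_nonneg_left h1 (sq_nonneg _)
            _ = A * (x ^ 2 * s ^ 2 * (Fintype.card κ * B ^ 2)) := by ring
            _ ≤ A * (1 / 2) := mul_le_mul_of_nonneg_left hk hA0
            _ = A / 2 := by ring
        nlinarith [sq_nonneg (l / 2 - x * s * d)]
      nlinarith
  rw [integral_add (heg.const_mul _).integrable (iV.const_mul _), integral_const_mul,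
    integral_const_mul, ← hZ] at up
  linarith

/-- **The gradient of a tilted mean over a short layer is bounded by the conditional variance.** -/
theorem grad_le (h : C11 U D B L) (x : ℝ) (hφ : EG φ) (hφ' : ∀ e, EG (φ' e))
    (hd : ∀ y, HasFDerivAt φ (H785.lf fun e => φ' e y) y) (hs : 0 < s)
    (hk : x ^ 2 * s ^ 2 * (Fintype.card κ * B ^ 2) ≤ 1 / 2) (z : κ → ℝ) :
    s ^ 2 * ∑ e, GA x s U D φ φ' z e ^ 2 ≤
      2 * Ax x s U (fun v => (φ v - Ax x s U φ z) ^ 2) z := by
  set Z := ∫ g, Real.exp (x * U (z + s • g)) ∂(gI κ) with hZ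
  have hZ0 : 0 < Z := C11.tpos h x s z
  set p := Ax x s U φ z with hp
  set a : κ → ℝ := GA x s U D φ φ' z with ha
  set A := ∑ e, a e ^ 2 with hA
  have hA0 : 0 ≤ A := Finset.sum_nonneg fun e _ => sq_nonneg _
  have he : EG fun u => Real.exp (x * U u) := h.eg_exp x
  have heg : EG fun g : κ → ℝ => Real.exp (x * U (z + s • g)) := EG.add_smul he z s
  have hl : EG fun g : κ → ℝ => ∑ e, a e * g e := EG.sum _ fun e _ => (EG.coord e).const_mul _
  have hf : EG fun g : κ → ℝ => φ (z + s • g) - p := EG.add_smul (hφ.sub (EG.const p)) z s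
  have h1 : ∫ g, Real.exp (x * U (z + s • g)) * ((∑ e, a e * g e) * (φ (z + s • g) - p))
      ∂(gI κ) = s * (A * Z) := by
    have k1 : ∫ g, Real.exp (x * U (z + s • g)) * ((∑ e, a e * g e) * (φ (z + s • g) - p))
        ∂(gI κ) = ∫ g, ∑ e, a e * (g e * (Real.exp (x * U (z + s • g)) *
          (φ (z + s • g) - p))) ∂(gI κ) := by
      refine integral_congr_ae (Filter.Eventually.of_forall fun g => ?_)
      simp only
      rw [Finset.sum_mul, Finset.mul_sum]
      exact Finset.sum_congr rfl fun e _ => by ring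
    rw [k1, integral_finsetSum _ fun e _ =>
      (((EG.coord e).mul (heg.mul hf)).const_mul (a e)).integrable]
    have k2 : ∀ e, ∫ g, a e * (g e * (Real.exp (x * U (z + s • g)) * (φ (z + s • g) - p)))
        ∂(gI κ) = a e ^ 2 * (s * Z) := by
      intro e
      rw [integral_const_mul, hp, cov_noise h x hφ hφ' hd s z e]
      rw [← hZ, ha]
      ring
    simp only [k2]
    rw [← Finset.sum_mul, ← hA]
    ring
  have h2 := noise_le h x s hk z a
  rw [← hZ, ← hA] at h2
  have iV := (heg.mul (hl.pow 2)).integrable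
  have iF := (heg.mul (hf.pow 2)).integrable
  have h3 : ∫ g, Real.exp (x * U (z + s • g)) * ((∑ e, a e * g e) * (φ (z + s • g) - p))
      ∂(gI κ) ≤ ∫ g, (s / 4 * (Real.exp (x * U (z + s • g)) * (∑ e, a e * g e) ^ 2) +
        1 / s * (Real.exp (x * U (z + s • g)) * (φ (z + s • g) - p) ^ 2)) ∂(gI κ) := by
    refine integral_mono (heg.mul (hl.mul hf)).integrable
      ((iV.const_mul _).add (iF.const_mul _)) fun g => ?_
    simp only
    have hE : 0 < Real.exp (x * U (z + s • g)) := Real.exp_pos _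
    set l := ∑ e, a e * g e
    set f := φ (z + s • g) - p
    have h4 : l * f ≤ s / 4 * l ^ 2 + 1 / s * f ^ 2 := by
      have h5 : 0 ≤ (s / 2 * l - f) ^ 2 / s := div_nonneg (sq_nonneg _) hs.le
      have h6 : (s / 2 * l - f) ^ 2 / s = s / 4 * l ^ 2 + 1 / s * f ^ 2 - l * f := by
        field_simp
        ring
      linarith
    calc Real.exp (x * U (z + s • g)) * (l * f) ≤
          Real.exp (x * U (z + s • g)) * (s / 4 * l ^ 2 + 1 / s * f ^ 2) :=
          mul_le_mul_of_nonneg_left h4 hE.le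
      _ = _ := by ring
  rw [h1, integral_add (iV.const_mul _) (iF.const_mul _), integral_const_mul,
    integral_const_mul] at h3
  have h7 : ∫ g, Real.exp (x * U (z + s • g)) * (φ (z + s • g) - p) ^ 2 ∂(gI κ) =
      Z * Ax x s U (fun v => (φ v - p) ^ 2) z := by
    unfold Ax
    rw [← hZ]
    field_simp
  rw [h7] at h3
  set V := Ax x s U (fun v => (φ v - p) ^ 2) z with hV
  have h8 : s * (A * Z) ≤ s / 4 * (2 * (A * Z)) + 1 / s * (Z * V) :=
    h3.trans (add_le_add (mul_le_mul_of_nonneg_left h2 (by positivity)) le_rfl)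
  have h9 : s * A ≤ s / 2 * A + 1 / s * V := by
    have : Z * (s * A) ≤ Z * (s / 2 * A + 1 / s * V) := by
      calc Z * (s * A) = s * (A * Z) := by ring
        _ ≤ _ := h8
        _ = _ := by ring
    exact le_of_mul_le_mul_left this hZ0
  have h10 : s * (s * A) ≤ s * (s / 2 * A + 1 / s * V) := mul_le_mul_of_nonneg_left h9 hs.le
  have h11 : s * (s / 2 * A + 1 / s * V) = s ^ 2 / 2 * A + V := by
    field_simp
  rw [h11] at h10
  nlinarith

end grad

end Vale.Agent.P146.H655
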