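import Vale.Agent.P146.H655.PigA
import Vale.Agent.P146.H645.CSys

/-!
Pigeonhole in time, part 2: the mean `E_1` up to a variable late time `t`, over a fixed stack of
lower layers; the matrix `Q_1(t) = E_1 [C_t ^ 2]` increases with `t`; its increments.
-/

open MeasureTheory ProbabilityTheory

namespace Vale.Agent.P146.H655

open Vale.Agent.P157.Lv Vale.Agent.P146.H425 Vale.Agent.P146.H325 Vale.Agent.P146.H332
  Vale.Agent.P146.H712 Vale.Agent.P146.H816 Vale.Agent.P146.R1 Vale.Agent.P146.R1C Matrix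
  Vale.Agent.P146.R1S Vale.Agent.P146.H693
open Vale.Agent.P146.H785 (Ax)

set_option linter.unusedSectionVars false

variable {n : ℕ} {k x : ℝ}

section aw

variable (S : CS n k x) {w t t' : ℝ} {φ : (Pair n → ℝ) → ℝ}

/-- **Tower property of the tilted means.** -/
theorem Aw_tower (h1 : w ≤ t) (h2 : t ≤ t') (h3 : t' ≤ 1) (hφ : EG φ) (z : Pair n → ℝ) :
    Aw S w t' φ z = Aw S w t (Aw S t t' φ) z := by
  have e1 : uu x t S.F = W x (√(t' - t)) (uu x t' S.F) := funext fun z => uu_tw S h2 h3 z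
  unfold Aw
  rw [e1]
  refine (Ax_rot (c11_uu S.c11 S.x0 t') S.x0 hφ ?_ z).symm
  rw [Real.sq_sqrt (by linarith), Real.sq_sqrt (by linarith), Real.sq_sqrt (by linarith)]
  ring

/-- the increment of the matrix -/
def dA (S : CS n k x) (t t' : ℝ) (u v : Pair n → ℝ) (i j : Fin n) : ℝ :=
  S.A t' v i j - S.A t u i j

/-- the square of the increment -/
def dA2 (S : CS n k x) (t t' : ℝ) (u : Pair n → ℝ) (i j : Fin n) (v : Pair n → ℝ) : ℝ :=
  ∑ l, dA S t t' u v i l * dA S t t' u v l j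

lemma eg_dA2' (t t' : ℝ) (u : Pair n → ℝ) (i j : Fin n) : EG (dA2 S t t' u i j) :=
  EG.sum _ fun l _ => ((S.eg_A t' i l).sub (EG.const _)).mul ((S.eg_A t' l j).sub (EG.const _))

/-- **The increment of the mean of the square is the mean of the square of the increment.** -/
theorem Aw_A2 (h2 : t ≤ t') (h3 : t' ≤ 1) (i j : Fin n) (u : Pair n → ℝ) :
    Aw S t t' (dA2 S t t' u i j) u = Aw S t t' (A2 S t' i j) u - A2 S t i j u := by
  have hc := c11_uu S.c11 S.x0 t'
  have e1 : ∀ l, Aw S t t' (fun v => dA S t t' u v i l * dA S t t' u v l j) u =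
      Aw S t t' (fun v => S.A t' v i l * S.A t' v l j) u - S.A t u i l * S.A t u l j := by
    intro l
    have h4 := Ax_cov hc (S.eg_A t' i l) (S.eg_A t' l j) x (√(t' - t)) u
    have a1 : Ax x (√(t' - t)) (uu x t' S.F) (fun u => S.A t' u i l) u = S.A t u i l :=
      (A_tw S h2 h3 u i l).symm
    have a2 : Ax x (√(t' - t)) (uu x t' S.F) (fun u => S.A t' u l j) u = S.A t u l j :=
      (A_tw S h2 h3 u l j).symm
    rw [a1, a2] at h4
    exact h4
  have e2 : Aw S t t' (dA2 S t t' u i j) u =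
      ∑ l, Aw S t t' (fun v => dA S t t' u v i l * dA S t t' u v l j) u :=
    Aw_sum S t t' Finset.univ (fun l _ =>
      ((S.eg_A t' i l).sub (EG.const _)).mul ((S.eg_A t' l j).sub (EG.const _))) u
  have e3 : Aw S t t' (A2 S t' i j) u = ∑ l, Aw S t t' (fun v => S.A t' v i l * S.A t' v l j) u :=
    Aw_sum S t t' Finset.univ (fun l _ => (S.eg_A t' i l).mul (S.eg_A t' l j)) u
  rw [e2, e3]
  simp only [e1, Finset.sum_sub_distrib]
  rfl

lemma Aw_sum2 (t t' : ℝ) (M : Matrix (Fin n) (Fin n) ℝ) {f : Fin n → Fin n → (Pair n → ℝ) → ℝ}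
    (hf : ∀ i j, EG (f i j)) (u : Pair n → ℝ) :
    Aw S t t' (fun v => ∑ i, ∑ j, M i j * f i j v) u = ∑ i, ∑ j, M i j * Aw S t t' (f i j) u := by
  refine (Aw_sum S t t' Finset.univ (φ := fun i v => ∑ j, M i j * f i j v) (fun i _ =>
    EG.sum _ fun j _ => (hf i j).const_mul _) u).trans ?_
  refine Finset.sum_congr rfl fun i _ => ?_
  refine (Aw_sum S t t' Finset.univ (φ := fun j v => M i j * f i j v) (fun j _ =>
    (hf i j).const_mul _) u).trans ?_
  exact Finset.sum_congr rfl fun j _ => Aw_const_mul S t t' (M i j) (f i j) u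

end aw

/-! ### the mean `E_1` -/

/-- the mean over the window `[w, t]` and the lower layers -/
noncomputable def E1 (S : CS n k x) (w : ℝ) (m σ : ℕ → ℝ) (N : ℕ) (t : ℝ)
    (φ : (Pair n → ℝ) → ℝ) (z : Pair n → ℝ) : ℝ := Tl S w m σ (Aw S w t φ) N z

/-- the matrix `Q_1(t) = E_1 [C_t ^ 2]` -/
noncomputable def Q1 (S : CS n k x) (w : ℝ) (m σ : ℕ → ℝ) (N : ℕ) (t : ℝ)
    (z : Pair n → ℝ) : Matrix (Fin n) (Fin n) ℝ := fun i j => E1 S w m σ N t (A2 S t i j) z

variable {S : CS n k x} {w t t' : ℝ} {m σ : ℕ → ℝ} {N : ℕ} {φ ψ : (Pair n → ℝ) → ℝ}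

lemma eg_E1 (hm : Pm m N) (hφ : EG φ) : EG (E1 S w m σ N t φ) :=
  eg_Tl (eg_Aw S w t hφ) N hm

lemma E1_add (hm : Pm m N) (hφ : EG φ) (hψ : EG ψ) (z : Pair n → ℝ) :
    E1 S w m σ N t (fun u => φ u + ψ u) z = E1 S w m σ N t φ z + E1 S w m σ N t ψ z := by
  have h : Aw S w t (fun u => φ u + ψ u) = fun u => Aw S w t φ u + Aw S w t ψ u :=
    funext fun u => Aw_add S w t hφ hψ u
  unfold E1 Tl
  rw [h, TP_add hU (eg_Aw S w t hφ) (eg_Aw S w t hψ) N hm]

lemma E1_const_mul (c : ℝ) (φ : (Pair n → ℝ) → ℝ) (z : Pair n → ℝ) :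
    E1 S w m σ N t (fun u => c * φ u) z = c * E1 S w m σ N t φ z := by
  have h : Aw S w t (fun u => c * φ u) = fun u => c * Aw S w t φ u :=
    funext fun u => Aw_const_mul S w t c φ u
  unfold E1 Tl
  rw [h, TD_const_mul]

lemma E1_const (hm : Pm m N) (c : ℝ) (z : Pair n → ℝ) :
    E1 S w m σ N t (fun _ => c) z = c := by
  have h : Aw S w t (fun _ => c) = fun _ => c := funext fun u => Aw_const S w t c u
  unfold E1 Tl
  rw [h, TP_const hU c N hm]

lemma E1_sub (hm : Pm m N) (hφ : EG φ) (hψ : EG ψ) (z : Pair n → ℝ) :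
    E1 S w m σ N t (fun u => φ u - ψ u) z = E1 S w m σ N t φ z - E1 S w m σ N t ψ z := by
  have h := E1_add (S := S) (w := w) (t := t) (σ := σ) hm hφ (hψ.const_mul (-1)) z
  rw [E1_const_mul] at h
  have e : (fun u => φ u - ψ u) = fun u => φ u + (-1) * ψ u := by funext u; ring
  rw [e, h]
  ring

lemma E1_sum (hm : Pm m N) {ι : Type*} (T : Finset ι) {φ : ι → (Pair n → ℝ) → ℝ}
    (h : ∀ i ∈ T, EG (φ i)) (z : Pair n → ℝ) :
    E1 S w m σ N t (fun u => ∑ i ∈ T, φ i u) z = ∑ i ∈ T, E1 S w m σ N t (φ i) z := by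
  have e : Aw S w t (fun u => ∑ i ∈ T, φ i u) = fun u => ∑ i ∈ T, Aw S w t (φ i) u :=
    funext fun u => Aw_sum S w t T h u
  unfold E1 Tl
  rw [e, TP_sum hU T (fun i hi => eg_Aw S w t (h i hi)) N hm]

lemma E1_sum2 (hm : Pm m N) (M : Matrix (Fin n) (Fin n) ℝ)
    {f : Fin n → Fin n → (Pair n → ℝ) → ℝ} (hf : ∀ i j, EG (f i j)) (z : Pair n → ℝ) :
    E1 S w m σ N t (fun v => ∑ i, ∑ j, M i j * f i j v) z =
      ∑ i, ∑ j, M i j * E1 S w m σ N t (f i j) z := by
  refine (E1_sum hm Finset.univ (φ := fun i v => ∑ j, M i j * f i j v) (fun i _ =>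
    EG.sum _ fun j _ => (hf i j).const_mul _) z).trans ?_
  refine Finset.sum_congr rfl fun i _ => ?_
  refine (E1_sum hm Finset.univ (φ := fun j v => M i j * f i j v) (fun j _ =>
    (hf i j).const_mul _) z).trans ?_
  exact Finset.sum_congr rfl fun j _ => E1_const_mul (M i j) (f i j) z

lemma E1_nonneg (h : ∀ u, 0 ≤ φ u) (z : Pair n → ℝ) : 0 ≤ E1 S w m σ N t φ z :=
  TP_nonneg (fun u => Aw_nonneg S w t h u) N z

lemma E1_mono (hm : Pm m N) (hφ : EG φ) (hψ : EG ψ) (h : ∀ u, φ u ≤ ψ u) (z : Pair n → ℝ) :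
    E1 S w m σ N t φ z ≤ E1 S w m σ N t ψ z := by
  have h1 := E1_nonneg (S := S) (w := w) (t := t) (m := m) (σ := σ) (N := N)
    (φ := fun u => ψ u - φ u) (fun u => sub_nonneg.2 (h u)) z
  rw [E1_sub hm hψ hφ] at h1
  linarith

/-- **Tower property of the mean `E_1`.** -/
theorem E1_tower (h1 : w ≤ t) (h2 : t ≤ t') (h3 : t' ≤ 1) (hφ : EG φ) (z : Pair n → ℝ) :
    E1 S w m σ N t' φ z = E1 S w m σ N t (Aw S t t' φ) z := by
  have h : Aw S w t' φ = Aw S w t (Aw S t t' φ) := funext fun u => Aw_tower S h1 h2 h3 hφ u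
  unfold E1
  rw [h]

/-! ### the increments of `Q_1` -/

/-- the conditional mean of `<M, (C_t' - C_t) ^ 2>` given the position at the time `t` -/
noncomputable def Inc (S : CS n k x) (t t' : ℝ) (M : Matrix (Fin n) (Fin n) ℝ)
    (u : Pair n → ℝ) : ℝ := Aw S t t' (fun v => ∑ i, ∑ j, M i j * dA2 S t t' u i j v) u

lemma Inc_eq (h2 : t ≤ t') (h3 : t' ≤ 1) (M : Matrix (Fin n) (Fin n) ℝ) (u : Pair n → ℝ) :
    Inc S t t' M u = ∑ i, ∑ j, M i j * (Aw S t t' (A2 S t' i j) u - A2 S t i j u) := by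
  refine (Aw_sum2 S t t' M (fun i j => eg_dA2' S t t' u i j) u).trans ?_
  exact Finset.sum_congr rfl fun i _ => Finset.sum_congr rfl fun j _ => by
    rw [Aw_A2 S h2 h3]

lemma eg_Inc (h2 : t ≤ t') (h3 : t' ≤ 1) (M : Matrix (Fin n) (Fin n) ℝ) :
    EG (Inc S t t' M) := by
  have h : Inc S t t' M = fun u => ∑ i, ∑ j, M i j * (Aw S t t' (A2 S t' i j) u -
      A2 S t i j u) := funext fun u => Inc_eq h2 h3 M u
  rw [h]
  exact EG.sum _ fun i _ => EG.sum _ fun j _ =>
    ((eg_Aw S t t' (eg_A2 S t' i j)).sub (eg_A2 S t i j)).const_mul _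

/-- **The increment of `<M, Q_1>`.** -/
theorem E1_Inc (hm : Pm m N) (h1 : w ≤ t) (h2 : t ≤ t') (h3 : t' ≤ 1)
    (M : Matrix (Fin n) (Fin n) ℝ) (z : Pair n → ℝ) :
    E1 S w m σ N t (Inc S t t' M) z =
      ∑ i, ∑ j, M i j * (Q1 S w m σ N t' z i j - Q1 S w m σ N t z i j) := by
  have h : Inc S t t' M = fun u => ∑ i, ∑ j, M i j * (Aw S t t' (A2 S t' i j) u -
      A2 S t i j u) := funext fun u => Inc_eq h2 h3 M u
  have e0 : ∀ i j, EG fun u => Aw S t t' (A2 S t' i j) u - A2 S t i j u := fun i j =>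
    (eg_Aw S t t' (eg_A2 S t' i j)).sub (eg_A2 S t i j)
  rw [h]
  refine (E1_sum2 hm M e0 z).trans ?_
  refine Finset.sum_congr rfl fun i _ => Finset.sum_congr rfl fun j _ => ?_
  rw [E1_sub hm (eg_Aw S t t' (eg_A2 S t' i j)) (eg_A2 S t i j)]
  unfold Q1
  rw [← E1_tower h1 h2 h3 (eg_A2 S t' i j)]

/-- a quadratic form of a symmetric matrix with a psd weight -/
lemma psd_sum {M : Matrix (Fin n) (Fin n) ℝ} (hM : Psd M) (d : Fin n → Fin n → ℝ)
    (hd : ∀ i j, d i j = d j i) : 0 ≤ ∑ i, ∑ j, M i j * ∑ l, d i l * d l j := by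
  have h : ∑ i, ∑ j, M i j * ∑ l, d i l * d l j = ∑ l, ∑ i, ∑ j, d i l * d j l * M i j := by
    simp only [Finset.mul_sum]
    rw [Finset.sum_comm' (t' := Finset.univ) (s' := fun _ => Finset.univ) (by simp)]
    conv_rhs => rw [Finset.sum_comm]
    conv_rhs => enter [2, i]; rw [Finset.sum_comm]
    rw [Finset.sum_comm]
    refine Finset.sum_congr rfl fun i _ => Finset.sum_congr rfl fun j _ =>
      Finset.sum_congr rfl fun l _ => ?_
    rw [hd l j]
    ring
  rw [h]
  exact Finset.sum_nonneg fun l _ => hM.2 fun i => d i l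

lemma dA_comm (t t' : ℝ) (u v : Pair n → ℝ) (i j : Fin n) :
    dA S t t' u v i j = dA S t t' u v j i := by
  unfold dA
  rw [S.A_comm t' v i j, S.A_comm t u i j]

lemma Inc_nonneg {M : Matrix (Fin n) (Fin n) ℝ} (hM : Psd M) (u : Pair n → ℝ) :
    0 ≤ Inc S t t' M u :=
  Aw_nonneg S t t' (fun v => psd_sum hM (dA S t t' u v) (dA_comm t t' u v)) u

lemma Q1_comm (t : ℝ) (z : Pair n → ℝ) (i j : Fin n) :
    Q1 S w m σ N t z i j = Q1 S w m σ N t z j i := by
  have h : A2 S t i j = A2 S t j i := funext fun u => A2_comm S t i j u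
  unfold Q1
  rw [h]

lemma eg_Q1 (hm : Pm m N) (i j : Fin n) : EG fun z => Q1 S w m σ N t z i j :=
  eg_E1 hm (eg_A2 S t i j)

/-- **`Q_1` increases in the psd order.** -/
theorem Q1_inc (hm : Pm m N) (h1 : w ≤ t) (h2 : t ≤ t') (h3 : t' ≤ 1) (z : Pair n → ℝ) :
    Psd (Q1 S w m σ N t' z - Q1 S w m σ N t z) := by
  refine ⟨?_, fun c => ?_⟩
  · ext i j
    rw [transpose_apply, Matrix.sub_apply, Matrix.sub_apply, Q1_comm t' z j i, Q1_comm t z j i]
  · have hM : Psd (Matrix.of fun i j => c i * c j : Matrix (Fin n) (Fin n) ℝ) := by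
      refine ⟨?_, fun a => ?_⟩
      · ext i j
        simp only [transpose_apply, Matrix.of_apply]
        ring
      · have h : ∑ i, ∑ j, a i * a j * (Matrix.of (fun i j => c i * c j)
            : Matrix (Fin n) (Fin n) ℝ) i j = (∑ i, a i * c i) ^ 2 := by
          rw [_root_.sq, Finset.sum_mul_sum]
          refine Finset.sum_congr rfl fun i _ => Finset.sum_congr rfl fun j _ => ?_
          simp only [Matrix.of_apply]
          ring
        rw [h]
        exact sq_nonneg _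
    have h4 := E1_Inc (S := S) (σ := σ) hm h1 h2 h3
      (Matrix.of fun i j => c i * c j : Matrix (Fin n) (Fin n) ℝ) z
    have h5 : 0 ≤ E1 S w m σ N t (Inc S t t' (Matrix.of fun i j => c i * c j)) z :=
      E1_nonneg (fun u => Inc_nonneg hM u) z
    rw [h4] at h5
    exact h5

/-- `Q_1` is psd -/
theorem Q1_psd (hm : Pm m N) (z : Pair n → ℝ) : Psd (Q1 S w m σ N t z) := by
  refine ⟨?_, fun c => ?_⟩
  · ext i j
    rw [transpose_apply]
    exact Q1_comm t z j i
  · have h1 : E1 S w m σ N t (fun u => ∑ i, ∑ j, c i * c j * A2 S t i j u) z =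
        ∑ i, ∑ j, c i * c j * Q1 S w m σ N t z i j := by
      rw [E1_sum hm _ (fun i _ => EG.sum _ fun j _ => (eg_A2 S t i j).const_mul _)]
      refine Finset.sum_congr rfl fun i _ => ?_
      rw [E1_sum hm _ (fun j _ => (eg_A2 S t i j).const_mul _)]
      refine Finset.sum_congr rfl fun j _ => ?_
      rw [E1_const_mul]
      rfl
    rw [← h1]
    refine E1_nonneg (fun u => ?_) z
    have hM : Psd (Matrix.of fun i j => c i * c j : Matrix (Fin n) (Fin n) ℝ) := by
      refine ⟨?_, fun a => ?_⟩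
      · ext i j
        simp only [transpose_apply, Matrix.of_apply]
        ring
      · have h : ∑ i, ∑ j, a i * a j * (Matrix.of (fun i j => c i * c j)
            : Matrix (Fin n) (Fin n) ℝ) i j = (∑ i, a i * c i) ^ 2 := by
          rw [_root_.sq, Finset.sum_mul_sum]
          refine Finset.sum_congr rfl fun i _ => Finset.sum_congr rfl fun j _ => ?_
          simp only [Matrix.of_apply]
          ring
        rw [h]
        exact sq_nonneg _
    exact psd_sum hM (fun i j => S.A t u i j) fun i j => S.A_comm t u i j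

end Vale.Agent.P146.H655
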