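import Vale.Agent.P146.H655.PigB
import Vale.Agent.P146.H499.Psd4

/-!
Pigeonhole in time, part 3: the increments of `Q_1` control the derivatives of the matrix.
-/

open MeasureTheory ProbabilityTheory

namespace Vale.Agent.P146.H655

open Vale.Agent.P157.Lv Vale.Agent.P146.H425 Vale.Agent.P146.H325 Vale.Agent.P146.H332
  Vale.Agent.P146.H712 Vale.Agent.P146.H816 Vale.Agent.P146.R1 Vale.Agent.P146.R1C Matrix
  Vale.Agent.P146.R1S Vale.Agent.P146.H693
open Vale.Agent.P146.H785 (Ax)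

set_option linter.unusedSectionVars false

variable {n : ℕ} {k x : ℝ}

lemma lf_inj {κ : Type} [Fintype κ] {a b : κ → ℝ} (h : H785.lf a = H785.lf b) (i : κ) :
    a i = b i := by
  classical
  have h1 := congrArg (fun L : (κ → ℝ) →L[ℝ] ℝ => L (Pi.single i 1)) h
  simp only [H785.lf_apply, Pi.single_apply, mul_ite, mul_one, mul_zero, Finset.sum_ite_eq',
    Finset.mem_univ, if_true] at h1
  exact h1

/-- the condition that the layer is short -/
def Sh (S : CS n k x) (δ : ℝ) : Prop :=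
  x ^ 2 * δ * (Fintype.card (Pair n) * S.bB ^ 2) ≤ 1 / 2

variable {S : CS n k x} {w t t' : ℝ} {m σ : ℕ → ℝ} {N : ℕ}

lemma fd_lin (s : ℝ) (c : Fin n → ℝ) (l : Fin n) (v : Pair n → ℝ) :
    HasFDerivAt (fun v => ∑ i, c i * S.A s v i l)
      (H785.lf fun e => ∑ i, c i * S.DA s e v i l) v := by
  have h : HasFDerivAt (fun v => ∑ i, c i * S.A s v i l)
      (∑ i, c i • H785.lf fun e => S.DA s e v i l) v :=
    HasFDerivAt.fun_sum fun i _ => (S.fd_A s i l v).const_mul (c i)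
  refine h.congr_fderiv ?_
  ext w
  simp only [_root_.sum_apply, _root_.smul_apply, H785.lf_apply, smul_eq_mul, Finset.mul_sum,
    Finset.sum_mul]
  rw [Finset.sum_comm]
  exact Finset.sum_congr rfl fun e _ => Finset.sum_congr rfl fun i _ => by ring

lemma eg_lin (s : ℝ) (c : Fin n → ℝ) (l : Fin n) : EG fun v => ∑ i, c i * S.A s v i l :=
  EG.sum _ fun i _ => (S.eg_A s i l).const_mul _

/-- **The derivatives of a column of the matrix are controlled by its increments.** -/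
theorem scal_le (h2 : t < t') (h3 : t' ≤ 1) (hk : Sh S (t' - t)) (c : Fin n → ℝ) (l : Fin n)
    (u : Pair n → ℝ) :
    (t' - t) * ∑ e : Pair n, (∑ i, c i * S.DA t e u i l) ^ 2 ≤
      2 * Aw S t t' (fun v => (∑ i, c i * dA S t t' u v i l) ^ 2) u := by
  have hc := c11_uu S.c11 S.x0 t'
  set s := √(t' - t) with hs
  have hs2 : s ^ 2 = t' - t := Real.sq_sqrt (by linarith)
  have hs0 : 0 < s := Real.sqrt_pos.2 (by linarith)
  have eφ' : ∀ e, EG fun v => ∑ i, c i * S.DA t' e v i l := fun e =>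
    EG.sum _ fun i _ => (S.eg_DA t' e i l).const_mul _
  have key := grad_le hc x (φ := fun v => ∑ i, c i * S.A t' v i l)
    (φ' := fun e v => ∑ i, c i * S.DA t' e v i l) (eg_lin t' c l) eφ' (fd_lin t' c l) hs0
    (by rw [hs2]; exact hk) u
  have e1 : (fun v => Ax x s (uu x t' S.F) (fun v => ∑ i, c i * S.A t' v i l) v) =
      fun v => ∑ i, c i * S.A t v i l := by
    funext v
    have a1 : Aw S t t' (fun v => ∑ i, c i * S.A t' v i l) v =
        ∑ i, Aw S t t' (fun v => c i * S.A t' v i l) v :=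
      Aw_sum S t t' Finset.univ (fun i _ => (S.eg_A t' i l).const_mul _) v
    refine a1.trans (Finset.sum_congr rfl fun i _ => ?_)
    rw [Aw_const_mul, ← A_tw S h2.le h3]
  have e2 : ∀ e, GA x s (uu x t' S.F) (dd x t' S.F S.D) (fun v => ∑ i, c i * S.A t' v i l)
      (fun e v => ∑ i, c i * S.DA t' e v i l) u e = ∑ i, c i * S.DA t e u i l := by
    have b1 := H785.fd_Ax hc (eg_lin t' c l) eφ' (fd_lin t' c l) x s u
    have b2 := fd_lin (S := S) t c l u
    have b3 : HasFDerivAt (Ax x s (uu x t' S.F) (fun v => ∑ i, c i * S.A t' v i l))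
        (H785.lf fun e => ∑ i, c i * S.DA t e u i l) u := by
      have : Ax x s (uu x t' S.F) (fun v => ∑ i, c i * S.A t' v i l) =
        fun v => ∑ i, c i * S.A t v i l := e1
      rw [this]
      exact b2
    exact fun e => lf_inj (b1.unique b3) e
  rw [hs2] at key
  simp only [e2] at key
  have e3 : Ax x s (uu x t' S.F) (fun v => ∑ i, c i * S.A t' v i l) u =
      ∑ i, c i * S.A t u i l := congrFun e1 u
  rw [e3] at key
  have e4 : (fun v => (∑ i, c i * S.A t' v i l - ∑ i, c i * S.A t u i l) ^ 2) =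
      fun v => (∑ i, c i * dA S t t' u v i l) ^ 2 := by
    funext v
    rw [← Finset.sum_sub_distrib]
    unfold dA
    congr 1
    exact Finset.sum_congr rfl fun i _ => by ring
  rw [e4] at key
  exact key

/-- `∑_e <M, (D_e C_t) ^ 2>` -/
def En (S : CS n k x) (t : ℝ) (M : Matrix (Fin n) (Fin n) ℝ) (u : Pair n → ℝ) : ℝ :=
  ∑ e : Pair n, ∑ i, ∑ j, M i j * ∑ l, S.DA t e u i l * S.DA t e u l j

lemma eg_En (t : ℝ) (M : Matrix (Fin n) (Fin n) ℝ) : EG (En S t M) :=
  EG.sum _ fun e _ => EG.sum _ fun i _ => EG.sum _ fun j _ =>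
    (EG.sum _ fun l _ => (S.eg_DA t e i l).mul (S.eg_DA t e l j)).const_mul _

lemma En_nonneg {M : Matrix (Fin n) (Fin n) ℝ} (hM : Psd M) (u : Pair n → ℝ) :
    0 ≤ En S t M u :=
  Finset.sum_nonneg fun e _ => psd_sum hM (fun i j => S.DA t e u i j)
    fun i j => S.DA_comm t e u i j

/-- the quadratic form of a symmetric matrix in the eigenbasis of the weight -/
lemma form_eq {M : Matrix (Fin n) (Fin n) ℝ} {V : Matrix (Fin n) (Fin n) ℝ} {lam : Fin n → ℝ}
    (hV : ∀ i j, M i j = ∑ a, lam a * V i a * V j a) (d : Fin n → Fin n → ℝ)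
    (hd : ∀ i j, d i j = d j i) :
    ∑ i, ∑ j, M i j * ∑ l, d i l * d l j = ∑ a, ∑ l, lam a * (∑ i, V i a * d i l) ^ 2 := by
  have e1 : ∀ a l, lam a * (∑ i, V i a * d i l) ^ 2 =
      ∑ i, ∑ j, lam a * V i a * V j a * (d i l * d l j) := by
    intro a l
    rw [_root_.sq, Finset.sum_mul_sum, Finset.mul_sum]
    refine Finset.sum_congr rfl fun i _ => ?_
    rw [Finset.mul_sum]
    refine Finset.sum_congr rfl fun j _ => ?_
    rw [hd l j]
    ring
  simp only [e1, hV, Finset.sum_mul, Finset.mul_sum]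
  have e2 : ∀ a, ∑ l, ∑ i, ∑ j, lam a * V i a * V j a * (d i l * d l j) =
      ∑ i, ∑ j, ∑ l, lam a * V i a * V j a * (d i l * d l j) := by
    intro a
    rw [Finset.sum_comm]
    exact Finset.sum_congr rfl fun i _ => Finset.sum_comm
  simp only [e2]
  conv_rhs => rw [Finset.sum_comm]
  refine Finset.sum_congr rfl fun i _ => ?_
  conv_rhs => rw [Finset.sum_comm]
  exact Finset.sum_congr rfl fun j _ => Finset.sum_comm

/-- **The derivatives of the matrix are controlled by its increments.** -/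
theorem En_le {M : Matrix (Fin n) (Fin n) ℝ} (hM : Psd M) (h2 : t < t') (h3 : t' ≤ 1)
    (hk : Sh S (t' - t)) (u : Pair n → ℝ) :
    (t' - t) * En S t M u ≤ 2 * Inc S t t' M u := by
  obtain ⟨V, lam, hl, hV⟩ := H499.psd_decomp hM
  have e1 : En S t M u = ∑ a, ∑ l, lam a * ∑ e : Pair n, (∑ i, V i a * S.DA t e u i l) ^ 2 := by
    have h : ∀ e : Pair n, ∑ i, ∑ j, M i j * ∑ l, S.DA t e u i l * S.DA t e u l j =
        ∑ a, ∑ l, lam a * (∑ i, V i a * S.DA t e u i l) ^ 2 := fun e =>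
      form_eq hV (fun i j => S.DA t e u i j) fun i j => S.DA_comm t e u i j
    unfold En
    simp only [h]
    rw [Finset.sum_comm]
    refine Finset.sum_congr rfl fun a _ => ?_
    rw [Finset.sum_comm]
    refine Finset.sum_congr rfl fun l _ => ?_
    rw [Finset.mul_sum]
  have e2 : Inc S t t' M u = ∑ a, ∑ l, lam a *
      Aw S t t' (fun v => (∑ i, V i a * dA S t t' u v i l) ^ 2) u := by
    unfold Inc
    have h : (fun v => ∑ i, ∑ j, M i j * dA2 S t t' u i j v) =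
        fun v => ∑ a, ∑ l, lam a * (∑ i, V i a * dA S t t' u v i l) ^ 2 := by
      funext v
      exact form_eq hV (fun i j => dA S t t' u v i j) (dA_comm t t' u v)
    rw [h]
    have eg1 : ∀ a l, EG fun v => (∑ i, V i a * dA S t t' u v i l) ^ 2 := fun a l =>
      (EG.sum _ fun i _ => ((S.eg_A t' i l).sub (EG.const _)).const_mul _).pow 2
    refine (Aw_sum S t t' Finset.univ (φ := fun a v => ∑ l, lam a *
      (∑ i, V i a * dA S t t' u v i l) ^ 2) (fun a _ => EG.sum _ fun l _ =>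
        (eg1 a l).const_mul _) u).trans ?_
    refine Finset.sum_congr rfl fun a _ => ?_
    refine (Aw_sum S t t' Finset.univ (φ := fun l v => lam a *
      (∑ i, V i a * dA S t t' u v i l) ^ 2) (fun l _ => (eg1 a l).const_mul _) u).trans ?_
    exact Finset.sum_congr rfl fun l _ => Aw_const_mul S t t' _ _ u
  rw [e1, e2, Finset.mul_sum, Finset.mul_sum]
  refine Finset.sum_le_sum fun a _ => ?_
  rw [Finset.mul_sum, Finset.mul_sum]
  refine Finset.sum_le_sum fun l _ => ?_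
  have h := mul_le_mul_of_nonneg_left (scal_le (S := S) h2 h3 hk (fun i => V i a) l u) (hl a)
  calc _ = lam a * ((t' - t) * ∑ e : Pair n, (∑ i, V i a * S.DA t e u i l) ^ 2) := by ring
    _ ≤ _ := h
    _ = _ := by ring

/-! ### the function `N(t)` -/

/-- `N(t) = E |Q_1(t)|_F ^ 2` -/
noncomputable def NQ (S : CS n k x) (w : ℝ) (m σ : ℕ → ℝ) (N : ℕ) (c t : ℝ) : ℝ :=
  ∫ g, fr (Q1 S w m σ N t (c • g)) ∂(gI (Pair n))

/-- `E ∑_e <Q_1(t), (D_e C_t) ^ 2>` -/
noncomputable def EnQ (S : CS n k x) (w : ℝ) (m σ : ℕ → ℝ) (N : ℕ) (c t : ℝ) : ℝ :=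
  ∫ g, E1 S w m σ N t (En S t (Q1 S w m σ N t (c • g))) (c • g) ∂(gI (Pair n))

/-- `E <Q_1(t), (C_t' - C_t) ^ 2>` -/
noncomputable def IncQ (S : CS n k x) (w : ℝ) (m σ : ℕ → ℝ) (N : ℕ) (c t t' : ℝ) : ℝ :=
  ∫ g, E1 S w m σ N t (Inc S t t' (Q1 S w m σ N t (c • g))) (c • g) ∂(gI (Pair n))

lemma eg_sc {G : (Pair n → ℝ) → ℝ} (h : EG G) (c : ℝ) : EG fun g => G (c • g) := by
  have := EG.add_smul h 0 c
  simpa using this

lemma eg_frQ (hm : Pm m N) (c t : ℝ) :
    EG fun g : Pair n → ℝ => fr (Q1 S w m σ N t (c • g)) :=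
  eg_sc (G := fun z => fr (Q1 S w m σ N t z)) (EG.sum _ fun i _ => EG.sum _ fun j _ =>
    (eg_Q1 hm i j).pow 2) c

lemma Inc_le_pt (hm : Pm m N) (h1 : w ≤ t) (h2 : t ≤ t') (h3 : t' ≤ 1) (z : Pair n → ℝ) :
    E1 S w m σ N t (Inc S t t' (Q1 S w m σ N t z)) z ≤
      (fr (Q1 S w m σ N t' z) - fr (Q1 S w m σ N t z)) / 2 := by
  rw [E1_Inc hm h1 h2 h3]
  unfold fr
  rw [← Finset.sum_sub_distrib, Finset.sum_div]
  refine Finset.sum_le_sum fun i _ => ?_
  rw [← Finset.sum_sub_distrib, Finset.sum_div]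
  refine Finset.sum_le_sum fun j _ => ?_
  nlinarith [sq_nonneg (Q1 S w m σ N t' z i j - Q1 S w m σ N t z i j)]

lemma Inc_pt_nonneg (hm : Pm m N) (z : Pair n → ℝ) :
    0 ≤ E1 S w m σ N t (Inc S t t' (Q1 S w m σ N t z)) z :=
  E1_nonneg (fun u => Inc_nonneg (Q1_psd hm z) u) z

lemma fr_Q1_mono (hm : Pm m N) (h1 : w ≤ t) (h2 : t ≤ t') (h3 : t' ≤ 1) (z : Pair n → ℝ) :
    fr (Q1 S w m σ N t z) ≤ fr (Q1 S w m σ N t' z) := by
  have a := Inc_le_pt (S := S) (σ := σ) hm h1 h2 h3 z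
  have b := Inc_pt_nonneg (S := S) (w := w) (σ := σ) (t := t) (t' := t') hm z
  linarith

/-- **`N(t)` is nondecreasing.** -/
theorem NQ_mono (hm : Pm m N) (c : ℝ) (h1 : w ≤ t) (h2 : t ≤ t') (h3 : t' ≤ 1) :
    NQ S w m σ N c t ≤ NQ S w m σ N c t' :=
  integral_mono (eg_frQ hm c t).integrable (eg_frQ hm c t').integrable
    fun g => fr_Q1_mono hm h1 h2 h3 (c • g)

lemma eg_IncQ (hm : Pm m N) (c : ℝ) (h1 : w ≤ t) (h2 : t ≤ t') (h3 : t' ≤ 1) :
    EG fun g : Pair n → ℝ => E1 S w m σ N t (Inc S t t' (Q1 S w m σ N t (c • g))) (c • g) := by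
  refine eg_sc (G := fun z => E1 S w m σ N t (Inc S t t' (Q1 S w m σ N t z)) z) ?_ c
  have h : (fun z => E1 S w m σ N t (Inc S t t' (Q1 S w m σ N t z)) z) = fun z =>
      ∑ i, ∑ j, Q1 S w m σ N t z i j * (Q1 S w m σ N t' z i j - Q1 S w m σ N t z i j) :=
    funext fun z => E1_Inc hm h1 h2 h3 _ z
  rw [h]
  exact EG.sum _ fun i _ => EG.sum _ fun j _ => (eg_Q1 hm i j).mul
    ((eg_Q1 hm i j).sub (eg_Q1 hm i j))

/-- **(T)** the increment of the matrix, weighted with `Q_1(t)`, is bounded by the increment of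
`N`. -/
theorem IncQ_le (hm : Pm m N) (c : ℝ) (h1 : w ≤ t) (h2 : t ≤ t') (h3 : t' ≤ 1) :
    IncQ S w m σ N c t t' ≤ (NQ S w m σ N c t' - NQ S w m σ N c t) / 2 := by
  have h := integral_mono (eg_IncQ (S := S) (σ := σ) hm c h1 h2 h3).integrable
    (((eg_frQ (S := S) (w := w) (σ := σ) hm c t').integrable.sub
      (eg_frQ (S := S) (w := w) (σ := σ) hm c t).integrable).div_const 2)
    fun g => Inc_le_pt hm h1 h2 h3 (c • g)
  refine h.trans (le_of_eq ?_)
  have h4 : ∫ g, (fr (Q1 S w m σ N t' (c • g)) - fr (Q1 S w m σ N t (c • g))) / 2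
      ∂(gI (Pair n)) = (∫ g, (fr (Q1 S w m σ N t' (c • g)) - fr (Q1 S w m σ N t (c • g)))
      ∂(gI (Pair n))) / 2 := integral_div _ _
  refine h4.trans ?_
  rw [integral_sub (eg_frQ hm c t').integrable (eg_frQ hm c t).integrable]
  rfl

lemma IncQ_nonneg (hm : Pm m N) (c : ℝ) : 0 ≤ IncQ S w m σ N c t t' :=
  integral_nonneg fun g => Inc_pt_nonneg hm (c • g)

lemma E1_En (hm : Pm m N) (M : Matrix (Fin n) (Fin n) ℝ) (z : Pair n → ℝ) :
    E1 S w m σ N t (En S t M) z = ∑ i, ∑ j, M i j *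
      E1 S w m σ N t (fun u => ∑ e : Pair n, ∑ l, S.DA t e u i l * S.DA t e u l j) z := by
  have h : En S t M = fun u => ∑ i, ∑ j, M i j *
      ∑ e : Pair n, ∑ l, S.DA t e u i l * S.DA t e u l j := by
    funext u
    unfold En
    rw [Finset.sum_comm]
    refine Finset.sum_congr rfl fun i _ => ?_
    rw [Finset.sum_comm]
    refine Finset.sum_congr rfl fun j _ => ?_
    rw [Finset.mul_sum]
  rw [h]
  exact E1_sum2 hm M (fun i j => EG.sum _ fun e _ => EG.sum _ fun l _ =>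
    (S.eg_DA t e i l).mul (S.eg_DA t e l j)) z

lemma eg_EnQ (hm : Pm m N) (c : ℝ) :
    EG fun g : Pair n → ℝ => E1 S w m σ N t (En S t (Q1 S w m σ N t (c • g))) (c • g) := by
  refine eg_sc (G := fun z => E1 S w m σ N t (En S t (Q1 S w m σ N t z)) z) ?_ c
  have h : (fun z => E1 S w m σ N t (En S t (Q1 S w m σ N t z)) z) = fun z =>
      ∑ i, ∑ j, Q1 S w m σ N t z i j * E1 S w m σ N t
        (fun u => ∑ e : Pair n, ∑ l, S.DA t e u i l * S.DA t e u l j) z :=
    funext fun z => E1_En hm _ z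
  rw [h]
  exact EG.sum _ fun i _ => EG.sum _ fun j _ => (eg_Q1 hm i j).mul
    (eg_E1 hm (EG.sum _ fun e _ => EG.sum _ fun l _ => (S.eg_DA t e i l).mul (S.eg_DA t e l j)))

lemma EnQ_nonneg (hm : Pm m N) (c : ℝ) : 0 ≤ EnQ S w m σ N c t :=
  integral_nonneg fun g => E1_nonneg (fun u => En_nonneg (Q1_psd hm (c • g)) u) (c • g)

/-- **The energy inequality over a short step.** -/
theorem EnQ_le (hm : Pm m N) (c : ℝ) (h1 : w ≤ t) (h2 : t < t') (h3 : t' ≤ 1)
    (hk : Sh S (t' - t)) :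
    (t' - t) * EnQ S w m σ N c t ≤ NQ S w m σ N c t' - NQ S w m σ N c t := by
  have h4 : (t' - t) * EnQ S w m σ N c t ≤ 2 * IncQ S w m σ N c t t' := by
    unfold EnQ IncQ
    rw [← integral_const_mul, ← integral_const_mul]
    refine integral_mono ((eg_EnQ hm c).const_mul _).integrable
      ((eg_IncQ hm c h1 h2.le h3).const_mul _).integrable fun g => ?_
    simp only
    rw [← E1_const_mul, ← E1_const_mul]
    exact E1_mono hm ((eg_En t _).const_mul _) ((eg_Inc h2.le h3 _).const_mul _)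
      (fun u => En_le (Q1_psd hm (c • g)) h2 h3 hk u) (c • g)
  have h5 := IncQ_le (S := S) (σ := σ) hm c h1 h2.le h3
  linarith

end Vale.Agent.P146.H655
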