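import Vale.Agent.P146.H655.PigC

/-!
Pigeonhole in time, part 4: bounds of `N(t)`, good times, the pigeonhole.
-/

open MeasureTheory ProbabilityTheory

namespace Vale.Agent.P146.H655

open Vale.Agent.P157.Lv Vale.Agent.P146.H425 Vale.Agent.P146.H325 Vale.Agent.P146.H332
  Vale.Agent.P146.H712 Vale.Agent.P146.H816 Vale.Agent.P146.R1 Vale.Agent.P146.R1C Matrix
  Vale.Agent.P146.R1S Vale.Agent.P146.H693
open Vale.Agent.P146.H785 (Ax)

set_option linter.unusedSectionVars false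

/-! ### real functions -/

/-- the pigeonhole principle for an increasing sequence -/
lemma pig_seq {f : ℕ → ℝ} {J : ℕ} {R q : ℝ} (h0 : 0 < f 0) (hq : 0 ≤ q)
    (hR : f J ≤ R * f 0) (hqR : R ≤ q ^ J) (hJ : 0 < J) :
    ∃ j < J, f (j + 1) ≤ q * f j := by
  by_contra hcon
  push Not at hcon
  have h1 : ∀ j, j ≤ J → q ^ j * f 0 ≤ f j ∧ (0 < j → q ^ j * f 0 < f j) := by
    intro j
    induction j with
    | zero => intro _; simp
    | succ j ih =>
      intro hj
      have h2 := (ih (by omega)).1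
      have h3 := hcon j (by omega)
      have h4 : q ^ (j + 1) * f 0 < f (j + 1) := by
        calc q ^ (j + 1) * f 0 = q * (q ^ j * f 0) := by ring
          _ ≤ q * f j := mul_le_mul_of_nonneg_left h2 hq
          _ < f (j + 1) := h3
      exact ⟨h4.le, fun _ => h4⟩
  have h5 := (h1 J le_rfl).2 hJ
  have h6 : R * f 0 ≤ q ^ J * f 0 := mul_le_mul_of_nonneg_right hqR h0.le
  linarith

/-- **Good times**: `G_i` is dominated by the increments of `M_i` over short steps, for finitely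
many `i`; then at some time all the `G_i` are bounded by their mean rates. -/
theorem good_fin {ι : Type*} [Fintype ι] {G M : ι → ℝ → ℝ} {T0 T1 δ0 : ℝ} {K : ι → ℝ}
    (hT : T0 < T1) (hδ : 0 < δ0) (hG0 : ∀ i t, T0 ≤ t → t ≤ T1 → 0 ≤ G i t)
    (hG : ∀ i t t', T0 ≤ t → t < t' → t' ≤ T1 → t' - t ≤ δ0 →
      (t' - t) * G i t ≤ M i t' - M i t)
    (hK : ∀ i, 0 < K i) (hKM : ∀ i, M i T1 - M i T0 ≤ K i) :
    ∃ t, T0 ≤ t ∧ t < T1 ∧ ∀ i, (T1 - T0) * G i t ≤ Fintype.card ι * K i := by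
  obtain ⟨J, hJ⟩ := exists_nat_ge ((T1 - T0) / δ0)
  have hL : 0 < T1 - T0 := by linarith
  set J' := J + 1 with hJ'
  have hJp : (0 : ℝ) < J' := by positivity
  set δ := (T1 - T0) / J' with hδd
  have hδp : 0 < δ := by positivity
  have hδ1 : δ ≤ δ0 := by
    rw [hδd, div_le_iff₀ hJp]
    rw [div_le_iff₀ hδ] at hJ
    have : (J : ℝ) ≤ J' := by rw [hJ']; push_cast; linarith
    nlinarith
  have hδJ : J' * δ = T1 - T0 := by rw [hδd]; field_simp
  set τ : ℕ → ℝ := fun j => T0 + j * δ with hτ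
  have hτ0 : τ 0 = T0 := by simp [hτ]
  have hτJ : τ J' = T1 := by
    show T0 + J' * δ = T1
    rw [hδJ]; ring
  have hτle : ∀ j, j ≤ J' → τ j ≤ T1 := by
    intro j hj
    rw [← hτJ]
    show T0 + j * δ ≤ T0 + J' * δ
    have : (j : ℝ) ≤ J' := by exact_mod_cast hj
    nlinarith
  have hτge : ∀ j, T0 ≤ τ j := fun j => by
    show T0 ≤ T0 + j * δ
    have : 0 ≤ (j : ℝ) * δ := by positivity
    linarith
  have hstep : ∀ j, τ (j + 1) - τ j = δ := fun j => by
    show T0 + ((j + 1 : ℕ) : ℝ) * δ - (T0 + j * δ) = δ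
    push_cast
    ring
  have hs : ∀ i, ∑ j ∈ Finset.range J', δ * G i (τ j) ≤ K i := by
    intro i
    have h1 : ∀ j ∈ Finset.range J', δ * G i (τ j) ≤ M i (τ (j + 1)) - M i (τ j) := by
      intro j hj
      rw [Finset.mem_range] at hj
      have h2 := hG i (τ j) (τ (j + 1)) (hτge j) (by linarith [hstep j]) (hτle _ (by omega))
        (by rw [hstep j]; exact hδ1)
      rwa [hstep j] at h2
    refine (Finset.sum_le_sum h1).trans ?_
    rw [Finset.sum_range_sub (fun j => M i (τ j))]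
    rw [hτ0, hτJ]
    exact hKM i
  have hs2 : ∑ j ∈ Finset.range J', ∑ i, δ * G i (τ j) / K i ≤ Fintype.card ι := by
    rw [Finset.sum_comm]
    have : ∀ i ∈ (Finset.univ : Finset ι), ∑ j ∈ Finset.range J', δ * G i (τ j) / K i ≤ 1 := by
      intro i _
      rw [← Finset.sum_div, div_le_one (hK i)]
      exact hs i
    refine (Finset.sum_le_sum this).trans (le_of_eq ?_)
    simp
  obtain ⟨j, hj, hj2⟩ : ∃ j ∈ Finset.range J', ∑ i, δ * G i (τ j) / K i ≤
      Fintype.card ι / J' := by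
    by_contra hcon
    push Not at hcon
    have h3 : ∑ j ∈ Finset.range J', (Fintype.card ι / J' : ℝ) <
        ∑ j ∈ Finset.range J', ∑ i, δ * G i (τ j) / K i :=
      Finset.sum_lt_sum_of_nonempty ⟨0, by rw [Finset.mem_range]; omega⟩ hcon
    rw [Finset.sum_const, Finset.card_range, nsmul_eq_mul, mul_div_cancel₀ _ hJp.ne'] at h3
    linarith
  rw [Finset.mem_range] at hj
  refine ⟨τ j, hτge j, ?_, fun i => ?_⟩
  · have := hτle (j + 1) (by omega)
    linarith [hstep j]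
  · have h4 : δ * G i (τ j) / K i ≤ Fintype.card ι / J' :=
      (Finset.single_le_sum (f := fun i => δ * G i (τ j) / K i) (fun i' _ =>
        div_nonneg (mul_nonneg hδp.le (hG0 i' _ (hτge j) (hτle j hj.le))) (hK i').le)
        (Finset.mem_univ i)).trans hj2
    rw [div_le_div_iff₀ (hK i) hJp] at h4
    calc (T1 - T0) * G i (τ j) = δ * G i (τ j) * J' := by rw [← hδJ]; ring
      _ ≤ _ := h4

/-! ### the bounds of `N(t)` -/

variable {n : ℕ} {k x : ℝ} {S : CS n k x} {w t t' : ℝ} {m σ : ℕ → ℝ} {N : ℕ}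

lemma abs_E1 (hm : Pm m N) {φ : (Pair n → ℝ) → ℝ} (hφ : EG φ) {C : ℝ} (hC : ∀ u, |φ u| ≤ C)
    (z : Pair n → ℝ) : |E1 S w m σ N t φ z| ≤ C := by
  rw [abs_le]
  constructor
  · have := E1_mono (S := S) (w := w) (t := t) (σ := σ) hm (EG.const (-C)) hφ
      (fun u => (abs_le.1 (hC u)).1) z
    rwa [E1_const hm] at this
  · have := E1_mono (S := S) (w := w) (t := t) (σ := σ) hm hφ (EG.const C)
      (fun u => (abs_le.1 (hC u)).2) z
    rwa [E1_const hm] at this

lemma abs_Q1 (hm : Pm m N) (z : Pair n → ℝ) (i j : Fin n) : |Q1 S w m σ N t z i j| ≤ n :=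
  abs_E1 hm (eg_A2 S t i j) (abs_A2 t i j) z

lemma one_le_Q1 (hm : Pm m N) (z : Pair n → ℝ) (i : Fin n) : 1 ≤ Q1 S w m σ N t z i i := by
  have h := E1_mono (S := S) (w := w) (t := t) (σ := σ) hm (EG.const 1) (eg_A2 S t i i)
    (fun u => ?_) z
  · rwa [E1_const hm] at h
  · unfold H693.A2
    have h1 : S.A t u i i * S.A t u i i ≤ ∑ l, S.A t u i l * S.A t u l i :=
      Finset.single_le_sum (f := fun l => S.A t u i l * S.A t u l i) (fun l _ => by
        rw [S.A_comm t u l i]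
        exact mul_self_nonneg _) (Finset.mem_univ i)
    rw [S.A_self, mul_one] at h1
    exact h1

lemma fr_Q1_ge (hm : Pm m N) (z : Pair n → ℝ) : (n : ℝ) ≤ fr (Q1 S w m σ N t z) := by
  have h1 : ∀ i ∈ (Finset.univ : Finset (Fin n)), (1 : ℝ) ≤ ∑ j, Q1 S w m σ N t z i j ^ 2 := by
    intro i _
    have h2 := one_le_Q1 (S := S) (w := w) (t := t) (σ := σ) hm z i
    have h3 : Q1 S w m σ N t z i i ^ 2 ≤ ∑ j, Q1 S w m σ N t z i j ^ 2 :=
      Finset.single_le_sum (f := fun j => Q1 S w m σ N t z i j ^ 2) (fun j _ => sq_nonneg _)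
        (Finset.mem_univ i)
    nlinarith
  have h4 := Finset.sum_le_sum h1
  simp only [Finset.sum_const, Finset.card_univ, Fintype.card_fin, nsmul_eq_mul, mul_one] at h4
  exact h4

lemma fr_Q1_le (hm : Pm m N) (z : Pair n → ℝ) : fr (Q1 S w m σ N t z) ≤ (n : ℝ) ^ 4 := by
  unfold fr
  have h1 : ∀ i ∈ (Finset.univ : Finset (Fin n)), ∑ j, Q1 S w m σ N t z i j ^ 2 ≤ (n : ℝ) ^ 3 := by
    intro i _
    have h2 : ∀ j ∈ (Finset.univ : Finset (Fin n)), Q1 S w m σ N t z i j ^ 2 ≤ (n : ℝ) ^ 2 := by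
      intro j _
      rw [sq_le_sq, Nat.abs_cast]
      exact abs_Q1 hm z i j
    have h3 := Finset.sum_le_sum h2
    rw [Finset.sum_const, Finset.card_univ, Fintype.card_fin, nsmul_eq_mul] at h3
    exact h3.trans (le_of_eq (by ring))
  have h4 := Finset.sum_le_sum h1
  rw [Finset.sum_const, Finset.card_univ, Fintype.card_fin, nsmul_eq_mul] at h4
  exact h4.trans (le_of_eq (by ring))

theorem NQ_ge (hm : Pm m N) (c : ℝ) : (n : ℝ) ≤ NQ S w m σ N c t := by
  have h := integral_mono (integrable_const (μ := gI (Pair n)) (n : ℝ))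
    (eg_frQ (S := S) (w := w) (σ := σ) hm c t).integrable fun g => fr_Q1_ge hm (c • g)
  rw [integral_const, probReal_univ, one_smul] at h
  exact h

theorem NQ_le (hm : Pm m N) (c : ℝ) : NQ S w m σ N c t ≤ (n : ℝ) ^ 4 := by
  have h := integral_mono (eg_frQ (S := S) (w := w) (σ := σ) hm c t).integrable
    (integrable_const (μ := gI (Pair n)) ((n : ℝ) ^ 4)) fun g => fr_Q1_le hm (c • g)
  rw [integral_const, probReal_univ, one_smul] at h
  exact h

/-! ### the pigeonhole -/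

/-- some step is short -/
lemma exists_Sh (S : CS n k x) : ∃ δ0 : ℝ, 0 < δ0 ∧ ∀ δ, δ ≤ δ0 → Sh S δ := by
  set C := x ^ 2 * (Fintype.card (Pair n) * S.bB ^ 2) with hC
  have hC0 : 0 ≤ C := by positivity
  refine ⟨1 / (2 * (C + 1)), by positivity, fun δ hδ => ?_⟩
  unfold Sh
  have h1 : x ^ 2 * δ * (Fintype.card (Pair n) * S.bB ^ 2) = C * δ := by rw [hC]; ring
  rw [h1]
  have h2 : C * δ ≤ C * (1 / (2 * (C + 1))) := mul_le_mul_of_nonneg_left hδ hC0
  refine h2.trans ?_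
  rw [mul_one_div, div_le_div_iff₀ (by positivity) (by norm_num)]
  linarith

/-- **Good times for the energy**, together with finitely many other quantities. -/
theorem good_time {ι : Type*} [Fintype ι] {G M : ι → ℝ → ℝ} {K : ι → ℝ} {T0 T1 δ1 : ℝ}
    (hm : Pm m N) (c : ℝ) (h1 : w ≤ T0) (hT : T0 < T1) (hT1 : T1 ≤ 1) (hδ1 : 0 < δ1)
    (hG0 : ∀ i t, T0 ≤ t → t ≤ T1 → 0 ≤ G i t)
    (hG : ∀ i t t', T0 ≤ t → t < t' → t' ≤ T1 → t' - t ≤ δ1 →
      (t' - t) * G i t ≤ M i t' - M i t)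
    (hK : ∀ i, 0 < K i) (hKM : ∀ i, M i T1 - M i T0 ≤ K i) {E : ℝ} (hE : 0 < E)
    (hNE : NQ S w m σ N c T1 - NQ S w m σ N c T0 ≤ E) :
    ∃ t, T0 ≤ t ∧ t < T1 ∧ (T1 - T0) * EnQ S w m σ N c t ≤ (Fintype.card ι + 1) * E ∧
      ∀ i, (T1 - T0) * G i t ≤ (Fintype.card ι + 1) * K i := by
  obtain ⟨δ0, hδ0, hsh⟩ := exists_Sh S
  have k1 : ∀ (o : Option ι) (t : ℝ), T0 ≤ t → t ≤ T1 →
      0 ≤ (fun o : Option ι => o.elim (EnQ S w m σ N c) G) o t := by
    intro o
    cases o with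
    | none => exact fun t _ _ => EnQ_nonneg hm c
    | some i => exact hG0 i
  have k2 : ∀ (o : Option ι) (t t' : ℝ), T0 ≤ t → t < t' → t' ≤ T1 → t' - t ≤ min δ0 δ1 →
      (t' - t) * (fun o : Option ι => o.elim (EnQ S w m σ N c) G) o t ≤
        (fun o : Option ι => o.elim (NQ S w m σ N c) M) o t' -
          (fun o : Option ι => o.elim (NQ S w m σ N c) M) o t := by
    intro o
    cases o with
    | none => exact fun t t' b1 b2 b3 b4 =>
        EnQ_le hm c (h1.trans b1) b2 (b3.trans hT1) (hsh _ (b4.trans (min_le_left _ _)))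
    | some i => exact fun t t' b1 b2 b3 b4 => hG i t t' b1 b2 b3 (b4.trans (min_le_right _ _))
  have k3 : ∀ o : Option ι, 0 < (fun o : Option ι => o.elim E K) o := by
    intro o
    cases o with
    | none => exact hE
    | some i => exact hK i
  have k4 : ∀ o : Option ι, (fun o : Option ι => o.elim (NQ S w m σ N c) M) o T1 -
      (fun o : Option ι => o.elim (NQ S w m σ N c) M) o T0 ≤
        (fun o : Option ι => o.elim E K) o := by
    intro o
    cases o with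
    | none => exact hNE
    | some i => exact hKM i
  obtain ⟨t, a1, a2, a3⟩ := good_fin hT (lt_min hδ0 hδ1) k1 k2 k3 k4
  refine ⟨t, a1, a2, ?_, fun i => ?_⟩
  · have := a3 none
    simpa [Fintype.card_option] using this
  · have := a3 (some i)
    simpa [Fintype.card_option] using this

/-- **(T), pigeonhole in time.** Among `J` disjoint intervals of length `2 Δ` there is a time `t`
such that `N` grows by a factor at most `1 + ε` from `t` to `t + Δ`, the increment and the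
derivatives of the matrix, weighted with `Q_1(t)`, are small, and finitely many other rates are
bounded at `t`. -/
theorem pig_time {ι : Type*} [Fintype ι] {G M : ι → ℝ → ℝ} {K : ι → ℝ} {T0 Δ ε δ1 : ℝ} {J : ℕ}
    (hm : Pm m N) (c : ℝ) (hn : 0 < n) (h1 : w ≤ T0) (hΔ : 0 < Δ) (hJ : 0 < J)
    (hT1 : T0 + 2 * J * Δ ≤ 1) (hε : 0 < ε) (hR : (n : ℝ) ^ 3 ≤ (1 + ε) ^ J) (hδ1 : 0 < δ1)
    (hG0 : ∀ i t, T0 ≤ t → t ≤ T0 + 2 * J * Δ → 0 ≤ G i t)
    (hG : ∀ i t t', T0 ≤ t → t < t' → t' ≤ T0 + 2 * J * Δ → t' - t ≤ δ1 →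
      (t' - t) * G i t ≤ M i t' - M i t)
    (hK : ∀ i, 0 < K i) (hKM : ∀ i t t', T0 ≤ t → t ≤ t' → t' ≤ T0 + 2 * J * Δ →
      M i t' - M i t ≤ K i) :
    ∃ t, T0 ≤ t ∧ t + Δ ≤ T0 + 2 * J * Δ ∧
      NQ S w m σ N c (t + Δ) ≤ (1 + ε) * NQ S w m σ N c t ∧
      IncQ S w m σ N c t (t + Δ) ≤ ε / 2 * NQ S w m σ N c t ∧
      Δ * EnQ S w m σ N c t ≤ (Fintype.card ι + 1) * (ε * NQ S w m σ N c t) ∧
      ∀ i, Δ * G i t ≤ (Fintype.card ι + 1) * K i := by
  have hn0 : (0 : ℝ) < n := by exact_mod_cast hn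
  have hNpos : ∀ t, 0 < NQ S w m σ N c t := fun t => hn0.trans_le (NQ_ge hm c)
  obtain ⟨j, hj, hj2⟩ := pig_seq (f := fun j : ℕ => NQ S w m σ N c (T0 + 2 * j * Δ)) (J := J)
    (R := (n : ℝ) ^ 3) (q := 1 + ε) (hNpos _) (by linarith) (by
      refine (NQ_le hm c).trans ?_
      have := NQ_ge (S := S) (w := w) (σ := σ) (t := T0 + 2 * ((0 : ℕ) : ℝ) * Δ) hm c
      calc (n : ℝ) ^ 4 = (n : ℝ) ^ 3 * n := by ring
        _ ≤ _ := mul_le_mul_of_nonneg_left this (by positivity)) hR hJ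
  set τ := T0 + 2 * j * Δ with hτ
  have hτ0 : T0 ≤ τ := by
    have : 0 ≤ 2 * (j : ℝ) * Δ := by positivity
    linarith
  have hτ1 : τ + 2 * Δ ≤ T0 + 2 * J * Δ := by
    have h2 : (j : ℝ) + 1 ≤ J := by exact_mod_cast hj
    rw [hτ]
    nlinarith
  have e1 : T0 + 2 * ((j + 1 : ℕ) : ℝ) * Δ = τ + 2 * Δ := by
    rw [hτ]; push_cast; ring
  rw [e1] at hj2
  have hmid : NQ S w m σ N c (τ + Δ) - NQ S w m σ N c τ ≤ ε * NQ S w m σ N c τ := by
    have := NQ_mono (S := S) (w := w) (σ := σ) (t := τ + Δ) (t' := τ + 2 * Δ) hm c (by linarith)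
      (by linarith) (by linarith)
    linarith
  obtain ⟨t, a1, a2, a3, a4⟩ := good_time (S := S) (σ := σ) (G := G) (M := M) (K := K)
    (T0 := τ) (T1 := τ + Δ) hm c (h1.trans hτ0) (by linarith) (by linarith) hδ1
    (fun i t b1 b2 => hG0 i t (hτ0.trans b1) (b2.trans (by linarith)))
    (fun i t t' b1 b2 b3 b4 => hG i t t' (hτ0.trans b1) b2 (b3.trans (by linarith)) b4) hK
    (fun i => hKM i τ (τ + Δ) hτ0 (by linarith) (by linarith))
    (mul_pos hε (hNpos τ)) hmid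
  have e2 : τ + Δ - τ = Δ := by ring
  rw [e2] at a3 a4
  have hτt : NQ S w m σ N c τ ≤ NQ S w m σ N c t :=
    NQ_mono hm c (h1.trans hτ0) a1 (by linarith)
  have htt : NQ S w m σ N c (t + Δ) ≤ NQ S w m σ N c (τ + 2 * Δ) :=
    NQ_mono hm c (by linarith) (by linarith) (by linarith)
  have hfin : NQ S w m σ N c (t + Δ) ≤ (1 + ε) * NQ S w m σ N c t :=
    htt.trans (hj2.trans (mul_le_mul_of_nonneg_left hτt (by linarith)))
  refine ⟨t, hτ0.trans a1, by linarith, hfin, ?_, ?_, a4⟩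
  · have := IncQ_le (S := S) (w := w) (σ := σ) (t := t) (t' := t + Δ) hm c (by linarith)
      (by linarith)
      (by linarith)
    linarith
  · exact a3.trans (mul_le_mul_of_nonneg_left (mul_le_mul_of_nonneg_left hτt hε.le)
      (by positivity))

end Vale.Agent.P146.H655
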