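import Vale.Agent.P146.H655.PairC
import Vale.Agent.P146.H499.RepV

/-!
The choice of the times: the deep time `t0` and the pair of late times `s1 < s2` at which all
rates, the growth bounds and (at `s2`) the overlap row hold.
-/

open MeasureTheory ProbabilityTheory

namespace Vale.Agent.P146.H655

open Vale.Agent.P157.Lv Vale.Agent.P146.H425 Vale.Agent.P146.H325 Vale.Agent.P146.H332
  Vale.Agent.P146.H712 Vale.Agent.P146.H816 Vale.Agent.P146.R1 Vale.Agent.P146.R1C Matrix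
  Vale.Agent.P146.R1S Vale.Agent.P146.H693 Vale.Agent.P146.H946.En2
open Vale.Agent.P146.H785 (Ax)
open Vale.Agent.P146.H499.RepT (Row BB MM RT tAf BB_mono BB_ge BB_le row_atR eg_MM eg_tAf)
open Vale.Agent.P146.H713.En2 (IncT RtT)

set_option linter.unusedSectionVars false

variable {n : ℕ} {k x : ℝ} {S : CS n k x} {w t t' : ℝ} {m σ : ℕ → ℝ} {P N : ℕ}

/-! ### the deep grid for a general family of stacks -/

/-- **The deep step**; `sg t0` is the stack whose last layer ends at `t0`. -/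
theorem EnY_step' {sg : ℝ → ℕ → ℝ} (hm : Pm m (P + 1)) (h0 : m P = 0) {T : ℝ}
    (hs : ∀ u v, ∀ i < P, sg u i = sg v i) (hsP : ∀ u, sg u P = √(T - u)) {a b : ℝ}
    (ha : 0 ≤ a) (hab : a ≤ b) (hb : b ≤ T) (h1 : w ≤ t) (h2 : t ≤ 1) :
    (b - a) * EnY S w m (sg a) (P + 1) (√a) t ≤
      NQ S w m (sg b) (P + 1) (√b) t - NQ S w m (sg a) (P + 1) (√a) t := by
  have h := deep_step (S := S) (t2 := t) (m := cns x m) (σ := cns (√(t - w)) (sg a))
    (σ' := cns (√(t - w)) (sg b)) (N := P + 1) (Pm_cns S.x0 hm) (by simpa using h0)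
    (fun i hi => by
      cases i with
      | zero => rfl
      | succ i => exact hs a b i (by omega))
    ha hab hb (by simpa using hsP a) (by simpa using hsP b)
  rw [NQ_nF h1 h2, NQ_nF h1 h2]
  unfold EnY
  linarith

/-- **Few bad deep times** for each late time. -/
theorem deep_bad' {sg : ℝ → ℕ → ℝ} (hm : Pm m (P + 1)) (h0 : m P = 0) {T : ℝ}
    (hs : ∀ u v, ∀ i < P, sg u i = sg v i) (hsP : ∀ u, sg u P = √(T - u)) (hn : 2 ≤ n)
    {a h q : ℝ} {M0 : ℕ} (ha : 0 ≤ a) (hh : 0 ≤ h) (hT : a + h ≤ T) (hq : 0 < q)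
    (hM : 6 * q * Real.log n ≤ M0) (h1 : w ≤ t) (h2 : t ≤ 1) :
    (((Finset.range M0).filter fun i : ℕ =>
      6 * q * Real.log n * NQ S w m (sg (a + i * (h / M0))) (P + 1)
        (√(a + i * (h / M0))) t < h * EnY S w m (sg (a + i * (h / M0))) (P + 1)
          (√(a + i * (h / M0))) t).card : ℝ) ≤ M0 / q := by
  have hn2 : (2 : ℝ) ≤ n := by exact_mod_cast hn
  have hn0 : (0 : ℝ) < n := by linarith
  have hl : 0 < Real.log n := Real.log_pos (by linarith)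
  have hK : 0 < 6 * q * Real.log n := by positivity
  have hM0 : (0 : ℝ) < M0 := hK.trans_le hM
  set δ := h / M0 with hδ
  have hδ0 : 0 ≤ δ := by positivity
  have hMδ : M0 * δ = h := by rw [hδ]; field_simp
  have hle : ∀ i : ℕ, i ≤ M0 → a + i * δ ≤ T := by
    intro i hi
    have : (i : ℝ) ≤ M0 := by exact_mod_cast hi
    nlinarith
  have h3 := bad_count (F := fun i : ℕ => NQ S w m (sg (a + i * δ)) (P + 1)
      (√(a + i * δ)) t) (g := fun i : ℕ => EnY S w m (sg (a + i * δ)) (P + 1)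
      (√(a + i * δ)) t) (N := M0) (δ := δ) (K := 6 * q * Real.log n) (R := (n : ℝ) ^ 3)
    (hn0.trans_le (NQ_ge hm _)) hδ0 (fun i _ => EnY_nonneg _ _)
    (fun i hi => by
      have h4 := EnY_step' (S := S) (w := w) (a := a + i * δ)
        (b := a + ((i + 1 : ℕ) : ℝ) * δ) hm h0 hs hsP (by positivity)
        (by push_cast; nlinarith) (hle _ (by omega)) h1 h2
      have e : a + ((i + 1 : ℕ) : ℝ) * δ - (a + i * δ) = δ := by push_cast; ring
      rw [e] at h4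
      exact h4)
    (by
      refine (NQ_le hm _).trans ?_
      calc (n : ℝ) ^ 4 = (n : ℝ) ^ 3 * n := by ring
        _ ≤ _ := mul_le_mul_of_nonneg_left (NQ_ge hm _) (by positivity)) hK hM
  rw [Real.log_pow] at h3
  push_cast at h3
  simp only [hMδ] at h3
  rw [le_div_iff₀ hq]
  have h4 : (((Finset.range M0).filter fun i : ℕ =>
      6 * q * Real.log n * NQ S w m (sg (a + i * δ)) (P + 1)
        (√(a + i * δ)) t < h * EnY S w m (sg (a + i * δ)) (P + 1)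
          (√(a + i * δ)) t).card : ℝ) * q * (6 * Real.log n) ≤ M0 * (6 * Real.log n) := by
    linarith
  exact le_of_mul_le_mul_right h4 (by positivity)

/-- **One deep time for all sub-intervals.** -/
theorem deep_common' {sg : ℝ → ℕ → ℝ} (hm : Pm m (P + 1)) (h0 : m P = 0) {T : ℝ}
    (hs : ∀ u v, ∀ i < P, sg u i = sg v i) (hsP : ∀ u, sg u P = √(T - u)) (hn : 2 ≤ n)
    {a h q : ℝ} {M0 J M : ℕ} (ha : 0 ≤ a) (hh : 0 ≤ h) (hT : a + h ≤ T) (hq : 0 < q)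
    (hM : 6 * q * Real.log n ≤ M0) (τ : ℕ → ℕ → ℝ) (h1 : ∀ l < J, ∀ j < M, w ≤ τ l j)
    (h2 : ∀ l < J, ∀ j < M, τ l j ≤ 1) :
    ∃ t0, a ≤ t0 ∧ t0 ≤ a + h ∧ ∀ l < J, ∃ B : Finset ℕ, B ⊆ Finset.range M ∧
      (B.card : ℝ) ≤ M * (J / q) ∧ ∀ j < M, j ∉ B →
        h * EnY S w m (sg t0) (P + 1) (√t0) (τ l j) ≤
          6 * q * Real.log n * NQ S w m (sg t0) (P + 1) (√t0) (τ l j) := by
  classical
  have hn2 : (2 : ℝ) ≤ n := by exact_mod_cast hn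
  have hl : 0 < Real.log n := Real.log_pos (by linarith)
  have hM0 : (0 : ℝ) < M0 := lt_of_lt_of_le (by positivity) hM
  obtain ⟨i, hi, hi2⟩ := good_common (M0 := M0) (J := J) (M := M)
    (fun i l j => 6 * q * Real.log n * NQ S w m (sg (a + i * (h / M0))) (P + 1)
        (√(a + i * (h / M0))) (τ l j) < h * EnY S w m (sg (a + i * (h / M0))) (P + 1)
          (√(a + i * (h / M0))) (τ l j)) (c0 := M0 / q) (by exact_mod_cast hM0)
    (fun l hl j hj => by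
      have := deep_bad' (S := S) (t := τ l j) hm h0 hs hsP hn ha hh hT hq hM (h1 l hl j hj)
        (h2 l hl j hj)
      convert this)
  have hi' : (i : ℝ) ≤ M0 := by exact_mod_cast hi.le
  refine ⟨a + i * (h / M0), ?_, ?_, fun l hl => ?_⟩
  · have : 0 ≤ (i : ℝ) * (h / M0) := by positivity
    linarith
  · have h5 : (i : ℝ) * (h / M0) ≤ M0 * (h / M0) := mul_le_mul_of_nonneg_right hi' (by positivity)
    have h6 : (M0 : ℝ) * (h / M0) = h := by field_simp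
    linarith
  · refine ⟨(Finset.range M).filter fun j => 6 * q * Real.log n *
      NQ S w m (sg (a + i * (h / M0))) (P + 1)
        (√(a + i * (h / M0))) (τ l j) < h * EnY S w m (sg (a + i * (h / M0))) (P + 1)
          (√(a + i * (h / M0))) (τ l j), Finset.filter_subset _ _, ?_, fun j hj hjB => ?_⟩
    · have h3 := hi2 l hl
      have h4 : (J : ℝ) * M * (M0 / q) = M0 * (M * (J / q)) := by ring
      rw [h4] at h3
      have h5 := le_of_mul_le_mul_left h3 hM0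
      convert h5
    · by_contra hcon
      push Not at hcon
      exact hjB (Finset.mem_filter.2 ⟨Finset.mem_range.2 hj, hcon⟩)

/-! ### the lower size at the same time -/

lemma tA_mono {M M' : Matrix (Fin n) (Fin n) ℝ} (h : Psd (M' - M)) (t : ℝ) (u : Pair n → ℝ) :
    H499.RepT.tA S t M u ≤ H499.RepT.tA S t M' u := by
  have h1 := h.sum_mul_nonneg (S.psd_A t u)
  have e : ∑ i, ∑ j, (M' - M) i j * S.A t u i j =
      H499.RepT.tA S t M' u - H499.RepT.tA S t M u := by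
    unfold H499.RepT.tA
    rw [← Finset.sum_sub_distrib]
    refine Finset.sum_congr rfl fun i _ => ?_
    rw [← Finset.sum_sub_distrib]
    exact Finset.sum_congr rfl fun j _ => by rw [Matrix.sub_apply]; ring
  linarith

/-- the size number increases with the time of the weight -/
theorem MM_mono (hm : Pm m N) (c : ℝ) {τ : ℝ} (h1 : w ≤ τ) (h2 : τ ≤ t) (h3 : t ≤ 1) :
    MM S w m σ N c τ t ≤ MM S w m σ N c t t :=
  integral_mono (eg_MM hm c τ t).integrable (eg_MM hm c t t).integrable fun g =>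
    E1_mono hm (eg_tAf t _) (eg_tAf t _) (fun u =>
      mul_le_mul_of_nonneg_right (tA_mono (Q1_inc hm h1 h2 h3 (c • g)) t u)
        (H332.fr_nonneg _)) (c • g)

/-! ### the choice of the times -/

/-- the good set without two small bad sets -/
lemma card_two {G B1 B2 : Finset ℕ} {α β γ : ℝ} (h1 : α ≤ G.card)
    (h2 : (B1.card : ℝ) ≤ β) (h3 : (B2.card : ℝ) ≤ γ) :
    α - β - γ ≤ ((G \ B1) \ B2).card := by
  have a1 : G.card - B1.card ≤ (G \ B1).card := Finset.le_card_sdiff B1 G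
  have a2 : (G \ B1).card - B2.card ≤ ((G \ B1) \ B2).card := Finset.le_card_sdiff B2 _
  have a3 : (G.card : ℝ) ≤ (G \ B1).card + B1.card := by
    have : G.card ≤ (G \ B1).card + B1.card := by omega
    exact_mod_cast this
  have a4 : ((G \ B1).card : ℝ) ≤ ((G \ B1) \ B2).card + B2.card := by
    have : (G \ B1).card ≤ ((G \ B1) \ B2).card + B2.card := by omega
    exact_mod_cast this
  linarith

/-- **What holds at each of the two late times.** -/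
structure AtTime (S : CS n k x) (w : ℝ) (m σ : ℕ → ℝ) (N : ℕ) (c h h0 Δ ε q q0 Nb δ Λ qB t : ℝ)
    (p : ℕ) : Prop where
  rt : RatesP S w m σ N c h Δ ε q Nb δ p t
  enY : h0 * EnY S w m σ N c t ≤ 6 * q0 * Real.log n * NQ S w m σ N c t
  lo : Λ * BB S w m σ N c t ≤ qB * MM S w m σ N c t t

/-- **The pair of late times.** -/
structure AtPair (S : CS n k x) (w : ℝ) (m σ : ℕ → ℝ) (N : ℕ)
    (c h h0 Δ ε q q0 Nb δ Λ qB e' s1 s2 : ℝ) (p : ℕ) : Prop where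
  a1 : AtTime S w m σ N c h h0 Δ ε q q0 Nb δ Λ qB s1 p
  a2 : AtTime S w m σ N c h h0 Δ ε q q0 Nb δ Λ qB s2 p
  ord1 : s1 + Δ / 2 ≤ s2
  ord2 : s2 ≤ s1 + Δ
  inc : IncQ S w m σ N c s1 s2 ≤ ε / 2 * NQ S w m σ N c s1
  incT : IncT S w m σ N c s1 s2 ≤ 12 * ε * (Nb * NQ S w m σ N c s1)
  /-- the overlap row at `s2` -/
  rr : (1 - e') * MM S w m σ N c s2 s2 ≤ RT S w m σ N c s2 s2

/-- **The good times of one interval.** -/
theorem good_at {ι : Type*} [Fintype ι] (hm : Pm m N) (c : ℝ) (hn : 2 ≤ n)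
    {a h h0 Δ ε q q0 Nb η : ℝ} {M p : ℕ} (h1 : w ≤ a) (hh : 0 < h)
    (hΔ : Δ = p * (h / M))
    (h2 : a + h + p * (h / M) ≤ 1) (hSh : Sh S (h / M)) (hq : 1 ≤ q) (hε : 0 < ε)
    (hε1 : ε ≤ 1) (hNb : 0 < Nb)
    (hpB : ∀ t, a ≤ t → t ≤ a + h + p * (h / M) → pB S w m σ N c Nb t ≤ η)
    (hη : (4 + 128 * (M + p)) * (n : ℝ) ^ 6 * η ≤ ε * (Nb * n))
    (hM1 : 8 * q * Real.log n ≤ M)
    (hpM : q * (p * (4 * Real.log n)) ≤ M * Real.log (1 + ε)) {f g : ι → ℝ → ℝ}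
    {e K R : ι → ℝ} (hf : ∀ i, 0 < f i a) (he : ∀ i, 0 ≤ e i)
    (hg : ∀ i t, a ≤ t → t ≤ a + h + p * (h / M) → 0 ≤ g i t)
    (hs : ∀ i t, a ≤ t → t + h / M ≤ a + h + p * (h / M) →
      h / M * g i t ≤ f i (t + h / M) - f i t + e i)
    (hR : ∀ i, f i (a + h + p * (h / M)) + (M + p) * e i ≤ R i * f i a)
    (hK : ∀ i, 2 * q * Real.log (R i) ≤ K i) (hK0 : ∀ i, 0 < K i) (hKM : ∀ i, K i ≤ M)
    (hpR : ∀ i, q * (p * Real.log (R i)) ≤ M * Real.log (1 + ε))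
    {Λ qB β γ : ℝ} {B0 B1 : Finset ℕ} (hB0c : (B0.card : ℝ) ≤ M * β)
    (hB0 : ∀ j < M, j ∉ B0 → h0 * EnY S w m σ N c (a + j * (h / M)) ≤
      6 * q0 * Real.log n * NQ S w m σ N c (a + j * (h / M)))
    (hB1c : (B1.card : ℝ) ≤ M * γ)
    (hB1 : ∀ j ∈ Finset.range M, j ∉ B1 →
        Λ * BB S w m σ N c a ≤ MM S w m σ N c a (a + j * (h / M)))
    (hΛ : 0 < Λ) (hqB0 : 0 < qB) (hqB : BB S w m σ N c (a + h) ≤ qB * BB S w m σ N c a) :
    ∃ G ⊆ Finset.range M, (M : ℝ) * (1 - (2 * (Fintype.card ι + 3) / q + β + γ)) ≤ G.card ∧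
      ∀ j ∈ G, j ∉ B1 ∧ AtTime S w m σ N c h h0 Δ ε q q0 Nb (h / M) Λ qB (a + j * (h / M)) p ∧
        BB S w m σ N c (a + j * (h / M)) ≤ qB * BB S w m σ N c a ∧
        ∀ o, h * g o (a + j * (h / M)) ≤ K o * (f o (a + j * (h / M)) + M * e o) ∧
          ∀ p' ≤ p, f o (a + j * (h / M) + p' * (h / M)) ≤
            (1 + ε) * (f o (a + j * (h / M)) + M * e o) := by
  have hn2 : (2 : ℝ) ≤ n := by exact_mod_cast hn
  have hl : 0 < Real.log n := Real.log_pos (by linarith)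
  have hM : (0 : ℝ) < M := lt_of_lt_of_le (by positivity) hM1
  have hδ0 : 0 < h / M := by positivity
  have hMδ : (M : ℝ) * (h / M) = h := by field_simp
  have hpδ : 0 ≤ p * (h / M) := by positivity
  have hj0 : ∀ j : ℕ, 0 ≤ (j : ℝ) * (h / M) := fun j => by positivity
  obtain ⟨G, hG, hGc, hGb⟩ := rates2 (ι := ι) (S := S) (σ := σ) (a := a) (p := p) (Δ := Δ)
    (f := f) (g := g) (e := e) (K := K) (R := R) hm c hn h1 hh hΔ.le
    h2 hSh hq hε hε1 hNb hpB hη hM1 hpM hf he hg hs hR hK hK0 hKM hpR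
  have hcard := card_two hGc hB0c hB1c
  have hah : a + h ≤ 1 := by linarith
  refine ⟨(G \ B0) \ B1, (Finset.sdiff_subset.trans Finset.sdiff_subset).trans hG,
    le_trans (le_of_eq (by ring)) hcard, fun j hj => ?_⟩
  obtain ⟨hj1, hnB1⟩ := Finset.mem_sdiff.1 hj
  obtain ⟨hjG, hnB0⟩ := Finset.mem_sdiff.1 hj1
  have hjM : j < M := Finset.mem_range.1 (hG hjG)
  have hjT : a + j * (h / M) ≤ a + h := by
    have h3 : (j : ℝ) ≤ M := by exact_mod_cast hjM.le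
    have h4 : (j : ℝ) * (h / M) ≤ M * (h / M) := mul_le_mul_of_nonneg_right h3 hδ0.le
    linarith
  have hBq : BB S w m σ N c (a + j * (h / M)) ≤ qB * BB S w m σ N c a :=
    (BB_mono hm c (by linarith [hj0 j]) hjT hah).trans hqB
  obtain ⟨c1, c2⟩ := hGb j hjG _ rfl
  refine ⟨hnB1, ⟨c1, hB0 j hjM hnB0, ?_⟩, hBq, c2⟩
  have a1 := hB1 j (hG hjG) hnB1
  have a2 := MM_mono (S := S) (w := w) (σ := σ) (τ := a)
    (t := a + j * (h / M)) hm c h1 (by linarith [hj0 j]) (hjT.trans hah)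
  calc Λ * BB S w m σ N c (a + j * (h / M)) ≤ Λ * (qB * BB S w m σ N c a) :=
        mul_le_mul_of_nonneg_left hBq hΛ.le
    _ = qB * (Λ * BB S w m σ N c a) := by ring
    _ ≤ qB * MM S w m σ N c (a + j * (h / M)) (a + j * (h / M)) :=
        mul_le_mul_of_nonneg_left (a1.trans a2) hqB0.le

/-- **The pair in one interval**, from a dense set of good times. -/
theorem pair_at (hm : Pm m N) (c : ℝ) (hn : 2 ≤ n)
    {a h h0 Δ ε q q0 Nb η : ℝ} {M p : ℕ} (h1 : w ≤ a) (hh : 0 < h) (hp : 0 < p) (hM : 0 < M)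
    (hΔ : Δ = 2 * p * (h / M)) (hah : a + h ≤ 1) (hε : 0 < ε)
    (hε1 : ε ≤ 1) (hNb : 0 < Nb) (hη0 : 0 ≤ η)
    (hpB : ∀ t, a ≤ t → t ≤ a + h → pB S w m σ N c Nb t ≤ η)
    (hη : 66 * (n : ℝ) ^ 6 * η ≤ ε * (Nb * n))
    {κ c0 L Λ qB b φ e' ε2 : ℝ} {B1 G1 : Finset ℕ}
    (hB1 : ∀ j ∈ Finset.range M, j ∉ B1 →
        Λ * BB S w m σ N c a ≤ MM S w m σ N c a (a + j * (h / M)))
    {P : ℝ → ℝ → Prop} (hP : ∀ i < M, ∃ B : Finset ℕ, (B.card : ℝ) ≤ p * φ ∧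
      ∀ r < p, r ∉ B → P (a + i * (h / M)) (a + i * (h / M) + p * (h / M) + r * (h / M)))
    (hrow : ∀ G ⊆ Finset.range M, Row S a (h / M) κ c0 L G)
    (hc0 : 0 ≤ c0) (hL0 : 0 ≤ L) (hL : (n : ℝ) ^ 3 * Real.exp (-L) ≤ 1)
    (hΛ : 0 < Λ) (he1 : e' ≤ 1) (hε2 : 0 ≤ ε2)
    (hnum : Nb * (qB - 1) + 2 * (n : ℝ) ^ 5 * η ≤ ε2 * Λ)
    (hκe : (1 - e') * (1 + ε2) + c0 * (L + 1) / (Λ * (h / 2)) ≤ κ)
    (hfr : 2 * b + φ + 2 * p / M ≤ 1 / 2) (hG1r : G1 ⊆ Finset.range M)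
    (hGc1 : (M : ℝ) * (1 - b) ≤ G1.card)
    (hG1 : ∀ j ∈ G1, j ∉ B1 ∧
      AtTime S w m σ N c h h0 Δ ε q q0 Nb (h / M) Λ qB (a + j * (h / M)) (2 * p) ∧
      BB S w m σ N c (a + j * (h / M)) ≤ qB * BB S w m σ N c a) :
    ∃ i ∈ G1, ∃ j ∈ G1, AtPair S w m σ N c h h0 Δ ε q q0 Nb (h / M) Λ qB e'
        (a + i * (h / M)) (a + j * (h / M)) (2 * p) ∧
      P (a + i * (h / M)) (a + j * (h / M)) := by
  have hn0' : 0 < n := by omega
  have hM' : (0 : ℝ) < M := by exact_mod_cast hM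
  have hp' : (0 : ℝ) < p := by exact_mod_cast hp
  have hδ0 : 0 < h / M := by positivity
  have hMδ : (M : ℝ) * (h / M) = h := by field_simp
  have hj0 : ∀ j : ℕ, 0 ≤ (j : ℝ) * (h / M) := fun j => by positivity
  choose! B hBc hBP using hP
  obtain ⟨G2, hG2r, hG2c, hG2b⟩ := pair_count (B := B) (γ := φ) hp hG1r hGc1 hBc
  obtain ⟨G', hG'⟩ : ∃ G', G' = G1 ∩ G2 := ⟨_, rfl⟩
  have hG'1 : G' ⊆ G1 := by rw [hG']; exact Finset.inter_subset_left
  have hG'2 : G' ⊆ G2 := by rw [hG']; exact Finset.inter_subset_right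
  have hG'r : G' ⊆ Finset.range M := hG'1.trans hG1r
  have hGc' : (M : ℝ) / 2 ≤ G'.card := by
    have b1 := Finset.card_union_add_card_inter G1 G2
    have b2 : (G1 ∪ G2).card ≤ M := by
      have := Finset.card_le_card (Finset.union_subset hG1r hG2r)
      rwa [Finset.card_range] at this
    have b3 : (G1.card : ℝ) + G2.card ≤ M + G'.card := by
      rw [hG']
      exact_mod_cast (by omega : G1.card + G2.card ≤ M + (G1 ∩ G2).card)
    have b4 := mul_le_mul_of_nonneg_left hfr hM'.le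
    have b5 : (M : ℝ) * (2 * b + φ + 2 * p / M) = M * (2 * b + φ) + 2 * p := by
      field_simp
    rw [b5] at b4
    linarith
  have hjT : ∀ j ∈ G1, a + j * (h / M) ≤ a + h := fun j hj => by
    have h3 : (j : ℝ) ≤ M := by exact_mod_cast (Finset.mem_range.1 (hG1r hj)).le
    have h4 : (j : ℝ) * (h / M) ≤ M * (h / M) := mul_le_mul_of_nonneg_right h3 hδ0.le
    linarith
  have hpB1 : ∀ j ∈ G1, pB S w m σ N c Nb (a + j * (h / M)) ≤ η := fun j hj =>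
    hpB _ (by linarith [hj0 j]) (hjT j hj)
  obtain ⟨j, hj, hj2⟩ := row_atR (S := S) (σ := σ) (Θ := h / 2) (hrow G' hG'r) hm hn0'
    h1 hδ0 (fun j hj => (hjT j (hG'1 hj)).trans hah) (by linarith) hc0 hL0 hL
    c (by positivity)
    (by
      calc h / 2 = h / M * (M / 2) := by field_simp
        _ ≤ _ := mul_le_mul_of_nonneg_left hGc' hδ0.le) hΛ hNb.le he1 hε2
    (fun j hj => (hG1 j (hG'1 hj)).2.2) (fun j hj => hpB1 j (hG'1 hj)) hη0 hnum hκe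
    (fun j hj => hB1 j (hG'r hj) (hG1 j (hG'1 hj)).1)
  obtain ⟨i, hi, r, hr, hrB, hir⟩ := hG2b j (hG'2 hj)
  have hiM : i < M := Finset.mem_range.1 (hG1r hi)
  have hr' : (r : ℝ) ≤ p := by exact_mod_cast hr.le
  have hr0 : 0 ≤ (r : ℝ) * (h / M) := hj0 r
  have hr1 : (r : ℝ) * (h / M) ≤ p * (h / M) := mul_le_mul_of_nonneg_right hr' hδ0.le
  have hp0 : 0 ≤ (p : ℝ) * (h / M) := hj0 p
  have ej : a + j * (h / M) = a + i * (h / M) + p * (h / M) + r * (h / M) := by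
    rw [hir]; push_cast; ring
  have ej2 : a + j * (h / M) = a + i * (h / M) + (p + r : ℕ) * (h / M) := by
    rw [hir]; push_cast; ring
  have hi1 := (hG1 i hi).2.1
  refine ⟨i, hi, j, hG'1 hj, ⟨hi1, (hG1 j (hG'1 hj)).2.1, ?_, ?_, ?_, ?_, hj2⟩, ?_⟩
  · rw [ej, hΔ]; linarith
  · rw [ej, hΔ]; linarith
  · exact hi1.rt.inc _ (by rw [ej]; linarith) (by rw [ej, hΔ]; linarith)
  · exact incT_of (p := 2 * p) (p' := p + r) hm hNb hε.le hε1 (by linarith [hj0 i]) hδ0.le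
      (by omega) ej2 ((hjT j (hG'1 hj)).trans hah) (hpB1 i hi) (hpB1 j (hG'1 hj)) hη0 hη hi1.rt
  · rw [ej]
    exact hBP i hiM r hr hrB

/-- an interval on which `BB` is almost constant -/
lemma bb_interval (hm : Pm m N) (c : ℝ) (hn : 0 < n) {T0 h qB : ℝ} {J : ℕ} (hJ : 0 < J)
    (h1 : w ≤ T0) (hh : 0 ≤ h) (h2 : T0 + J * h ≤ 1) (hqB0 : 0 < qB)
    (hqB : (n : ℝ) ^ 3 ≤ qB ^ J) :
    ∃ l < J, BB S w m σ N c (T0 + l * h + h) ≤ qB * BB S w m σ N c (T0 + l * h) := by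
  have hl0 : ∀ l : ℕ, 0 ≤ (l : ℝ) * h := fun l => by positivity
  have hTJ : ∀ l : ℕ, l ≤ J → T0 + l * h ≤ 1 := by
    intro l hl
    have : (l : ℝ) ≤ J := by exact_mod_cast hl
    have := mul_le_mul_of_nonneg_right this hh
    linarith
  have a1 := BB_ge (S := S) (w := w) (σ := σ) (t := T0 + ((0 : ℕ) : ℝ) * h) hm c hn
    (h1.trans (by linarith [hl0 0])) (hTJ 0 (by omega))
  obtain ⟨l, hl1, hl2⟩ := pig_seq (f := fun l : ℕ => BB S w m σ N c (T0 + l * h)) (J := J)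
    (R := (n : ℝ) ^ 3) (q := qB) (by linarith) hqB0.le
    (by
      have a2 := BB_le (S := S) (w := w) (σ := σ) (t := T0 + J * h) hm c
      have a3 : (0 : ℝ) ≤ (n : ℝ) ^ 3 := by positivity
      nlinarith) hqB hJ
  refine ⟨l, hl1, ?_⟩
  have e1 : T0 + ((l + 1 : ℕ) : ℝ) * h = T0 + l * h + h := by push_cast; ring
  rw [e1] at hl2
  exact hl2

/-- **The choice of the times.** `sg t0`: the lower layers, the last one of exponent `0` and
length `T - t0`; deep times in `[a0, a0 + h0']`; `J` intervals of length `h` from `T0` on, each with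
a grid of `M` times; `f, g, e`: further potentials, which may depend on `t0` and on the interval;
`hbad`: the lower size off a small set of times; `P`: a property of pairs of times, which holds for
most second times; `hrow`: the overlap row. The two late times satisfy
`s1 + Δ / 2 ≤ s2 ≤ s1 + Δ`, `Δ = 2 p h / M`. -/
theorem times {ι : Type*} [Fintype ι] {sg : ℝ → ℕ → ℝ} (hm : Pm m (P + 1)) (h0 : m P = 0)
    {T : ℝ} (hsg : ∀ u v, ∀ i < P, sg u i = sg v i) (hsP : ∀ u, sg u P = √(T - u))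
    (hn : 2 ≤ n) {a0 h0' q0 : ℝ} {M0 : ℕ} (ha0 : 0 ≤ a0) (hh0 : 0 ≤ h0') (hT0 : a0 + h0' ≤ T)
    (hq0 : 0 < q0) (hM0 : 6 * q0 * Real.log n ≤ M0)
    {T0 h Δ ε q Nb η : ℝ} {M p J : ℕ} (hJ : 0 < J) (h1 : w ≤ T0) (hh : 0 < h) (hp : 0 < p)
    (hΔ : Δ = 2 * p * (h / M)) (h2 : T0 + J * h + 2 * p * (h / M) ≤ 1) (hSh : Sh S (h / M))
    (hq : 1 ≤ q) (hε : 0 < ε) (hε1 : ε ≤ 1) (hNb : 0 < Nb)
    (hpB : ∀ t0, a0 ≤ t0 → t0 ≤ a0 + h0' → ∀ t, T0 ≤ t → t ≤ T0 + J * h + 2 * p * (h / M) →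
      pB S w m (sg t0) (P + 1) (√t0) Nb t ≤ η)
    (hη : (66 + 128 * (M + 2 * p)) * (n : ℝ) ^ 6 * η ≤ ε * (Nb * n))
    (hM1 : 8 * q * Real.log n ≤ M)
    (hpM : q * (2 * p * (4 * Real.log n)) ≤ M * Real.log (1 + ε))
    {f g : ℝ → ℕ → ι → ℝ → ℝ} {e K R : ℝ → ℕ → ι → ℝ}
    (hf : ∀ t0, a0 ≤ t0 → t0 ≤ a0 + h0' → ∀ l < J, ∀ o, 0 < f t0 l o (T0 + l * h))
    (he : ∀ t0, a0 ≤ t0 → t0 ≤ a0 + h0' → ∀ l < J, ∀ o, 0 ≤ e t0 l o)
    (hg : ∀ t0, a0 ≤ t0 → t0 ≤ a0 + h0' → ∀ l < J, ∀ o t, T0 + l * h ≤ t →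
      t ≤ T0 + l * h + h + 2 * p * (h / M) → 0 ≤ g t0 l o t)
    (hs : ∀ t0, a0 ≤ t0 → t0 ≤ a0 + h0' → ∀ l < J, ∀ o t, T0 + l * h ≤ t →
      t + h / M ≤ T0 + l * h + h + 2 * p * (h / M) →
      h / M * g t0 l o t ≤ f t0 l o (t + h / M) - f t0 l o t + e t0 l o)
    (hR : ∀ t0, a0 ≤ t0 → t0 ≤ a0 + h0' → ∀ l < J, ∀ o,
      f t0 l o (T0 + l * h + h + 2 * p * (h / M)) + (M + 2 * p) * e t0 l o ≤
        R t0 l o * f t0 l o (T0 + l * h))
    (hK : ∀ t0, a0 ≤ t0 → t0 ≤ a0 + h0' → ∀ l < J, ∀ o,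
      2 * q * Real.log (R t0 l o) ≤ K t0 l o)
    (hK0 : ∀ t0, a0 ≤ t0 → t0 ≤ a0 + h0' → ∀ l < J, ∀ o, 0 < K t0 l o)
    (hKM : ∀ t0, a0 ≤ t0 → t0 ≤ a0 + h0' → ∀ l < J, ∀ o, K t0 l o ≤ M)
    (hpR : ∀ t0, a0 ≤ t0 → t0 ≤ a0 + h0' → ∀ l < J, ∀ o,
      q * (2 * p * Real.log (R t0 l o)) ≤ M * Real.log (1 + ε))
    {κ c0 L Λ qB qb φ e' ε2 : ℝ} (hqb : 0 < qb)
    (hbad : ∀ t0, a0 ≤ t0 → t0 ≤ a0 + h0' → ∀ l < J, ∃ B ⊆ Finset.range M,
      qb * B.card ≤ M ∧ ∀ j ∈ Finset.range M, j ∉ B →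
        Λ * BB S w m (sg t0) (P + 1) (√t0) (T0 + l * h) ≤
          MM S w m (sg t0) (P + 1) (√t0) (T0 + l * h) (T0 + l * h + j * (h / M)))
    {Pr : ℝ → ℝ → ℝ → Prop}
    (hPr : ∀ t0, a0 ≤ t0 → t0 ≤ a0 + h0' → ∀ t, T0 ≤ t → t ≤ T0 + J * h →
      ∃ B : Finset ℕ, (B.card : ℝ) ≤ p * φ ∧
        ∀ r < p, r ∉ B → Pr t0 t (t + p * (h / M) + r * (h / M)))
    (hrow : ∀ l < J, ∀ G ⊆ Finset.range M, Row S (T0 + l * h) (h / M) κ c0 L G)
    (hc0 : 0 ≤ c0) (hL0 : 0 ≤ L) (hL : (n : ℝ) ^ 3 * Real.exp (-L) ≤ 1)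
    (hΛ : 0 < Λ) (hqB0 : 0 < qB) (hqB : (n : ℝ) ^ 3 ≤ qB ^ J) (he1 : e' ≤ 1) (hε2 : 0 ≤ ε2)
    (hnum : Nb * (qB - 1) + 2 * (n : ℝ) ^ 5 * η ≤ ε2 * Λ)
    (hκe : (1 - e') * (1 + ε2) + c0 * (L + 1) / (Λ * (h / 2)) ≤ κ)
    (hfr : 2 * (2 * (Fintype.card ι + 3) / q + J / q0 + 1 / qb) + φ + 2 * p / M ≤ 1 / 2) :
    ∃ t0, a0 ≤ t0 ∧ t0 ≤ a0 + h0' ∧ ∃ l < J, ∃ i < M, ∃ j < M,
      AtPair S w m (sg t0) (P + 1) (√t0) h h0' Δ ε q q0 Nb (h / M) Λ qB e'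
        (T0 + l * h + i * (h / M)) (T0 + l * h + j * (h / M)) (2 * p) ∧
      Pr t0 (T0 + l * h + i * (h / M)) (T0 + l * h + j * (h / M)) ∧
      ∀ o, ∀ r, r = i ∨ r = j → h * g t0 l o (T0 + l * h + r * (h / M)) ≤
          K t0 l o * (f t0 l o (T0 + l * h + r * (h / M)) + M * e t0 l o) ∧
        ∀ p' ≤ 2 * p, f t0 l o (T0 + l * h + r * (h / M) + p' * (h / M)) ≤
          (1 + ε) * (f t0 l o (T0 + l * h + r * (h / M)) + M * e t0 l o) := by
  have hn2 : (2 : ℝ) ≤ n := by exact_mod_cast hn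
  have hlg : 0 < Real.log n := Real.log_pos (by linarith)
  have hM : (0 : ℝ) < M := lt_of_lt_of_le (by positivity) hM1
  have hMn : 0 < M := by exact_mod_cast hM
  have hδ0 : 0 < h / M := by positivity
  have hMδ : (M : ℝ) * (h / M) = h := by field_simp
  have hpδ : 0 ≤ 2 * p * (h / M) := by positivity
  have hlh : ∀ l < J, (l : ℝ) * h + h ≤ J * h := by
    intro l hl
    have : (l : ℝ) + 1 ≤ J := by exact_mod_cast hl
    nlinarith
  have hjh : ∀ j < M, (j : ℝ) * (h / M) ≤ h := by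
    intro j hj
    have h3 : (j : ℝ) ≤ M := by exact_mod_cast hj.le
    have h4 : (j : ℝ) * (h / M) ≤ M * (h / M) := mul_le_mul_of_nonneg_right h3 hδ0.le
    linarith
  have hj0 : ∀ j : ℕ, 0 ≤ (j : ℝ) * (h / M) := fun j => by positivity
  have hlT : ∀ l : ℕ, T0 ≤ T0 + l * h := fun l => by
    have : 0 ≤ (l : ℝ) * h := by positivity
    linarith
  have e2p : ((2 * p : ℕ) : ℝ) = 2 * p := by push_cast; ring
  obtain ⟨t0, ht1, ht2, hB0⟩ := deep_common' (S := S) (J := J) (M := M) hm h0 hsg hsP hn ha0 hh0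
    hT0 hq0 hM0 (fun l j => T0 + l * h + j * (h / M))
    (fun l hl j hj => by
      have a1 := hj0 j
      have a2 := hlT l
      show w ≤ T0 + l * h + j * (h / M)
      linarith)
    (fun l hl j hj => by
      have a1 := hlh l hl
      have a2 := hjh j hj
      show T0 + l * h + j * (h / M) ≤ 1
      linarith)
  obtain ⟨l, hl1, hl2⟩ := bb_interval (S := S) (σ := sg t0) hm (√t0) (by omega) hJ h1 hh.le
    (by linarith) hqB0 hqB
  have hlJ := hlh l hl1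
  have hηp : 0 ≤ η := (pB_nonneg (√t0) Nb).trans (hpB t0 ht1 ht2 T0 le_rfl
    (by have : 0 ≤ (J : ℝ) * h := by positivity
        linarith))
  have hn6 : 0 ≤ (n : ℝ) ^ 6 * η := by positivity
  obtain ⟨B0, hB0s, hB0c, hB0b⟩ := hB0 l hl1
  obtain ⟨B1, hB1s, hB1c, hB1b⟩ := hbad t0 ht1 ht2 l hl1
  obtain ⟨G, hGr, hGc, hGb⟩ := good_at (ι := ι) (S := S) (σ := sg t0) (a := T0 + l * h)
    (p := 2 * p) (Δ := Δ) (Λ := Λ) (qB := qB)
    (f := f t0 l) (g := g t0 l) (e := e t0 l) (K := K t0 l) (R := R t0 l) (β := J / q0)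
    (γ := 1 / qb) (q0 := q0) (h0 := h0') hm (√t0) hn (h1.trans (hlT l)) hh
    (by rw [e2p]; exact hΔ) (by rw [e2p]; linarith) hSh hq hε hε1 hNb
    (fun t b1 b2 => hpB t0 ht1 ht2 t ((hlT l).trans b1) (by rw [e2p] at b2; linarith))
    (by
      rw [e2p]
      refine le_trans ?_ hη
      have : (4 + 128 * ((M : ℝ) + 2 * p)) * ((n : ℝ) ^ 6 * η) ≤
          (66 + 128 * ((M : ℝ) + 2 * p)) * ((n : ℝ) ^ 6 * η) :=
        mul_le_mul_of_nonneg_right (by linarith) hn6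
      linarith) hM1 (by rw [e2p]; exact hpM)
    (hf t0 ht1 ht2 l hl1) (he t0 ht1 ht2 l hl1) (by rw [e2p]; exact hg t0 ht1 ht2 l hl1)
    (by rw [e2p]; exact hs t0 ht1 ht2 l hl1)
    (by rw [e2p]; exact hR t0 ht1 ht2 l hl1) (hK t0 ht1 ht2 l hl1) (hK0 t0 ht1 ht2 l hl1)
    (hKM t0 ht1 ht2 l hl1) (by rw [e2p]; exact hpR t0 ht1 ht2 l hl1) hB0c hB0b
    (by rw [mul_one_div, le_div_iff₀ hqb]; linarith) hB1b hΛ hqB0 hl2
  obtain ⟨i, hi, j, hj, hij, hPij⟩ := pair_at (S := S) (σ := sg t0) (a := T0 + l * h)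
    (Δ := Δ) (h0 := h0') (q0 := q0) (q := q) (P := Pr t0) (φ := φ) (ε2 := ε2)
    (e' := e') hm (√t0) hn (h1.trans (hlT l)) hh hp hMn hΔ (by linarith) hε hε1 hNb hηp
    (fun t b1 b2 => hpB t0 ht1 ht2 t ((hlT l).trans b1) (by linarith))
    (by
      refine le_trans ?_ hη
      have : 0 ≤ 128 * ((M : ℝ) + 2 * p) * ((n : ℝ) ^ 6 * η) := by positivity
      linarith) hB1b
    (fun i hi => hPr t0 ht1 ht2 _ (by linarith [hj0 i, hlT l]) (by linarith [hjh i hi]))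
    (hrow l hl1) hc0 hL0 hL hΛ he1 hε2 hnum hκe hfr hGr hGc
    (fun j hj => ⟨(hGb j hj).1, (hGb j hj).2.1, (hGb j hj).2.2.1⟩)
  refine ⟨t0, ht1, ht2, l, hl1, i, Finset.mem_range.1 (hGr hi), j,
    Finset.mem_range.1 (hGr hj), hij, hPij, ?_⟩
  rintro o r (rfl | rfl)
  · exact (hGb r hi).2.2.2 o
  · exact (hGb r hj).2.2.2 o

end Vale.Agent.P146.H655
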